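import Mathlib

/-! Row 69: the algebraic end game. A relation `∑ u ^ (pos i n) • a i = 0` with gaps tending to
infinity cannot hold in a `ℤ[u, u⁻¹]`-module unless `a r` is killed by a product of `u ^ m - 1`. -/

set_option autoImplicit false

open Filter

namespace Crest.Agent.R69

/-- high powers of `β` times the `c i` do not sum to `x` -/
theorem alg_krull {k C : Type*} [Field k] [Fintype C] {β : k} (h0 : β ≠ 0)
    (hβ : β⁻¹ ∉ Subring.closure {β}) {x : k} (hx0 : x ≠ 0) (hx : x ∈ Subring.closure {β})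
    {c : C → k} (hc : ∀ i, c i ∈ Subring.closure {β}) :
    ∃ g : ℕ, ∀ e : C → ℕ, (∀ i, c i ≠ 0 → g ≤ e i) → ∑ i, β ^ e i * c i ≠ x := by
  have := is_noetherian_subring_closure ({β} : Set k) (Set.finite_singleton β)
  let b : Subring.closure ({β} : Set k) := ⟨β, Subring.subset_closure rfl⟩
  have hI : Ideal.span {b} ≠ ⊤ := by
    rw [Ne, Ideal.span_singleton_eq_top]
    intro hu
    obtain ⟨y, hy⟩ := hu.exists_right_inv
    have h1 : β * (y : k) = 1 := congrArg Subtype.val hy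
    exact hβ ((eq_inv_of_mul_eq_one_right h1) ▸ y.2)
  have h1 : (⟨x, hx⟩ : Subring.closure ({β} : Set k)) ∉ ⨅ i : ℕ, Ideal.span {b} ^ i := by
    rw [Ideal.iInf_pow_eq_bot_of_isDomain _ hI, Ideal.mem_bot]
    exact fun h => hx0 (congrArg Subtype.val h)
  obtain ⟨g, hg⟩ := not_forall.1 (mt Ideal.mem_iInf.2 h1)
  refine ⟨g, fun e he h => hg ?_⟩
  have h2 : (⟨x, hx⟩ : Subring.closure ({β} : Set k)) = ∑ i, b ^ e i * ⟨c i, hc i⟩ := by
    refine Subtype.ext ?_
    push_cast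
    exact h.symm
  rw [h2, Ideal.span_singleton_pow]
  refine Ideal.sum_mem _ fun i _ => ?_
  by_cases hi : c i = 0
  · have : (⟨c i, hc i⟩ : Subring.closure ({β} : Set k)) = 0 := Subtype.ext hi
    rw [this, mul_zero]
    exact Ideal.zero_mem _
  · exact Ideal.mem_span_singleton.2 ((pow_dvd_pow b (he i hi)).mul_right _)

theorem alg_arch {K C : Type*} [Field K] [Fintype C] (φ : K →+* ℂ) {β : K} (hβ : ‖φ β‖ < 1)
    {x : K} (hx0 : x ≠ 0) (c : C → K) :
    ∃ g : ℕ, ∀ e : C → ℕ, (∀ i, c i ≠ 0 → g ≤ e i) → ∑ i, β ^ e i * c i ≠ x := by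
  have h1 : 0 < ‖φ x‖ := norm_pos_iff.2 ((map_ne_zero φ).2 hx0)
  have h2 : 0 < ∑ i, ‖φ (c i)‖ + 1 := by positivity
  obtain ⟨g, hg⟩ := exists_pow_lt_of_lt_one (div_pos h1 h2) hβ
  refine ⟨g, fun e he h => ?_⟩
  have h3 : ‖φ x‖ ≤ ∑ i, ‖φ β‖ ^ g * ‖φ (c i)‖ := by
    rw [← h, map_sum]
    refine (norm_sum_le _ _).trans (Finset.sum_le_sum fun i _ => ?_)
    by_cases hi : c i = 0
    · simp [hi]
    · rw [map_mul, map_pow, norm_mul, norm_pow]
      exact mul_le_mul_of_nonneg_right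
        (pow_le_pow_of_le_one (norm_nonneg _) hβ.le (he i hi)) (norm_nonneg _)
  rw [← Finset.mul_sum] at h3
  rw [lt_div_iff₀ h2, mul_add, mul_one] at hg
  linarith [pow_nonneg (norm_nonneg (φ β)) g]

theorem alg_int {k : Type*} [Field k] {β : k} (h0 : β ≠ 0) (hβ : β⁻¹ ∈ Subring.closure {β}) :
    IsIntegral ℤ β⁻¹ := by
  have h1 : β⁻¹ ∈ Algebra.adjoin ℤ {β} := by rw [Algebra.adjoin_int]; exact hβ
  rw [Algebra.adjoin_singleton_eq_range_aeval] at h1
  obtain ⟨P, hP⟩ := h1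
  have hP' : ∑ j ∈ Finset.range (P.natDegree + 1), P.coeff j • β ^ j = β⁻¹ :=
    (Polynomial.aeval_eq_sum_range β).symm.trans hP
  have hm : ∀ j, j < P.natDegree + 1 → β ^ j ∈ Submodule.span ℤ
      ((fun j => β ^ j) '' Set.Iio (P.natDegree + 1)) :=
    fun j hj => Submodule.subset_span ⟨j, hj, rfl⟩
  refine isIntegral_of_smul_mem_submodule
    (Submodule.span ℤ ((fun j => β ^ j) '' Set.Iio (P.natDegree + 1))) (fun h => ?_)
    (Submodule.fg_span ((Set.finite_Iio _).image _)) _ fun n hn => ?_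
  · have := hm 0 (Nat.succ_pos _)
    rw [h, pow_zero, Submodule.mem_bot] at this
    exact one_ne_zero this
  · induction hn using Submodule.span_induction with
    | mem x hx =>
      obtain ⟨j, hj, rfl⟩ := hx
      rcases j with _ | j
      · rw [smul_eq_mul]
        dsimp only
        rw [pow_zero, mul_one, ← hP']
        exact Submodule.sum_mem _ fun j hj => Submodule.smul_mem _ _ (hm j (Finset.mem_range.1 hj))
      · rw [smul_eq_mul]
        dsimp only
        rw [pow_succ', inv_mul_cancel_left₀ h0]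
        exact hm j (Nat.lt_of_succ_lt hj)
    | zero => rw [smul_zero]; exact Submodule.zero_mem _
    | add x y _ _ hx hy => rw [smul_add]; exact Submodule.add_mem _ hx hy
    | smul a x _ hx => rw [smul_comm]; exact Submodule.smul_mem _ _ hx

theorem alg_charp {k : Type*} [Field k] {γ : k} (h0 : γ ≠ 0) (hγ : IsIntegral ℤ γ) {q : ℕ}
    (hq : q ≠ 0) (hk : (q : k) = 0) : ∃ m : ℕ, 0 < m ∧ γ ^ m = 1 := by
  have h1 : Module.Finite ℤ (Subalgebra.toSubmodule (Algebra.adjoin ℤ {γ})) :=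
    Module.Finite.iff_fg.2 hγ.fg_adjoin_singleton
  have h2 : Finite (Subalgebra.toSubmodule (Algebra.adjoin ℤ {γ})) := by
    refine Module.finite_of_fg_torsion _ fun x => ⟨⟨q, mem_nonZeroDivisors_of_ne_zero
      (Int.natCast_ne_zero.2 hq)⟩, Subtype.ext ?_⟩
    change (q : ℤ) • (x : k) = 0
    rw [natCast_zsmul, nsmul_eq_mul, hk, zero_mul]
  obtain ⟨a, b, hab, h⟩ := Finite.exists_ne_map_eq_of_infinite
    (fun j : ℕ => (⟨γ ^ j, Subalgebra.pow_mem _ (Algebra.self_mem_adjoin_singleton ℤ γ) j⟩ :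
      Subalgebra.toSubmodule (Algebra.adjoin ℤ {γ})))
  have h3 : γ ^ a = γ ^ b := congrArg Subtype.val h
  have key : ∀ a b : ℕ, a < b → γ ^ a = γ ^ b → ∃ m : ℕ, 0 < m ∧ γ ^ m = 1 := fun a b hlt e => by
    refine ⟨b - a, Nat.sub_pos_of_lt hlt, mul_left_cancel₀ (pow_ne_zero a h0) ?_⟩
    rw [← pow_add, Nat.add_sub_cancel' hlt.le, mul_one, e]
  rcases lt_or_gt_of_ne hab with h4 | h4
  · exact key a b h4 h3
  · exact key b a h4 h3.symm

theorem alg_small {k C : Type*} [Field k] [Fintype C] {β : k} (h0 : β ≠ 0)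
    (hβ : ∀ m : ℕ, 0 < m → β ^ m ≠ 1) {x : k} (hx0 : x ≠ 0) (hx : x ∈ Subring.closure {β})
    {c : C → k} (hc : ∀ i, c i ∈ Subring.closure {β}) :
    ∃ g : ℕ, ∀ e : C → ℕ, (∀ i, c i ≠ 0 → g ≤ e i) → ∑ i, β ^ e i * c i ≠ x := by
  by_cases h : β⁻¹ ∈ Subring.closure {β}
  swap
  · exact alg_krull h0 h hx0 hx hc
  have hi := alg_int h0 h
  have hβ' : ∀ m : ℕ, 0 < m → β⁻¹ ^ m ≠ 1 := fun m hm e => hβ m hm (by rwa [inv_pow, inv_eq_one] at e)
  obtain ⟨q, hq⟩ := CharP.exists k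
  rcases eq_or_ne q 0 with rfl | hq0
  swap
  · obtain ⟨m, hm, e⟩ := alg_charp (inv_ne_zero h0) hi hq0 (CharP.cast_eq_zero k q)
    exact absurd e (hβ' m hm)
  have := CharP.charP_to_charZero k
  let K : IntermediateField ℚ k := IntermediateField.adjoin ℚ {β⁻¹}
  have : FiniteDimensional ℚ K := IntermediateField.adjoin.finiteDimensional hi.tower_top
  have : NumberField K := ⟨⟩
  have hγ : β⁻¹ ∈ K := IntermediateField.mem_adjoin_simple_self ℚ _
  have hb : β ∈ K := inv_inv β ▸ K.inv_mem hγ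
  have hK : ∀ y ∈ Subring.closure {β}, y ∈ K := fun y hy =>
    (Subring.closure_le (t := K.toSubfield.toSubring)).2 (Set.singleton_subset_iff.2 hb) hy
  have hi' : IsIntegral ℤ (⟨β⁻¹, hγ⟩ : K) :=
    (isIntegral_algHom_iff (K.val.toRingHom.toIntAlgHom) Subtype.val_injective).1 hi
  obtain ⟨φ, hφ⟩ : ∃ φ : K →+* ℂ, 1 < ‖φ ⟨β⁻¹, hγ⟩‖ := by
    by_contra hn
    push Not at hn
    obtain ⟨m, hm, e⟩ := NumberField.Embeddings.pow_eq_one_of_norm_le_one K ℂ
      (fun e => inv_ne_zero h0 (congrArg Subtype.val e)) hi' hn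
    exact hβ' m hm (congrArg Subtype.val e)
  have hφ' : ‖φ ⟨β, hb⟩‖ < 1 := by
    have e : (⟨β, hb⟩ : K) = (⟨β⁻¹, hγ⟩ : K)⁻¹ := Subtype.ext (inv_inv β).symm
    rw [e, map_inv₀, norm_inv]
    exact inv_lt_one_of_one_lt₀ hφ
  obtain ⟨g, hg⟩ := alg_arch φ hφ' (x := ⟨x, hK x hx⟩) (fun e => hx0 (congrArg Subtype.val e))
    fun i => ⟨c i, hK _ (hc i)⟩
  refine ⟨g, fun e he h => hg e (fun i hi => he i fun e => hi (Subtype.ext e)) (Subtype.ext ?_)⟩
  push_cast
  exact h

theorem alg_field {k C N : Type*} [Field k] [Fintype C] {β : k} (h0 : β ≠ 0)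
    (hβ : ∀ m : ℕ, 0 < m → β ^ m ≠ 1) {b : C → k} (hb : ∀ i, b i ∈ Subring.closure {β})
    (hne : ∃ i, b i ≠ 0) (p : Ultrafilter N) (pos : C → N → ℤ)
    (hpos : ∀ i j, i ≠ j → Tendsto (fun n => |pos i n - pos j n|) p atTop)
    (h : ∀ᶠ n in (p : Filter N), ∑ i, β ^ pos i n * b i = 0) : False := by
  classical
  have h1 : ∀ᶠ n in (p : Filter N), ∃ i₀, b i₀ ≠ 0 ∧ ∀ i, b i ≠ 0 → pos i₀ n ≤ pos i n :=
    Eventually.of_forall fun n => by
      obtain ⟨i, hi, hm⟩ := Set.exists_min_image {i | b i ≠ 0} (fun i => pos i n)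
        (Set.toFinite _) hne
      exact ⟨i, hi, hm⟩
  obtain ⟨i₀, h2⟩ := Ultrafilter.eventually_exists_iff.1 h1
  have hi₀ : b i₀ ≠ 0 := h2.exists.choose_spec.1
  obtain ⟨g, hg⟩ := alg_small h0 hβ (neg_ne_zero.2 hi₀) (Subring.neg_mem _ (hb i₀))
    (c := Function.update b i₀ 0) fun i => by
      rcases eq_or_ne i i₀ with rfl | hi
      · rw [Function.update_self]; exact Subring.zero_mem _
      · rw [Function.update_of_ne hi]; exact hb i
  have h3 : ∀ᶠ n in (p : Filter N), ∀ i, i ≠ i₀ → (g : ℤ) ≤ |pos i n - pos i₀ n| :=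
    eventually_all.2 fun i => by
      by_cases hi : i = i₀
      · exact Eventually.of_forall fun n h => absurd hi h
      · exact ((hpos i i₀ hi).eventually_ge_atTop _).mono fun n h _ => h
  obtain ⟨n, ⟨-, a1⟩, a2, a3⟩ := (h2.and (h3.and h)).exists
  refine hg (fun i => (pos i n - pos i₀ n).toNat) (fun i hi => ?_) ?_
  · have hi' : i ≠ i₀ := fun e => hi (by rw [e, Function.update_self])
    rw [Function.update_of_ne hi'] at hi
    have := a2 i hi'
    rw [abs_of_nonneg (sub_nonneg.2 (a1 i hi))] at this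
    omega
  · refine mul_left_cancel₀ (zpow_ne_zero (pos i₀ n) h0) ?_
    rw [← Finset.add_sum_erase _ _ (Finset.mem_univ i₀)] at a3
    rw [← Finset.add_sum_erase _ _ (Finset.mem_univ i₀), Function.update_self, mul_zero, zero_add,
      Finset.mul_sum, mul_neg, ← eq_neg_of_add_eq_zero_right a3]
    refine Finset.sum_congr rfl fun i hi => ?_
    rw [Function.update_of_ne (Finset.ne_of_mem_erase hi)]
    by_cases hbi : b i = 0
    · rw [hbi, mul_zero, mul_zero, mul_zero]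
    · rw [← mul_assoc, ← zpow_natCast, Int.toNat_of_nonneg (sub_nonneg.2 (a1 i hbi)),
        ← zpow_add₀ h0, add_sub_cancel]

open TensorProduct in
theorem alg_mod {R M C N : Type*} [CommRing R] [AddCommGroup M] [Module R M] [Fintype C] (τ : Rˣ)
    (hgen : ∀ y : R, ∃ j : ℕ, (τ : R) ^ j * y ∈ Subring.closure {(τ : R)}) (a : C → M) (r : C)
    (hr : ∀ s ∈ Submonoid.closure {s : R | ∃ m : ℕ, 0 < m ∧ s = (τ : R) ^ m - 1}, s • a r ≠ 0)
    (p : Ultrafilter N) (pos : C → N → ℤ)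
    (hpos : ∀ i j, i ≠ j → Tendsto (fun n => |pos i n - pos j n|) p atTop)
    (h : ∀ᶠ n in (p : Filter N), ∑ i, ((τ ^ pos i n : Rˣ) : R) • a i = 0) : False := by
  classical
  let L : Submodule R M := Submodule.span R (Set.range a)
  have : Module.Finite R L := Module.Finite.span_of_finite R (Set.finite_range a)
  let a' : C → L := fun i => ⟨a i, Submodule.subset_span ⟨i, rfl⟩⟩
  obtain ⟨P, hP, hP1, hP2⟩ := (Module.annihilator R L).exists_le_prime_disjoint _
    (Set.disjoint_left.2 fun s h1 h2 => hr s h2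
      (congrArg Subtype.val (Module.mem_annihilator.1 h1 (a' r))))
  have hnt : Nontrivial (P.ResidueField ⊗[R] L) :=
    (Module.mem_support_iff_nontrivial_residueField_tensorProduct ⟨P, hP⟩).1
      (Module.mem_support_iff_of_finite.2 hP1)
  obtain ⟨i₁, hi₁⟩ : ∃ i, (1 : P.ResidueField) ⊗ₜ[R] a' i ≠ 0 := by
    by_contra hn
    push Not at hn
    have h1 : ∀ x (hx : x ∈ L), (1 : P.ResidueField) ⊗ₜ[R] (⟨x, hx⟩ : L) = 0 := fun x hx => by
      induction hx using Submodule.span_induction with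
      | mem x hx => obtain ⟨i, rfl⟩ := hx; exact hn i
      | zero => exact tmul_zero _ _
      | add x y hx hy h1 h2 =>
        change _ ⊗ₜ[R] ((⟨x, hx⟩ : L) + ⟨y, hy⟩) = 0
        rw [tmul_add, h1, h2, add_zero]
      | smul c x hx h1 =>
        change _ ⊗ₜ[R] (c • (⟨x, hx⟩ : L)) = 0
        rw [tmul_smul, h1, smul_zero]
    refine not_subsingleton (P.ResidueField ⊗[R] L) ⟨fun x y => ?_⟩
    have h2 : ∀ x : P.ResidueField ⊗[R] L, x = 0 := fun x => by
      induction x using TensorProduct.induction_on with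
      | zero => rfl
      | tmul c l => rw [← mul_one c, ← smul_eq_mul, ← smul_tmul', h1 l.1 l.2, smul_zero]
      | add x y h1 h2 => rw [h1, h2, add_zero]
    rw [h2 x, h2 y]
  obtain ⟨φ, hφ⟩ := Module.Projective.exists_dual_ne_zero P.ResidueField hi₁
  obtain ⟨s, hs⟩ := IsLocalization.exist_integer_multiples_of_finite (nonZeroDivisors (R ⧸ P))
    fun i => φ ((1 : P.ResidueField) ⊗ₜ[R] a' i)
  choose y hy using hs
  choose z hz using fun i => Ideal.Quotient.mk_surjective (y i)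
  choose j hj using fun i => hgen (z i)
  let f := algebraMap R P.ResidueField
  have hs0 : algebraMap (R ⧸ P) P.ResidueField s ≠ 0 :=
    IsFractionRing.to_map_ne_zero_of_mem_nonZeroDivisors s.2
  have hfz : ∀ i, f (z i) =
      algebraMap (R ⧸ P) P.ResidueField s * φ ((1 : P.ResidueField) ⊗ₜ[R] a' i) := fun i => by
    rw [← Algebra.smul_def, ← hy, ← hz]
    rfl
  have h0 : f τ ≠ 0 := (τ.isUnit.map f).ne_zero
  have hcl : ∀ x ∈ Subring.closure {(τ : R)}, f x ∈ Subring.closure {f τ} := fun x hx =>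
    (Subring.closure_le (t := (Subring.closure {f τ}).comap f)).2
      (Set.singleton_subset_iff.2 (Subring.subset_closure rfl)) hx
  refine alg_field h0 (fun m hm e => ?_) (b := fun i => f τ ^ (∑ i, j i) * f (z i)) (fun i => ?_)
    ⟨i₁, mul_ne_zero (pow_ne_zero _ h0) (by rw [hfz]; exact mul_ne_zero hs0 hφ)⟩ p pos hpos
    (h.mono fun n hn => ?_)
  · refine Set.disjoint_left.1 hP2 (Ideal.algebraMap_residueField_eq_zero.1 ?_)
      (Submonoid.subset_closure ⟨m, hm, rfl⟩)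
    rw [map_sub, map_pow, map_one]
    exact sub_eq_zero.2 e
  · have e1 := hcl _ (hj i)
    rw [map_mul, map_pow] at e1
    have e2 : f τ ∈ Subring.closure {f τ} := Subring.subset_closure rfl
    have e3 := Subring.mul_mem _ (Subring.pow_mem _ e2 (∑ i' ∈ Finset.univ.erase i, j i')) e1
    rwa [← mul_assoc, ← pow_add, Finset.sum_erase_add _ _ (Finset.mem_univ i)] at e3
  · have e1 : ∑ i, ((τ ^ pos i n : Rˣ) : R) • a' i = 0 := Subtype.ext (by simpa using hn)
    have e2 : ∑ i, f τ ^ pos i n * φ ((1 : P.ResidueField) ⊗ₜ[R] a' i) = 0 := by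
      have := congrArg (fun l : L => φ ((1 : P.ResidueField) ⊗ₜ[R] l)) e1
      simp only [tmul_sum, map_sum, tmul_zero, map_zero] at this
      rw [← this]
      refine Finset.sum_congr rfl fun i _ => ?_
      rw [tmul_smul, ← algebraMap_smul P.ResidueField, map_smul, smul_eq_mul]
      congr 1
      have := congrArg Units.val (map_zpow (Units.map (f : R →* P.ResidueField)) τ (pos i n))
      rw [Units.val_zpow_eq_zpow_val] at this
      exact this.symm
    have := congrArg (fun t => f τ ^ (∑ i, j i) * algebraMap (R ⧸ P) P.ResidueField s * t) e2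
    simp only [Finset.mul_sum, mul_zero] at this
    rw [← this]
    refine Finset.sum_congr rfl fun i _ => ?_
    rw [hfz]
    ring

theorem alg_per {R M : Type*} [CommRing R] [AddCommGroup M] [Module R M] (τ : R) (a : M)
    (h1 : ∀ m : ℕ, 0 < m → (τ ^ m - 1) • a ≠ 0)
    (h2 : ∀ (c : R) (m : ℕ), 0 < m → (τ ^ m - 1) • c • a = 0 → ∃ K : ℕ, 0 < K ∧ K • c • a = 0) :
    ∀ s ∈ Submonoid.closure {s : R | ∃ m : ℕ, 0 < m ∧ s = τ ^ m - 1}, s • a ≠ 0 := by
  have key : ∀ s ∈ Submonoid.closure {s : R | ∃ m : ℕ, 0 < m ∧ s = τ ^ m - 1}, ∀ c : R,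
      (∃ m : ℕ, 0 < m ∧ (τ ^ m - 1) • s • c • a = 0) → ∃ m : ℕ, 0 < m ∧ (τ ^ m - 1) • c • a = 0 := by
    intro s hs
    induction hs using Submonoid.closure_induction with
    | one => intro c h; simpa using h
    | mul x y _ _ hx hy =>
      intro c h
      refine hy c ?_
      simp only [← mul_smul y c]
      refine hx (y * c) ?_
      simpa only [mul_smul] using h
    | mem x hx =>
      obtain ⟨m, hm, rfl⟩ := hx
      rintro c ⟨m', hm', h⟩
      obtain ⟨q, hq⟩ : τ ^ m - 1 ∣ τ ^ (m * m') - 1 := by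
        simpa only [one_pow, ← pow_mul] using sub_dvd_pow_sub_pow (τ ^ m) 1 m'
      obtain ⟨q', hq'⟩ : τ ^ m' - 1 ∣ τ ^ (m * m') - 1 := by
        simpa only [one_pow, ← pow_mul, mul_comm] using sub_dvd_pow_sub_pow (τ ^ m') 1 m
      have e1 : (τ ^ (m * m') - 1) • ((τ ^ (m * m') - 1) * c) • a = 0 := by
        have := congrArg (fun x => (q * q') • x) h
        simp only [smul_zero, smul_smul] at this ⊢
        rw [← this]
        congr 1
        nth_rewrite 1 [hq']
        rw [hq]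
        ring
      obtain ⟨K, hK, e2⟩ := h2 _ _ (Nat.mul_pos hm hm') e1
      refine ⟨m * m' * K, Nat.mul_pos (Nat.mul_pos hm hm') hK, ?_⟩
      have e3 : ∀ n : ℕ, ((τ ^ (m * m')) ^ n - 1) • c • a = n • ((τ ^ (m * m') - 1) * c) • a := by
        intro n
        induction n with
        | zero => simp
        | succ n ih =>
          have e4 : (τ ^ (m * m')) ^ (n + 1) - 1 = (τ ^ (m * m') - 1) * ((τ ^ (m * m')) ^ n - 1) +
              ((τ ^ (m * m')) ^ n - 1) + (τ ^ (m * m') - 1) := by ring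
          rw [e4, add_smul, add_smul, mul_smul, ih, smul_comm _ n, e1, smul_zero, zero_add,
            succ_nsmul, mul_smul (τ ^ (m * m') - 1) c]
      rw [pow_mul, e3, e2]
  intro s hs h
  obtain ⟨m, hm, e⟩ := key s hs 1 ⟨1, one_pos, by rw [one_smul, h, smul_zero]⟩
  rw [one_smul] at e
  exact h1 m hm e

/-- **algebraic end game**; `U` is an action of `ℤ` on the abelian group `M` -/
theorem alg_core {C M N : Type*} [Fintype C] [AddCommGroup M] (U : ℤ → M →+ M)
    (U0 : ∀ x, U 0 x = x) (Uadd : ∀ s t x, U (s + t) x = U s (U t x)) (r : C) (a : C → M)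
    (p : Ultrafilter N) (pos : C → N → ℤ)
    (hpos : ∀ i j, i ≠ j → Tendsto (fun n => |pos i n - pos j n|) p atTop)
    (P1 : ∀ m : ℕ, 0 < m → U m (a r) ≠ a r)
    (P2 : ∀ d ∈ AddSubgroup.closure (Set.range fun t : ℤ => U t (a r)), ∀ m : ℕ, 0 < m →
      U m d = d → ∃ K : ℕ, 0 < K ∧ K • d = 0)
    (P3 : ∀ᶠ n in (p : Filter N), ∑ i, U (pos i n) (a i) = 0) : False := by
  let F : Multiplicative ℤ →* Module.End ℤ M :=
    { toFun := fun t => (U t.toAdd).toIntLinearMap
      map_one' := LinearMap.ext U0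
      map_mul' := fun s t => LinearMap.ext (Uadd _ _) }
  let Φ := AddMonoidAlgebra.lift ℤ (Module.End ℤ M) ℤ F
  let _ : Module (AddMonoidAlgebra ℤ ℤ) M := Module.compHom M Φ.toRingHom
  let G := (AddMonoidAlgebra.of ℤ ℤ).toHomUnits
  have hsm : ∀ (c : AddMonoidAlgebra ℤ ℤ) (x : M), c • x = Φ c x := fun _ _ => rfl
  have hof : ∀ (t : Multiplicative ℤ) (x : M), AddMonoidAlgebra.of ℤ ℤ t • x = U t.toAdd x :=
    fun t x => by rw [hsm, AddMonoidAlgebra.lift_of]; rfl
  have hz : ∀ t : ℤ, ((G (.ofAdd 1) ^ t : (AddMonoidAlgebra ℤ ℤ)ˣ) : AddMonoidAlgebra ℤ ℤ) =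
      AddMonoidAlgebra.of ℤ ℤ (.ofAdd t) := fun t => by
    rw [← map_zpow, ← ofAdd_zsmul, smul_eq_mul, mul_one]
    rfl
  have hn : ∀ m : ℕ, ((G (.ofAdd 1) : (AddMonoidAlgebra ℤ ℤ)ˣ) : AddMonoidAlgebra ℤ ℤ) ^ m =
      AddMonoidAlgebra.of ℤ ℤ (.ofAdd (m : ℤ)) := fun m => by
    rw [← hz, zpow_natCast, Units.val_pow_eq_pow_val]
  have hper : ∀ (m : ℕ) (x : M),
      (((G (.ofAdd 1) : (AddMonoidAlgebra ℤ ℤ)ˣ) : AddMonoidAlgebra ℤ ℤ) ^ m - 1) • x = 0 ↔
        U m x = x := fun m x => by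
    rw [sub_smul, one_smul, hn, hof, sub_eq_zero]
    rfl
  refine alg_mod (G (.ofAdd 1)) (fun y => ?_) a r
    (alg_per _ _ (fun m hm e => P1 m hm ((hper m _).1 e)) fun c m hm e =>
      P2 _ ?_ m hm ((hper m _).1 e)) p pos hpos (P3.mono fun n hn => ?_)
  · have hτ : ((G (.ofAdd 1) : (AddMonoidAlgebra ℤ ℤ)ˣ) : AddMonoidAlgebra ℤ ℤ) ∈
        Subring.closure {((G (.ofAdd 1) : (AddMonoidAlgebra ℤ ℤ)ˣ) : AddMonoidAlgebra ℤ ℤ)} :=
      Subring.subset_closure rfl
    induction y using AddMonoidAlgebra.induction_on with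
    | of t =>
      refine ⟨t.natAbs, ?_⟩
      rw [hn, ← map_mul, ← ofAdd_add, ← Int.toNat_of_nonneg (show 0 ≤ (t.natAbs : ℤ) + t by omega),
        ← hn]
      exact Subring.pow_mem _ hτ _
    | add x y hx hy =>
      obtain ⟨i, hi⟩ := hx
      obtain ⟨j, hj⟩ := hy
      refine ⟨i + j, ?_⟩
      rw [mul_add]
      refine Subring.add_mem _ ?_ ?_
      · rw [add_comm, pow_add, mul_assoc]
        exact Subring.mul_mem _ (Subring.pow_mem _ hτ _) hi
      · rw [pow_add, mul_assoc]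
        exact Subring.mul_mem _ (Subring.pow_mem _ hτ _) hj
    | smul c x hx =>
      obtain ⟨i, hi⟩ := hx
      refine ⟨i, ?_⟩
      rw [mul_smul_comm]
      exact Subring.zsmul_mem _ hi c
  · clear e
    induction c using AddMonoidAlgebra.induction_on with
    | of t =>
      rw [hof]
      exact AddSubgroup.subset_closure ⟨t, rfl⟩
    | add x y hx hy =>
      rw [add_smul]
      exact AddSubgroup.add_mem _ hx hy
    | smul c x hx =>
      rw [hsm, map_smul, LinearMap.smul_apply, ← hsm]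
      exact AddSubgroup.zsmul_mem _ hx c
  · rw [← hn]
    refine Finset.sum_congr rfl fun i _ => ?_
    rw [hz, hof]
    rfl

/-- the same for an automorphism `u` -/
theorem alg_core' {C M N : Type*} [Fintype C] [AddCommGroup M] (u : M ≃ₗ[ℤ] M) (r : C) (a : C → M)
    (p : Ultrafilter N) (pos : C → N → ℤ)
    (hpos : ∀ i j, i ≠ j → Tendsto (fun n => |pos i n - pos j n|) p atTop)
    (P1 : ∀ m : ℕ, 0 < m → (u ^ m) (a r) ≠ a r)
    (P2 : ∀ d ∈ AddSubgroup.closure (Set.range fun t : ℤ => (u ^ t) (a r)), ∀ m : ℕ, 0 < m →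
      (u ^ m) d = d → ∃ K : ℕ, 0 < K ∧ K • d = 0)
    (P3 : ∀ᶠ n in (p : Filter N), ∑ i, (u ^ pos i n) (a i) = 0) : False :=
  alg_core (fun t => (u ^ t).toAddEquiv.toAddMonoidHom) (fun x => by simp)
    (fun s t x => by simp [zpow_add]) r a p pos hpos (fun m hm => by simpa using P1 m hm)
    (fun d hd m hm e => P2 d hd m hm (by simpa using e)) P3

end Crest.Agent.R69
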