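import Crest.Agent.R69.Defs

/-! # Row 69: monomials and σ-algebras -/

set_option autoImplicit false
set_option linter.unusedVariables false
set_option linter.unusedSectionVars false

open MeasureTheory ProbabilityTheory Filter Topology Set

noncomputable section

namespace Crest.Agent.R69

variable {I A B D : Type} {E : Type} [NormedAddCommGroup E] [NormedSpace ℝ E] [CompleteSpace E]
  [SecondCountableTopology E]

theorem continuous_mon (m : Multiset I) : Continuous (mon m) := by
  induction m using Multiset.induction_on with
  | empty => exact continuous_const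
  | cons a m ih =>
    have : mon (a ::ₘ m) = fun x : Om I => (x a : ℝ) * mon m x := by
      funext x; simp [mon]
    rw [this]
    exact (continuous_subtype_val.comp (continuous_apply a)).mul ih

theorem measurable_mon (m : Multiset I) : Measurable (mon m) := by
  induction m using Multiset.induction_on with
  | empty => exact measurable_const
  | cons a m ih =>
    have : mon (a ::ₘ m) = fun x : Om I => (x a : ℝ) * mon m x := by
      funext x; simp [mon]
    rw [this]
    exact (measurable_subtype_coe.comp (measurable_pi_apply a)).mul ih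

theorem abs_mon_le (m : Multiset I) (x : Om I) : |mon m x| ≤ 1 := by
  induction m using Multiset.induction_on with
  | empty => simp [mon]
  | cons a m ih =>
    have : mon (a ::ₘ m) x = (x a : ℝ) * mon m x := by simp [mon]
    rw [this, abs_mul]
    exact mul_le_one₀ (abs_le.2 (x a).2) (abs_nonneg _) ih

@[simp] theorem mon_zero (x : Om I) : mon (0 : Multiset I) x = 1 := by simp [mon]

theorem mon_add (m m' : Multiset I) (x : Om I) : mon (m + m') x = mon m x * mon m' x := by
  simp [mon]

theorem mon_singleton (a : I) (x : Om I) : mon {a} x = x a := by simp [mon]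

theorem mon_map (a : A → I) (m : Multiset A) (x : Om I) : mon (m.map a) x = mon m (pull a x) := by
  unfold mon
  rw [Multiset.map_map]
  rfl

theorem mon_sum {J : Type} (t : Finset J) (m : J → Multiset I) (x : Om I) :
    mon (∑ j ∈ t, m j) x = ∏ j ∈ t, mon (m j) x := by
  classical
  induction t using Finset.induction_on with
  | empty => simp
  | insert j t hj ih => rw [Finset.sum_insert hj, Finset.prod_insert hj, mon_add, ih]

theorem integrable_mon (M : Measure (Om I)) [IsFiniteMeasure M] (m : Multiset I) :
    Integrable (mon m) M :=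
  Integrable.of_bound (measurable_mon m).aestronglyMeasurable 1
    (Eventually.of_forall fun x => abs_mon_le m x)

theorem memLp_mon (M : Measure (Om I)) [IsFiniteMeasure M] (m : Multiset I) (p : ENNReal) :
    MemLp (mon m) p M :=
  MemLp.of_bound (measurable_mon m).aestronglyMeasurable 1
    (Eventually.of_forall fun x => abs_mon_le m x)

theorem measurable_mon_sg {m : Multiset I} {S : Set I} (h : InB m S) : Measurable[sg S] (mon m) := by
  induction m using Multiset.induction_on with
  | empty => exact measurable_const
  | cons a m ih =>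
    have : mon (a ::ₘ m) = fun x : Om I => (x a : ℝ) * mon m x := by
      funext x; simp [mon]
    rw [this]
    exact (measurable_subtype_coe.comp (measurable_coord (h a (Multiset.mem_cons_self a m)))).mul
      (ih fun b hb => h b (Multiset.mem_cons_of_mem hb))

theorem InB.mono {m : Multiset I} {S S' : Set I} (h : InB m S) (hS : S ⊆ S') : InB m S' :=
  fun a ha => hS (h a ha)

theorem InB.add {m m' : Multiset I} {S : Set I} (h : InB m S) (h' : InB m' S) : InB (m + m') S :=
  fun a ha => (Multiset.mem_add.1 ha).elim (h a) (h' a)

theorem InB.map {m : Multiset A} {S : Set A} (h : InB m S) (a : A → I) : InB (m.map a) (a '' S) := by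
  intro b hb
  obtain ⟨i, hi, rfl⟩ := Multiset.mem_map.1 hb
  exact ⟨i, h i hi, rfl⟩

theorem InB.of_image {m : Multiset I} {S : Set A} {a : A → I} (h : InB m (a '' S)) :
    ∃ m', InB m' S ∧ m'.map a = m := by
  induction m using Multiset.induction_on with
  | empty => exact ⟨0, fun _ h => absurd h (Multiset.notMem_zero _), rfl⟩
  | cons i m ih =>
    obtain ⟨m', h1, rfl⟩ := ih fun b hb => h b (Multiset.mem_cons_of_mem hb)
    obtain ⟨j, hj, rfl⟩ := h i (Multiset.mem_cons_self _ _)
    refine ⟨j ::ₘ m', fun b hb => ?_, Multiset.map_cons _ _ _⟩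
    rcases Multiset.mem_cons.1 hb with rfl | hb
    · exact hj
    · exact h1 b hb

theorem InB.of_range {m : Multiset I} {a : A → I} (h : InB m (range a)) :
    ∃ m' : Multiset A, m'.map a = m := by
  rw [← image_univ] at h
  obtain ⟨m', -, h'⟩ := h.of_image
  exact ⟨m', h'⟩

theorem InB.of_union {m : Multiset I} {S S' : Set I} (h : InB m (S ∪ S')) :
    ∃ m₁ m₂, InB m₁ S ∧ InB m₂ S' ∧ m = m₁ + m₂ := by
  classical
  refine ⟨m.filter (· ∈ S), m.filter (fun a => ¬ a ∈ S), fun a ha => (Multiset.mem_filter.1 ha).2,
    fun a ha => ?_, (Multiset.filter_add_not _ m).symm⟩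
  obtain ⟨h1, h2⟩ := Multiset.mem_filter.1 ha
  exact (h a h1).resolve_left h2

/-- a monomial on a product index set is a product over the first index -/
theorem exists_mon_prod {C : Type} [Fintype C] [DecidableEq C] (m : Multiset (C × I)) :
    ∃ u : C → Multiset I, (∀ x, mon m x = ∏ j, mon (u j) (cell j x)) ∧
      ∀ j, (∀ q ∈ m, q.1 ≠ j) → u j = 0 := by
  induction m using Multiset.induction_on with
  | empty => exact ⟨fun _ => 0, fun x => by simp, fun _ _ => rfl⟩
  | cons q m ih =>
    obtain ⟨u, h1, h2⟩ := ih
    refine ⟨fun j => (if j = q.1 then {q.2} else 0) + u j, fun x => ?_, fun j hj => ?_⟩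
    · have e : mon (q ::ₘ m) x = (x q : ℝ) * mon m x := by simp [mon]
      have e2 : ∀ j, mon ((if j = q.1 then {q.2} else 0) + u j) (cell j x) =
          (if j = q.1 then (x q : ℝ) else 1) * mon (u j) (cell j x) := by
        intro j
        rw [mon_add]
        congr 1
        split_ifs with h
        · subst h
          rw [mon_singleton]
          rfl
        · exact mon_zero _
      simp only [e2]
      rw [e, h1, Finset.prod_mul_distrib, Finset.prod_ite_eq' Finset.univ q.1,
        if_pos (Finset.mem_univ _)]
    · have hq := hj q (Multiset.mem_cons_self _ _)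
      beta_reduce
      rw [if_neg (Ne.symm hq), h2 j fun q' hq' => hj q' (Multiset.mem_cons_of_mem hq'), add_zero]

theorem b1_sg_le {S : Set I} {m : MeasurableSpace (Om I)}
    (h : ∀ a ∈ S, Measurable[m] fun x : Om I => x a) : sg S ≤ m :=
  Measurable.comap_le (@measurable_pi_lambda _ _ _ m _ _ fun i : S => h i i.2)

theorem sg_mono {S S' : Set I} (h : S ⊆ S') : sg S ≤ sg S' :=
  b1_sg_le fun a ha => measurable_coord (h ha)

theorem sg_union (S S' : Set I) : sg (S ∪ S') = sg S ⊔ sg S' := by
  refine le_antisymm (b1_sg_le fun a ha => ?_)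
    (sup_le (sg_mono subset_union_left) (sg_mono subset_union_right))
  rcases ha with ha | ha
  · exact (measurable_coord ha).mono le_sup_left le_rfl
  · exact (measurable_coord ha).mono le_sup_right le_rfl

theorem sg_range (b : B → I) : sg (range b) = MeasurableSpace.comap (pull b) inferInstance := by
  refine le_antisymm (b1_sg_le ?_) (Measurable.comap_le ?_)
  · rintro _ ⟨i, rfl⟩
    exact (measurable_pi_apply i).comp (comap_measurable (pull b))
  · exact @measurable_pi_lambda _ _ _ (sg (range b)) _ _ fun i => measurable_coord ⟨i, rfl⟩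

theorem sg_image (a : A → I) (S : Set A) : sg (a '' S) = (sg S).comap (pull a) := by
  refine le_antisymm (b1_sg_le ?_) (measurable_pull_sg a subset_rfl).comap_le
  rintro _ ⟨i, hi, rfl⟩
  exact (measurable_coord hi).comp (@comap_measurable _ _ (sg S) (pull a))

theorem sg_univ : sg (univ : Set I) = (inferInstance : MeasurableSpace (Om I)) := by
  refine le_antisymm (sg_le _) ?_
  have : @Measurable _ _ (sg (univ : Set I)) inferInstance (fun x : Om I => x) :=
    @measurable_pi_lambda _ _ _ (sg univ) _ _ fun i => measurable_coord (mem_univ i)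
  exact fun s hs => this hs

theorem sg_empty : sg (∅ : Set I) = ⊥ :=
  le_bot_iff.1 (b1_sg_le fun a ha => absurd ha (notMem_empty a))

theorem measurable_pull_range (b : B → I) {S : Set I} (h : range b ⊆ S) :
    Measurable[sg S] (pull b) :=
  @measurable_pi_lambda _ _ _ (sg S) _ _ fun i => measurable_coord (h ⟨i, rfl⟩)

theorem exists_factor {b : B → I} {F : Om I → E} (hF : StronglyMeasurable[sg (range b)] F) :
    ∃ g : Om B → E, StronglyMeasurable g ∧ F = g ∘ pull b := by
  rw [sg_range] at hF
  exact hF.exists_eq_measurable_comp

theorem exists_factor_image {a : A → I} {S : Set A} {F : Om I → E}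
    (hF : StronglyMeasurable[sg (a '' S)] F) :
    ∃ g : Om A → E, StronglyMeasurable[sg S] g ∧ F = g ∘ pull a := by
  rw [sg_image] at hF
  exact StronglyMeasurable.exists_eq_measurable_comp (mY := sg S) hF

end Crest.Agent.R69
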