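import Crest.Agent.R69.B1

/-! # Row 69: testing against monomials -/

set_option autoImplicit false
set_option linter.unusedVariables false
set_option linter.unusedSectionVars false

open MeasureTheory ProbabilityTheory Filter Topology Set

noncomputable section

namespace Crest.Agent.R69

variable {I A B D : Type} {E : Type} [NormedAddCommGroup E] [NormedSpace ℝ E] [CompleteSpace E]
  [SecondCountableTopology E]

open BoundedContinuousFunction in
theorem ext_mon_fam {X J : Type} [MeasurableSpace X] [TopologicalSpace X] [PolishSpace X]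
    [BorelSpace X] [CompactSpace X] (φ : J → X → ℝ) (hc : ∀ j, Continuous (φ j))
    (h1 : ∃ j, φ j = 1) (hmul : ∀ i j, ∃ k, φ k = φ i * φ j)
    (hsep : ∀ x y, x ≠ y → ∃ j, φ j x ≠ φ j y) {M M' : Measure X} [IsFiniteMeasure M]
    [IsFiniteMeasure M'] (h : ∀ j, ∫ x, φ j x ∂M = ∫ x, φ j x ∂M') : M = M' := by
  have hm : ∀ f ∈ Submodule.span ℝ (range φ), ∀ g ∈ Submodule.span ℝ (range φ),
      f * g ∈ Submodule.span ℝ (range φ) := fun f hf g hg => by
    have := Submodule.mul_mem_mul hf hg
    rw [Submodule.span_mul_span] at this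
    refine Submodule.span_mono ?_ this
    rintro _ ⟨_, ⟨i, rfl⟩, _, ⟨j, rfl⟩, rfl⟩
    exact hmul i j
  have ho : (1 : X → ℝ) ∈ Submodule.span ℝ (range φ) := Submodule.subset_span h1
  let Al : StarSubalgebra ℝ (X →ᵇ ℝ) :=
    { carrier := {g | (g : X → ℝ) ∈ Submodule.span ℝ (range φ)}
      mul_mem' := fun {f g} hf hg => hm _ hf _ hg
      add_mem' := fun {f g} hf hg => (Submodule.span ℝ (range φ)).add_mem hf hg
      algebraMap_mem' := fun r => by
        have : ((algebraMap ℝ (X →ᵇ ℝ) r : X →ᵇ ℝ) : X → ℝ) = r • (1 : X → ℝ) := by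
          funext x; simp
        show ((algebraMap ℝ (X →ᵇ ℝ) r : X →ᵇ ℝ) : X → ℝ) ∈ Submodule.span ℝ (range φ)
        rw [this]; exact Submodule.smul_mem _ _ ho
      star_mem' := fun {f} hf => by
        have : ((star f : X →ᵇ ℝ) : X → ℝ) = f := by funext x; simp
        show ((star f : X →ᵇ ℝ) : X → ℝ) ∈ Submodule.span ℝ (range φ)
        rw [this]; exact hf }
  refine ext_of_forall_mem_subalgebra_integral_eq_of_polish (𝕜 := ℝ) (A := Al) ?_ ?_
  · intro x y hxy
    obtain ⟨j, hj⟩ := hsep x y hxy
    refine ⟨φ j, ⟨⟨φ j, hc j⟩, ⟨mkOfCompact ⟨φ j, hc j⟩, ?_, rfl⟩, rfl⟩, hj⟩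
    exact Submodule.subset_span ⟨j, rfl⟩
  · intro g hg
    have key : ∀ f ∈ Submodule.span ℝ (range φ),
        Integrable f M ∧ Integrable f M' ∧ ∫ x, f x ∂M = ∫ x, f x ∂M' := fun f hf => by
      induction hf using Submodule.span_induction with
      | mem f hf =>
        obtain ⟨j, rfl⟩ := hf
        exact ⟨(mkOfCompact ⟨φ j, hc j⟩).integrable M, (mkOfCompact ⟨φ j, hc j⟩).integrable M', h j⟩
      | zero => simp
      | add f g _ _ hf hg =>
        refine ⟨hf.1.add hg.1, hf.2.1.add hg.2.1, ?_⟩
        simp only [Pi.add_apply]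
        rw [integral_add hf.1 hg.1, integral_add hf.2.1 hg.2.1, hf.2.2, hg.2.2]
      | smul a f _ hf =>
        refine ⟨hf.1.smul a, hf.2.1.smul a, ?_⟩
        simp only [Pi.smul_apply]
        rw [integral_smul, integral_smul, hf.2.2]
    exact (key _ hg).2.2

theorem ext_mon_sep {x y : Om I} (h : x ≠ y) : ∃ m, mon m x ≠ mon m y := by
  obtain ⟨a, ha⟩ := Function.ne_iff.1 h
  exact ⟨{a}, by rw [mon_singleton, mon_singleton]; exact fun e => ha (Subtype.ext e)⟩

theorem ext_mon [Countable I] {M M' : Measure (Om I)} [IsFiniteMeasure M] [IsFiniteMeasure M']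
    (h : ∀ m, ∫ x, mon m x ∂M = ∫ x, mon m x ∂M') : M = M' :=
  ext_mon_fam (fun m => mon m) continuous_mon ⟨0, funext mon_zero⟩
    (fun i j => ⟨i + j, funext (mon_add i j)⟩) (fun _ _ => ext_mon_sep) h

theorem ext_mon_prod [Countable A] [Countable B] {M M' : Measure (Om A × Om B)} [IsFiniteMeasure M]
    [IsFiniteMeasure M']
    (h : ∀ m m', ∫ x, mon m x.1 * mon m' x.2 ∂M = ∫ x, mon m x.1 * mon m' x.2 ∂M') : M = M' := by
  refine ext_mon_fam (fun (q : Multiset A × Multiset B) x => mon q.1 x.1 * mon q.2 x.2)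
    (fun q => ((continuous_mon _).comp continuous_fst).mul ((continuous_mon _).comp continuous_snd))
    ⟨(0, 0), funext fun x => by simp⟩
    (fun i j => ⟨(i.1 + j.1, i.2 + j.2), funext fun x => by
      simp only [mon_add, Pi.mul_apply]; ring⟩) (fun x y hxy => ?_) (fun q => h q.1 q.2)
  by_cases h1 : x.1 = y.1
  · obtain ⟨m, hm⟩ := ext_mon_sep (fun h2 : x.2 = y.2 => hxy (Prod.ext h1 h2))
    exact ⟨(0, m), by simpa using hm⟩
  · obtain ⟨m, hm⟩ := ext_mon_sep h1
    exact ⟨(m, 0), by simpa using hm⟩

theorem zero_of_test_univ [Countable I] {M : Measure (Om I)} [IsFiniteMeasure M]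
    {g : Om I → ℝ} (hg : Integrable g M) (hm : Measurable g)
    (h : ∀ m, ∫ x, mon m x * g x ∂M = 0) : g =ᵐ[M] 0 := by
  have := isFiniteMeasure_withDensity_ofReal hg.hasFiniteIntegral
  have := isFiniteMeasure_withDensity_ofReal hg.neg.hasFiniteIntegral
  have hi : ∀ (f : Om I → ℝ), Measurable f → ∀ m,
      ∫ x, mon m x ∂(M.withDensity fun x => ENNReal.ofReal (f x)) =
        ∫ x, mon m x * max (f x) 0 ∂M := fun f hf m => by
    rw [integral_withDensity_eq_integral_toReal_smul hf.ennreal_ofReal
      (Eventually.of_forall fun _ => ENNReal.ofReal_lt_top)]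
    refine integral_congr_ae (Eventually.of_forall fun x => ?_)
    simp only [ENNReal.toReal_ofReal', smul_eq_mul, mul_comm]
  have hb : ∀ (f : Om I → ℝ), Integrable f M → ∀ m,
      Integrable (fun x => mon m x * max (f x) 0) M := fun f hf m =>
    hf.pos_part.bdd_mul (c := 1) (measurable_mon m).aestronglyMeasurable
      (Eventually.of_forall fun x => abs_mon_le m x)
  have he : (M.withDensity fun x => ENNReal.ofReal (g x)) =
      M.withDensity fun x => ENNReal.ofReal ((-g) x) := by
    refine ext_mon fun m => ?_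
    rw [hi g hm, hi (-g) hm.neg, ← sub_eq_zero, ← integral_sub (hb g hg m) (hb _ hg.neg m)]
    refine Eq.trans ?_ (h m)
    refine integral_congr_ae (Eventually.of_forall fun x => ?_)
    simp only [Pi.neg_apply]
    rw [← mul_sub, max_zero_sub_max_neg_zero_eq_self]
  have hfin : ∫⁻ x, ENNReal.ofReal (g x) ∂M ≠ ⊤ :=
    (lintegral_ofReal_le_lintegral_enorm g).trans_lt hg.hasFiniteIntegral |>.ne
  filter_upwards [(withDensity_eq_iff hm.ennreal_ofReal.aemeasurable
    hm.neg.ennreal_ofReal.aemeasurable hfin).1 he] with x hx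
  have := congrArg ENNReal.toReal hx
  simp only [ENNReal.toReal_ofReal', Pi.neg_apply] at this
  have h2 := max_zero_sub_max_neg_zero_eq_self (g x)
  rw [this, sub_self] at h2
  exact h2.symm

theorem zero_of_test_real [Countable I] {M : Measure (Om I)} [IsFiniteMeasure M] {S : Set I}
    {G : Om I → ℝ} (hG : Integrable G M) (hm : AEStronglyMeasurable[sg S] G M)
    (h : ∀ m, InB m S → ∫ x, mon m x * G x ∂M = 0) : G =ᵐ[M] 0 := by
  obtain ⟨G', hG', hGG⟩ := hm
  have hG'' : StronglyMeasurable[sg (range (Subtype.val : S → I))] G' := by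
    rwa [Subtype.range_coe]
  obtain ⟨g, hg, rfl⟩ := exists_factor hG''
  have hr : Measurable (res S) := measurable_pull _
  have hint : Integrable g (M.map (res S)) :=
    (integrable_map_measure hg.aestronglyMeasurable hr.aemeasurable).2 (hG.congr hGG)
  have hz := zero_of_test_univ hint hg.measurable fun m => by
    rw [integral_map hr.aemeasurable (f := fun x => mon m x * g x)
      ((measurable_mon m).mul hg.measurable).aestronglyMeasurable]
    rw [← h (m.map Subtype.val) fun a ha => by
      obtain ⟨b, -, rfl⟩ := Multiset.mem_map.1 ha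
      exact b.2]
    refine integral_congr_ae ?_
    filter_upwards [hGG] with x hx
    rw [hx, mon_map]; rfl
  filter_upwards [hGG, ae_of_ae_map hr.aemeasurable hz] with x hx hx'
  rw [hx]; exact hx'

theorem zero_of_test [Countable I] {M : Measure (Om I)} [IsFiniteMeasure M] {S : Set I}
    {G : Om I → E} (hG : Integrable G M) (hm : AEStronglyMeasurable[sg S] G M)
    (h : ∀ m, InB m S → ∫ x, mon m x • G x ∂M = 0) : G =ᵐ[M] 0 := by
  refine ae_eq_zero_of_forall_dual ℝ fun c => ?_
  refine zero_of_test_real (S := S) (c.integrable_comp hG)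
    (c.continuous.comp_aestronglyMeasurable hm) fun m hmS => ?_
  have hi : Integrable (fun x => mon m x • G x) M :=
    hG.bdd_smul 1 (measurable_mon m).aestronglyMeasurable
      (Eventually.of_forall fun x => abs_mon_le m x)
  have := c.integral_comp_comm hi
  rw [h m hmS, map_zero] at this
  simpa only [map_smul, smul_eq_mul] using this

theorem integral_mon_smul_condExp {M : Measure (Om I)} [IsFiniteMeasure M] {S : Set I}
    {F : Om I → E} (hF : Integrable F M) {m : Multiset I} (hm : InB m S) :
    ∫ x, mon m x • (M[F | sg S]) x ∂M = ∫ x, mon m x • F x ∂M := by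
  have h1 : M[mon m • F | sg S] =ᵐ[M] mon m • M[F | sg S] :=
    condExp_smul_of_aestronglyMeasurable_left
      (measurable_mon_sg hm).stronglyMeasurable.aestronglyMeasurable
      (hF.bdd_smul 1 (measurable_mon m).aestronglyMeasurable
        (Eventually.of_forall fun x => abs_mon_le m x)) hF
  have h2 := integral_congr_ae h1
  rw [integral_condExp (sg_le S)] at h2
  exact h2.symm

theorem condExp_of_test [Countable I] {M : Measure (Om I)} [IsFiniteMeasure M] {S : Set I}
    {F G : Om I → E} (hF : Integrable F M) (hG : Integrable G M)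
    (hm : AEStronglyMeasurable[sg S] G M)
    (h : ∀ m, InB m S → ∫ x, mon m x • F x ∂M = ∫ x, mon m x • G x ∂M) : M[F | sg S] =ᵐ[M] G := by
  have hi : ∀ (m : Multiset I) {H : Om I → E}, Integrable H M →
      Integrable (fun x => mon m x • H x) M := fun m H hH =>
    hH.bdd_smul 1 (measurable_mon m).aestronglyMeasurable
      (Eventually.of_forall fun x => abs_mon_le m x)
  have := zero_of_test (integrable_condExp.sub hG)
    (stronglyMeasurable_condExp.aestronglyMeasurable.sub hm) (S := S) (G := M[F | sg S] - G)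
    fun m hm' => by
      simp only [Pi.sub_apply, smul_sub]
      rw [integral_sub (hi m integrable_condExp) (hi m hG), integral_mon_smul_condExp hF hm',
        h m hm', sub_self]
  filter_upwards [this] with x hx
  exact sub_eq_zero.1 hx

/-- a function orthogonal to the monomials is orthogonal to the square integrable functions -/
theorem integral_mul_eq_zero_of_test [Countable I] {M : Measure (Om I)} [IsFiniteMeasure M]
    {S : Set I} {F G : Om I → ℂ} (hF : MemLp F 2 M) (hG : MemLp G 2 M)
    (hm : AEStronglyMeasurable[sg S] G M)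
    (h : ∀ m, InB m S → ∫ x, mon m x • F x ∂M = 0) : ∫ x, G x * F x ∂M = 0 := by
  have h0 : M[F | sg S] =ᵐ[M] 0 := condExp_of_test (hF.integrable one_le_two) (integrable_zero _ _ _)
    aestronglyMeasurable_zero fun m hm' => by rw [h m hm']; simp
  have h1 : M[G * F | sg S] =ᵐ[M] fun x => G x * (M[F | sg S]) x :=
    condExp_bilin_of_aestronglyMeasurable_left (ContinuousLinearMap.mul ℝ ℂ) hm
      (hG.integrable_mul hF) (hF.integrable one_le_two)
  have h2 : M[G * F | sg S] =ᵐ[M] 0 := by
    filter_upwards [h0, h1] with x h3 h4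
    rw [h4, h3]; simp
  have h3 := integral_congr_ae h2
  rw [integral_condExp (sg_le S)] at h3
  simpa using h3

end Crest.Agent.R69
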