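import Crest.Agent.R69.B2

/-! # Row 69: density of polynomials -/

set_option autoImplicit false
set_option linter.unusedVariables false
set_option linter.unusedSectionVars false

open MeasureTheory ProbabilityTheory Filter Topology Set

noncomputable section

namespace Crest.Agent.R69

variable {I A B D : Type} {E : Type} [NormedAddCommGroup E] [NormedSpace ℝ E] [CompleteSpace E]
  [SecondCountableTopology E]

/-- polynomials -/
def pol (q : Multiset I →₀ E) (x : Om I) : E := q.sum fun m c => mon m x • c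

theorem continuous_pol (q : Multiset I →₀ E) : Continuous (pol q) := by
  unfold pol Finsupp.sum
  exact continuous_finsetSum _ fun m _ => (continuous_mon m).smul continuous_const

theorem b2b_pol_zero (x : Om I) : pol (0 : Multiset I →₀ E) x = 0 := by
  simp [pol]

theorem b2b_pol_single (m : Multiset I) (c : E) (x : Om I) :
    pol (Finsupp.single m c) x = mon m x • c := by
  simp [pol]

theorem b2b_pol_add (q q' : Multiset I →₀ E) (x : Om I) :
    pol (q + q') x = pol q x + pol q' x := by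
  unfold pol
  exact Finsupp.sum_add_index' (fun _ => smul_zero _) (fun _ _ _ => smul_add _ _ _)

theorem b2b_pol_smul (q : Multiset I →₀ ℝ) (m : Multiset I) (c : E) :
    ∃ r : Multiset I →₀ E, ∀ x, pol r x = pol q x • (mon m x • c) := by
  induction q using Finsupp.induction_linear with
  | zero => exact ⟨0, fun x => by rw [b2b_pol_zero, b2b_pol_zero, zero_smul]⟩
  | add q q' h h' =>
    obtain ⟨r, hr⟩ := h
    obtain ⟨r', hr'⟩ := h'
    exact ⟨r + r', fun x => by rw [b2b_pol_add, b2b_pol_add, hr, hr', add_smul]⟩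
  | single m' a =>
    refine ⟨Finsupp.single (m' + m) (a • c), fun x => ?_⟩
    rw [b2b_pol_single, b2b_pol_single, mon_add, smul_smul, smul_smul, smul_eq_mul]
    congr 1
    ring

theorem b2b_pol_mul (q q' : Multiset I →₀ ℝ) :
    ∃ r : Multiset I →₀ ℝ, ∀ x, pol r x = pol q x * pol q' x := by
  induction q' using Finsupp.induction_linear with
  | zero => exact ⟨0, fun x => by rw [b2b_pol_zero, mul_zero]⟩
  | add q₁ q₂ h h' =>
    obtain ⟨r, hr⟩ := h
    obtain ⟨r', hr'⟩ := h'
    exact ⟨r + r', fun x => by rw [b2b_pol_add, b2b_pol_add, hr, hr', mul_add]⟩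
  | single m a =>
    obtain ⟨r, hr⟩ := b2b_pol_smul q m a
    exact ⟨r, fun x => by rw [hr, b2b_pol_single, smul_eq_mul]⟩

theorem b2b_sw_real (f : Om I → ℝ) (hf : Continuous f) {δ : ℝ} (hδ : 0 < δ) :
    ∃ q : Multiset I →₀ ℝ, ∀ x, ‖pol q x - f x‖ < δ := by
  let co : I → C(Om I, ℝ) := fun a => ⟨fun x => (x a : ℝ), by fun_prop⟩
  let T : Subalgebra ℝ C(Om I, ℝ) := Algebra.adjoin ℝ (range co)
  have hsep : T.SeparatesPoints := by
    intro x y hxy
    obtain ⟨a, ha⟩ := Function.ne_iff.1 hxy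
    exact ⟨co a, ⟨co a, Algebra.subset_adjoin ⟨a, rfl⟩, rfl⟩, fun h => ha (Subtype.ext h)⟩
  have hT : ∀ g ∈ T, ∃ q : Multiset I →₀ ℝ, ∀ x, pol q x = g x := by
    intro g hg
    induction hg using Algebra.adjoin_induction with
    | mem g hg =>
      obtain ⟨a, rfl⟩ := hg
      exact ⟨Finsupp.single {a} 1, fun x => by
        rw [b2b_pol_single, mon_singleton, smul_eq_mul, mul_one]; rfl⟩
    | algebraMap r =>
      exact ⟨Finsupp.single 0 r, fun x => by
        rw [b2b_pol_single, mon_zero, one_smul]; simp⟩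
    | add g g' _ _ h h' =>
      obtain ⟨q, hq⟩ := h
      obtain ⟨q', hq'⟩ := h'
      exact ⟨q + q', fun x => by rw [b2b_pol_add, hq, hq']; rfl⟩
    | mul g g' _ _ h h' =>
      obtain ⟨q, hq⟩ := h
      obtain ⟨q', hq'⟩ := h'
      obtain ⟨r, hr⟩ := b2b_pol_mul q q'
      exact ⟨r, fun x => by rw [hr, hq, hq']; rfl⟩
  obtain ⟨g, hg⟩ :=
    ContinuousMap.exists_mem_subalgebra_near_continuous_of_separatesPoints T hsep f hf δ hδ
  obtain ⟨q, hq⟩ := hT g g.2
  exact ⟨q, fun x => by rw [hq]; exact hg x⟩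

theorem b2b_pol_sum {J : Type} (t : Finset J) (q : J → Multiset I →₀ E) (x : Om I) :
    pol (∑ j ∈ t, q j) x = ∑ j ∈ t, pol (q j) x := by
  classical
  induction t using Finset.induction_on with
  | empty => simp [b2b_pol_zero]
  | insert j t hj ih => rw [Finset.sum_insert hj, Finset.sum_insert hj, b2b_pol_add, ih]

theorem b2b_sw [FiniteDimensional ℝ E] (f : Om I → E) (hf : Continuous f) {δ : ℝ} (hδ : 0 < δ) :
    ∃ q : Multiset I →₀ E, ∀ x, ‖f x - pol q x‖ ≤ δ := by
  let b := Module.finBasis ℝ E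
  have hs : 0 ≤ ∑ i, ‖b i‖ := Finset.sum_nonneg fun _ _ => norm_nonneg _
  have hδ' : 0 < δ / (∑ i, ‖b i‖ + 1) := by positivity
  have h1 : ∀ i, ∃ r : Multiset I →₀ E, ∀ x,
      ‖b.repr (f x) i • b i - pol r x‖ ≤ δ / (∑ i, ‖b i‖ + 1) * ‖b i‖ := by
    intro i
    have hc : Continuous fun x => b.repr (f x) i :=
      (LinearMap.continuous_of_finiteDimensional (b.coord i)).comp hf
    obtain ⟨q, hq⟩ := b2b_sw_real _ hc hδ'
    obtain ⟨r, hr⟩ := b2b_pol_smul q 0 (b i)
    refine ⟨r, fun x => ?_⟩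
    rw [hr, mon_zero, one_smul, ← sub_smul, norm_smul, norm_sub_rev]
    exact mul_le_mul_of_nonneg_right (hq x).le (norm_nonneg _)
  choose r hr using h1
  refine ⟨∑ i, r i, fun x => ?_⟩
  rw [b2b_pol_sum]
  conv_lhs => rw [← b.sum_repr (f x)]
  rw [← Finset.sum_sub_distrib]
  calc _ ≤ ∑ i, ‖b.repr (f x) i • b i - pol (r i) x‖ := norm_sum_le _ _
    _ ≤ ∑ i, δ / (∑ i, ‖b i‖ + 1) * ‖b i‖ := Finset.sum_le_sum fun i _ => hr i x
    _ = δ / (∑ i, ‖b i‖ + 1) * ∑ i, ‖b i‖ := by rw [Finset.mul_sum]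
    _ ≤ δ := by
      rw [div_mul_eq_mul_div, div_le_iff₀ (by positivity)]
      nlinarith

theorem b2b_pol_res (S : Set I) (q : Multiset S →₀ E) :
    ∃ r : Multiset I →₀ E, (∀ m ∈ r.support, InB m S) ∧ ∀ x, pol r x = pol q (res S x) := by
  classical
  induction q using Finsupp.induction_linear with
  | zero => exact ⟨0, by simp, fun x => by rw [b2b_pol_zero, b2b_pol_zero]⟩
  | add q q' h h' =>
    obtain ⟨r, h1, hr⟩ := h
    obtain ⟨r', h2, hr'⟩ := h'
    refine ⟨r + r', fun m hm => ?_, fun x => by rw [b2b_pol_add, b2b_pol_add, hr, hr']⟩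
    rcases Finset.mem_union.1 (Finsupp.support_add hm) with h | h
    · exact h1 m h
    · exact h2 m h
  | single m c =>
    refine ⟨Finsupp.single (m.map Subtype.val) c, fun m' hm => ?_, fun x => by
      rw [b2b_pol_single, b2b_pol_single, mon_map]⟩
    rw [Finset.mem_singleton.1 (Finsupp.support_single_subset hm)]
    intro a ha
    obtain ⟨a', _, rfl⟩ := Multiset.mem_map.1 ha
    exact a'.2

theorem b2b_memLp_pol (M : Measure (Om I)) [IsFiniteMeasure M] (p : ENNReal)
    (q : Multiset I →₀ E) : MemLp (pol q) p M := by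
  induction q using Finsupp.induction_linear with
  | zero =>
    have : pol (0 : Multiset I →₀ E) = 0 := funext b2b_pol_zero
    rw [this]; exact MemLp.zero
  | add q q' h h' =>
    have : pol (q + q') = pol q + pol q' := funext (b2b_pol_add q q')
    rw [this]; exact h.add h'
  | single m c =>
    have : pol (Finsupp.single m c) = fun x => mon m x • c := funext (b2b_pol_single m c)
    rw [this]
    refine MemLp.of_bound ((measurable_mon m).aestronglyMeasurable.smul_const c) ‖c‖
      (Eventually.of_forall fun x => ?_)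
    rw [norm_smul, Real.norm_eq_abs]
    exact mul_le_of_le_one_left (norm_nonneg _) (abs_mon_le m x)

theorem dense_pol [Countable I] [FiniteDimensional ℝ E] {M : Measure (Om I)} [IsFiniteMeasure M]
    {S : Set I} {F : Om I → E} {p : ENNReal} (hp1 : 1 ≤ p) (hp : p ≠ ⊤) (hF : MemLp F p M)
    (hm : AEStronglyMeasurable[sg S] F M) {ε : ENNReal} (hε : ε ≠ 0) :
    ∃ q : Multiset I →₀ E, (∀ m ∈ q.support, InB m S) ∧ eLpNorm (F - pol q) p M ≤ ε := by
  obtain ⟨F', hF', hFF⟩ := hm
  obtain ⟨g, hg, hgF⟩ := StronglyMeasurable.exists_eq_measurable_comp (f := res S) hF'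
  have hres : Measurable (res S) := measurable_pull _
  have hgp : MemLp g p (M.map (res S)) := by
    rw [memLp_map_measure_iff hg.aestronglyMeasurable hres.aemeasurable, ← hgF]
    exact (memLp_congr_ae hFF).1 hF
  have hε2 : ε / 2 ≠ 0 := by simpa using hε
  obtain ⟨g', hg', hg'p⟩ := hgp.exists_boundedContinuous_eLpNorm_sub_le hp hε2
  have hfin : (M.map (res S)) univ ^ p.toReal⁻¹ ≠ ⊤ :=
    ENNReal.rpow_ne_top_of_nonneg (by positivity) (measure_ne_top _ _)
  obtain ⟨δ, hδ, hδε⟩ := ENNReal.exists_nnreal_pos_mul_lt hfin hε2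
  obtain ⟨q, hq⟩ := b2b_sw g' g'.continuous (δ := (δ : ℝ)) hδ
  obtain ⟨r, hr, hrq⟩ := b2b_pol_res S q
  refine ⟨r, hr, ?_⟩
  have hqp := b2b_memLp_pol (M.map (res S)) p q
  have h1 : eLpNorm ((g' : Om S → E) - pol q) p (M.map (res S)) ≤ ε / 2 := by
    refine (eLpNorm_le_of_ae_bound (C := (δ : ℝ)) (Eventually.of_forall fun x => hq x)).trans ?_
    rw [ENNReal.ofReal_coe_nnreal, mul_comm]
    exact hδε.le
  have h2 : eLpNorm (g - pol q) p (M.map (res S)) ≤ ε := by
    have : g - pol q = (g - (g' : Om S → E)) + ((g' : Om S → E) - pol q) := by abel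
    rw [this]
    refine (eLpNorm_add_le (hgp.sub hg'p).1 (hg'p.sub hqp).1 hp1).trans ?_
    calc _ ≤ ε / 2 + ε / 2 := add_le_add hg' h1
      _ = ε := ENNReal.add_halves ε
  rw [eLpNorm_map_measure (hgp.sub hqp).1 hres.aemeasurable] at h2
  refine le_of_eq_of_le (eLpNorm_congr_ae ?_) h2
  filter_upwards [hFF] with x hx
  simp only [Pi.sub_apply, Function.comp_apply, hx, hgF, hrq]

/-- induction over integrable functions -/
theorem mon_induction [Countable I] [FiniteDimensional ℝ E] {M : Measure (Om I)} [IsFiniteMeasure M]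
    {S : Set I} {p : ENNReal} (hp1 : 1 ≤ p) (hp : p ≠ ⊤) (Q : (Om I → E) → Prop)
    (hmon : ∀ m (c : E), InB m S → Q fun x => mon m x • c)
    (hadd : ∀ F G, MemLp F p M → MemLp G p M → Q F → Q G → Q (F + G))
    (hlim : ∀ F, MemLp F p M → (∀ ε : ENNReal, ε ≠ 0 → ∃ G, MemLp G p M ∧ Q G ∧
      eLpNorm (F - G) p M ≤ ε) → Q F)
    {F : Om I → E} (hF : MemLp F p M) (hm : AEStronglyMeasurable[sg S] F M) : Q F := by
  classical
  have hQ : ∀ q : Multiset I →₀ E, (∀ m ∈ q.support, InB m S) → Q (pol q) := by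
    intro q
    induction q using Finsupp.induction with
    | zero =>
      intro _
      have h0 := hmon 0 0 (fun a ha => by simp at ha)
      have : pol (0 : Multiset I →₀ E) = fun x => mon (0 : Multiset I) x • (0 : E) :=
        funext fun x => by rw [b2b_pol_zero, smul_zero]
      rw [this]; exact h0
    | single_add m c q hmq hc ih =>
      intro h
      rw [Finsupp.support_single_add hmq hc] at h
      have e1 : pol (Finsupp.single m c + q) = pol (Finsupp.single m c) + pol q :=
        funext (b2b_pol_add _ _)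
      have e2 : pol (Finsupp.single m c) = fun x => mon m x • c := funext (b2b_pol_single m c)
      rw [e1]
      refine hadd _ _ (b2b_memLp_pol M p _) (b2b_memLp_pol M p _) ?_
        (ih fun m' hm' => h m' (Finset.mem_cons_of_mem hm'))
      rw [e2]
      exact hmon m c (h m (Finset.mem_cons_self _ _))
  refine hlim F hF fun ε hε => ?_
  obtain ⟨q, hq, hqε⟩ := dense_pol hp1 hp hF hm hε
  exact ⟨pol q, b2b_memLp_pol M p q, hQ q hq, hqε⟩

end Crest.Agent.R69
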