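import Crest.Agent.R69.B2b

/-! # Row 69: conditional independence -/

set_option autoImplicit false
set_option linter.unusedVariables false
set_option linter.unusedSectionVars false

open MeasureTheory ProbabilityTheory Filter Topology Set

noncomputable section

namespace Crest.Agent.R69

variable {I A B D : Type} {E : Type} [NormedAddCommGroup E] [NormedSpace ℝ E] [CompleteSpace E]
  [SecondCountableTopology E]
variable [Countable I] {M : Measure (Om I)} [IsProbabilityMeasure M] {S T U S' T' U' : Set I}

theorem ci_iff_test_aux {m m' m'' : Multiset I} (h'' : InB m'' U) :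
    ∫ x, mon (m' + m'') x • (M[mon m | sg U]) x ∂M =
      ∫ x, (M[mon m | sg U]) x * (M[mon m' | sg U]) x * mon m'' x ∂M := by
  set f : Om I → ℝ := fun x => (M[mon m | sg U]) x * mon m'' x with hf
  have hfm : StronglyMeasurable[sg U] f :=
    stronglyMeasurable_condExp.mul (measurable_mon_sg h'').stronglyMeasurable
  have e1 : (fun x => mon (m' + m'') x • (M[mon m | sg U]) x) = f * mon m' := by
    funext x; simp only [hf, mon_add, smul_eq_mul, Pi.mul_apply]; ring
  have hint : Integrable (f * mon m') M := by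
    rw [← e1]
    have := (integrable_condExp (μ := M) (m := sg U) (f := mon m)).bdd_mul (c := 1)
      (measurable_mon (m' + m'')).aestronglyMeasurable
      (Eventually.of_forall fun x => by simpa using abs_mon_le (m' + m'') x)
    simpa using this
  have h1 := condExp_mul_of_stronglyMeasurable_left hfm hint (integrable_mon M m')
  rw [e1, ← integral_condExp (sg_le U), integral_congr_ae h1]
  refine integral_congr_ae (Eventually.of_forall fun x => ?_)
  simp only [hf, Pi.mul_apply]; ring

/-- test form of conditional independence -/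
theorem ci_iff_test : CI M S T U ↔ ∀ m m' m'', InB m S → InB m' T → InB m'' U →
    ∫ x, mon m x * mon m' x * mon m'' x ∂M =
      ∫ x, (M[mon m | sg U]) x * (M[mon m' | sg U]) x * mon m'' x ∂M := by
  have e : ∀ m m' m'' : Multiset I, ∫ x, mon m x * mon m' x * mon m'' x ∂M =
      ∫ x, mon (m' + m'') x • mon m x ∂M := fun m m' m'' => by
    refine integral_congr_ae (Eventually.of_forall fun x => ?_)
    simp only [mon_add, smul_eq_mul]; ring
  constructor
  · intro h m m' m'' hm hm' hm''
    have hn : InB (m' + m'') (T ∪ U) :=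
      (hm'.mono subset_union_left).add (hm''.mono subset_union_right)
    rw [e, ← integral_mon_smul_condExp (integrable_mon M m) hn, ← ci_iff_test_aux hm'']
    refine integral_congr_ae ?_
    filter_upwards [h m hm] with x hx
    rw [hx]
  · intro h m hm
    refine condExp_of_test (integrable_mon M m) integrable_condExp
      ((stronglyMeasurable_condExp.mono (sg_mono subset_union_right)).aestronglyMeasurable) ?_
    intro n hn
    obtain ⟨m', m'', hm', hm'', rfl⟩ := hn.of_union
    rw [← e, h m m' m'' hm hm' hm'', ci_iff_test_aux hm'']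

theorem CI.symm (h : CI M S T U) : CI M T S U := by
  rw [ci_iff_test] at h ⊢
  intro m m' m'' hm hm' hm''
  have := h m' m m'' hm' hm hm''
  simp only [mul_comm (mon m' _) (mon m _)] at this
  rw [this]
  refine integral_congr_ae (Eventually.of_forall fun x => ?_)
  simp only; ring

/-- self-adjointness of the conditional expectation -/
theorem ci_condExp_adj (V : Set I) {φ : Om I → ℝ} {H : Om I → E} (mφ : AEStronglyMeasurable φ M)
    (bφ : ∀ᵐ x ∂M, ‖φ x‖ ≤ 1) (iH : Integrable H M) :
    ∫ x, (M[φ | sg V]) x • H x ∂M = ∫ x, φ x • (M[H | sg V]) x ∂M := by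
  have iφ : Integrable φ M := Integrable.of_bound mφ 1 bφ
  have i1 : Integrable (M[φ | sg V] • H) M :=
    iH.bdd_smul 1 (stronglyMeasurable_condExp.mono (sg_le V)).aestronglyMeasurable
      (ae_bdd_norm_condExp_of_ae_bdd_norm bφ)
  have i2 : Integrable (φ • M[H | sg V]) M := integrable_condExp.bdd_smul 1 mφ bφ
  have e1 := condExp_smul_of_aestronglyMeasurable_left (m := sg V)
    stronglyMeasurable_condExp.aestronglyMeasurable i1 iH
  have e2 := condExp_smul_of_aestronglyMeasurable_right (m := sg V) iφ i2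
    stronglyMeasurable_condExp.aestronglyMeasurable
  calc ∫ x, (M[φ | sg V] • H) x ∂M = ∫ x, (M[M[φ | sg V] • H | sg V]) x ∂M :=
        (integral_condExp (sg_le V)).symm
    _ = ∫ x, (M[φ • M[H | sg V] | sg V]) x ∂M := integral_congr_ae (e1.trans e2.symm)
    _ = ∫ x, (φ • M[H | sg V]) x ∂M := integral_condExp (sg_le V)

/-- sandwich -/
theorem ci_condExp_mid {F : Om I → E} {V W : Set I} (h1 : U ⊆ V) (h2 : V ⊆ W)
    (h : M[F | sg W] =ᵐ[M] M[F | sg U]) : M[F | sg V] =ᵐ[M] M[F | sg U] :=
  ((condExp_condExp_of_le (sg_mono h2) (sg_le W)).symm.trans (condExp_congr_ae h)).trans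
    (condExp_of_aestronglyMeasurable' (sg_le V)
      (stronglyMeasurable_condExp.mono (sg_mono h1)).aestronglyMeasurable integrable_condExp)

theorem CI.condExp (h : CI M S T U) {F : Om I → E} (hF : Integrable F M)
    (hm : AEStronglyMeasurable[sg (S ∪ U)] F M) : M[F | sg (T ∪ U)] =ᵐ[M] M[F | sg U] := by
  refine condExp_of_test hF integrable_condExp
    ((stronglyMeasurable_condExp.mono (sg_mono subset_union_right)).aestronglyMeasurable) ?_
  intro m hmm
  obtain ⟨m₁, m₂, h₁, h₂, rfl⟩ := hmm.of_union
  have b : ∀ m : Multiset I, ∀ᵐ x ∂M, ‖mon m x‖ ≤ 1 := fun m =>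
    Eventually.of_forall fun x => abs_mon_le m x
  have iH : Integrable (mon m₂ • F) M :=
    hF.bdd_smul 1 (measurable_mon m₂).aestronglyMeasurable (b m₂)
  have mH : AEStronglyMeasurable[sg (S ∪ U)] (mon m₂ • F) M :=
    ((measurable_mon_sg (h₂.mono subset_union_right)).aestronglyMeasurable).smul hm
  have e1 := ci_condExp_adj (S ∪ U) (measurable_mon m₁).aestronglyMeasurable (b m₁) iH
  have e2 := ci_condExp_adj U (measurable_mon m₁).aestronglyMeasurable (b m₁) iH
  have e3 : M[mon m₂ • F | sg U] =ᵐ[M] mon m₂ • M[F | sg U] :=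
    condExp_smul_of_aestronglyMeasurable_left (measurable_mon_sg h₂).aestronglyMeasurable iH hF
  have e4 := condExp_of_aestronglyMeasurable' (sg_le (S ∪ U)) mH iH
  have e5 := h.symm m₁ h₁
  calc ∫ x, mon (m₁ + m₂) x • F x ∂M
      = ∫ x, mon m₁ x • (M[mon m₂ • F | sg (S ∪ U)]) x ∂M := by
        refine integral_congr_ae ?_
        filter_upwards [e4] with x hx
        rw [hx, mon_add, mul_smul]; rfl
    _ = ∫ x, (M[mon m₁ | sg U]) x • (mon m₂ • F) x ∂M := by
        rw [← e1]
        refine integral_congr_ae ?_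
        filter_upwards [e5] with x hx
        rw [hx]
    _ = ∫ x, mon (m₁ + m₂) x • (M[F | sg U]) x ∂M := by
        rw [e2]
        refine integral_congr_ae ?_
        filter_upwards [e3] with x hx
        rw [hx, mon_add, mul_smul]; rfl

theorem CI.mono (h : CI M S T U) (hS : S' ⊆ S ∪ U) (hT : T' ⊆ T ∪ U) : CI M S' T' U := by
  intro m hm
  exact ci_condExp_mid subset_union_right (union_subset hT subset_union_right)
    (h.condExp (integrable_mon M m) (measurable_mon_sg (hm.mono hS)).aestronglyMeasurable)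

/-- weak union -/
theorem CI.base (h : CI M S T U) (h1 : U ⊆ U') (h2 : U' ⊆ T ∪ U) : CI M S T U' := by
  intro m hm
  have e : T ∪ U' = T ∪ U :=
    Subset.antisymm (union_subset subset_union_left h2) (union_subset_union_right T h1)
  rw [e]
  exact (h m hm).trans (ci_condExp_mid h1 h2 (h m hm)).symm

/-- weak union, general form -/
theorem CI.base' (h : CI M S T U) (h1 : U ⊆ U') (h2 : U' ⊆ T ∪ U) (hS : S' ⊆ S ∪ U')
    (hT : T' ⊆ T ∪ U') : CI M S' T' U' := by
  exact (h.base h1 h2).mono hS hT

theorem ci_of_meas (hV : T ∪ U ⊆ U')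
    (h : ∀ m, InB m S → AEStronglyMeasurable[sg U] (M[mon m | sg U']) M) : CI M S T U := by
  intro m hm
  refine ci_condExp_mid subset_union_right hV ?_
  exact (condExp_of_aestronglyMeasurable' (sg_le U) (h m hm) integrable_condExp).symm.trans
    (condExp_condExp_of_le (sg_mono (subset_union_right.trans hV)) (sg_le U'))

theorem ci_of_subset (h : S ⊆ U) : CI M S T U := by
  intro m hm
  exact (condExp_of_aestronglyMeasurable' (sg_le _)
    (measurable_mon_sg (hm.mono (h.trans subset_union_right))).aestronglyMeasurable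
    (integrable_mon M m)).trans (condExp_of_aestronglyMeasurable' (sg_le _)
      (measurable_mon_sg (hm.mono h)).aestronglyMeasurable (integrable_mon M m)).symm

/-- contraction -/
theorem CI.contr (h : CI M S T (U ∪ U')) (h' : CI M S U' U) : CI M S (T ∪ U') U := by
  intro m hm
  have e1 := h m hm
  have e2 := h' m hm
  rw [union_comm U U'] at e1
  rw [union_assoc]
  exact e1.trans e2

theorem CI.integral_mul_aux (h : CI M S T U) {F G : Om I → ℂ} (hF : MemLp F 2 M)
    (hG : MemLp G 2 M) (hFm : AEStronglyMeasurable[sg (S ∪ U)] F M)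
    (hGm : AEStronglyMeasurable[sg (T ∪ U)] G M) :
    M[F * G | sg (T ∪ U)] =ᵐ[M] M[F | sg U] * G := by
  have hFi : Integrable F M := hF.integrable one_le_two
  have h1 : M[F * G | sg (T ∪ U)] =ᵐ[M] fun x => (M[F | sg (T ∪ U)]) x * G x :=
    condExp_bilin_of_aestronglyMeasurable_right (ContinuousLinearMap.mul ℝ ℂ) hGm
      (hF.integrable_mul hG) hFi
  filter_upwards [h1, h.condExp hFi hFm] with x e1 e2
  rw [e1, e2]; rfl

theorem CI.integral_mul (h : CI M S T U) {F G : Om I → ℂ} (hF : MemLp F 2 M) (hG : MemLp G 2 M)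
    (hFm : AEStronglyMeasurable[sg (S ∪ U)] F M) (hGm : AEStronglyMeasurable[sg (T ∪ U)] G M) :
    ∫ x, F x * G x ∂M = ∫ x, (M[F | sg U]) x * G x ∂M := by
  have e := integral_congr_ae (CI.integral_mul_aux h hF hG hFm hGm)
  rw [integral_condExp (sg_le _)] at e
  exact e

theorem CI.condExp_mul (h : CI M S T U) {F G : Om I → ℂ} (hF : MemLp F 2 M) (hG : MemLp G 2 M)
    (hFm : AEStronglyMeasurable[sg (S ∪ U)] F M) (hGm : AEStronglyMeasurable[sg (T ∪ U)] G M) :
    M[F * G | sg U] =ᵐ[M] M[F | sg U] * M[G | sg U] := by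
  have h1 : M[M[F * G | sg (T ∪ U)] | sg U] =ᵐ[M] M[F * G | sg U] :=
    condExp_condExp_of_le (sg_mono subset_union_right) (sg_le _)
  have h2 : M[M[F * G | sg (T ∪ U)] | sg U] =ᵐ[M] M[M[F | sg U] * G | sg U] :=
    condExp_congr_ae (CI.integral_mul_aux h hF hG hFm hGm)
  have h3 : M[M[F | sg U] * G | sg U] =ᵐ[M] fun x => (M[F | sg U]) x * (M[G | sg U]) x :=
    condExp_bilin_of_aestronglyMeasurable_left (ContinuousLinearMap.mul ℝ ℂ)
      stronglyMeasurable_condExp.aestronglyMeasurable
      ((hF.condExp one_le_two).integrable_mul hG) (hG.integrable one_le_two)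
  exact h1.symm.trans (h2.trans h3)

end Crest.Agent.R69
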