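import Crest.Agent.R69.B3

/-! # Row 69: independence; pull-backs -/

set_option autoImplicit false
set_option linter.unusedVariables false
set_option linter.unusedSectionVars false

open MeasureTheory ProbabilityTheory Filter Topology Set

noncomputable section

namespace Crest.Agent.R69

variable {I A B D : Type} {E : Type} [NormedAddCommGroup E] [NormedSpace ℝ E] [CompleteSpace E]
  [SecondCountableTopology E]
variable [Countable I] {M : Measure (Om I)} [IsProbabilityMeasure M] {S T U S' T' : Set I}

/-- independence in terms of constant conditional expectations -/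
theorem b4a_ind_iff_const :
    Ind M S T ↔ ∀ m, InB m S → M[mon m | sg T] =ᵐ[M] fun _ => ∫ x, mon m x ∂M := by
  refine ⟨fun h m hm => condExp_of_test (integrable_mon M m) (integrable_const _)
    aestronglyMeasurable_const fun m' hm' => ?_, fun h m m' hm hm' => ?_⟩
  · simp only [smul_eq_mul]
    rw [integral_mul_const, mul_comm, ← h m m' hm hm']
    simp only [mul_comm]
  · have h1 := integral_mon_smul_condExp (M := M) (integrable_mon M m) hm'
    simp only [smul_eq_mul] at h1
    rw [mul_comm, ← integral_mul_const]
    simp only [mul_comm (mon m _)]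
    rw [← h1]
    refine integral_congr_ae ?_
    filter_upwards [h m hm] with x hx
    rw [hx]

theorem ind_iff_ci : Ind M S T ↔ CI M S T ∅ := by
  rw [b4a_ind_iff_const, CI]
  simp only [union_empty, sg_empty, condExp_bot]

theorem ind_iff_indep : Ind M S T ↔ Indep (sg S) (sg T) M := by
  constructor
  · intro h
    refine (IndepFun_iff_Indep (res S) (res T) M).1 ((indepFun_iff_map_prod_eq_prod_map_map
      (measurable_pull _).aemeasurable (measurable_pull _).aemeasurable).2 ?_)
    have hm : Measurable fun x : Om I => (res S x, res T x) :=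
      (measurable_pull _).prodMk (measurable_pull _)
    refine ext_mon_prod fun m m' => ?_
    have hc : Continuous fun x : Om S × Om T => mon m x.1 * mon m' x.2 :=
      ((continuous_mon m).comp continuous_fst).mul ((continuous_mon m').comp continuous_snd)
    rw [integral_map hm.aemeasurable hc.aestronglyMeasurable, integral_prod_mul,
      integral_map (measurable_pull _).aemeasurable (continuous_mon m).aestronglyMeasurable,
      integral_map (measurable_pull _).aemeasurable (continuous_mon m').aestronglyMeasurable]
    simp only [← mon_map]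
    refine h _ _ (fun a ha => ?_) fun a ha => ?_
    · obtain ⟨b, -, rfl⟩ := Multiset.mem_map.1 ha
      exact b.2
    · obtain ⟨b, -, rfl⟩ := Multiset.mem_map.1 ha
      exact b.2
  · intro h m m' hm hm'
    have h1 : IndepFun (mon m) (mon m') M := (IndepFun_iff_Indep _ _ M).2
      (indep_of_indep_of_le_right (indep_of_indep_of_le_left h (measurable_mon_sg hm).comap_le)
        (measurable_mon_sg hm').comap_le)
    exact h1.integral_fun_mul_eq_mul_integral (continuous_mon m).aestronglyMeasurable
      (continuous_mon m').aestronglyMeasurable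

theorem Ind.symm (h : Ind M S T) : Ind M T S := fun m m' hm hm' => by
  rw [mul_comm, ← h m' m hm' hm]
  simp only [mul_comm]

theorem Ind.mono (h : Ind M S T) (hS : S' ⊆ S) (hT : T' ⊆ T) : Ind M S' T' :=
  fun m m' hm hm' => h m m' (hm.mono hS) (hm'.mono hT)

theorem ind_empty : Ind M S ∅ := fun m m' hm hm' => by
  obtain rfl : m' = 0 := Multiset.eq_zero_of_forall_notMem fun a ha => hm' a ha
  simp

theorem CI.ind (h : CI M S T U) (h' : Ind M S U) : Ind M S (T ∪ U) :=
  b4a_ind_iff_const.2 fun m hm => (h m hm).trans (b4a_ind_iff_const.1 h' m hm)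

theorem Ind.ci (h : Ind M S (T ∪ U)) : CI M S T U := fun m hm =>
  (b4a_ind_iff_const.1 h m hm).trans
    (b4a_ind_iff_const.1 (h.mono Subset.rfl subset_union_right) m hm).symm

theorem Ind.condExp (h : Ind M S T) {F : Om I → E} (hF : Integrable F M)
    (hm : AEStronglyMeasurable[sg S] F M) : M[F | sg T] =ᵐ[M] fun _ => ∫ x, F x ∂M := by
  rw [integral_congr_ae hm.ae_eq_mk]
  exact (condExp_congr_ae hm.ae_eq_mk).trans
    (condExp_indep_eq (sg_le S) (sg_le T) hm.stronglyMeasurable_mk (ind_iff_indep.1 h))

theorem Ind.integral_mul (h : Ind M S T) {F G : Om I → ℂ}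
    (hFm : AEStronglyMeasurable[sg S] F M) (hGm : AEStronglyMeasurable[sg T] G M) :
    ∫ x, F x * G x ∂M = (∫ x, F x ∂M) * ∫ x, G x ∂M := by
  have hi : IndepFun (hFm.mk F) (hGm.mk G) M :=
    (IndepFun_iff_Indep _ _ _).2 (indep_of_indep_of_le (ind_iff_indep.1 h)
      hFm.stronglyMeasurable_mk.measurable.comap_le hGm.stronglyMeasurable_mk.measurable.comap_le)
  exact (hi.congr hFm.ae_eq_mk.symm hGm.ae_eq_mk.symm).integral_fun_mul_eq_mul_integral
    (hFm.mono (sg_le S)) (hGm.mono (sg_le T))

theorem ind_iff_map_prod [Countable A] [Countable B] (a : A → I) (b : B → I) :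
    Ind M (range a) (range b) ↔
      M.map (fun x => (pull a x, pull b x)) = (M.map (pull a)).prod (M.map (pull b)) := by
  rw [ind_iff_indep, sg_range, sg_range, ← IndepFun_iff_Indep]
  exact indepFun_iff_map_prod_eq_prod_map_map (measurable_pull a).aemeasurable
    (measurable_pull b).aemeasurable

theorem integral_prod_of_ind_meas {J : Type} [DecidableEq J] (t : Finset J) {F : J → Om I → ℂ}
    (hF : ∀ j ∈ t, AEStronglyMeasurable[sg S] (F j) M) :
    AEStronglyMeasurable[sg S] (fun x => ∏ j ∈ t, F j x) M := by
  induction t using Finset.induction_on with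
  | empty => simpa only [Finset.prod_empty] using aestronglyMeasurable_const
  | insert a t ha ih =>
    simp only [Finset.prod_insert ha]
    exact (hF a (Finset.mem_insert_self _ _)).mul
      (ih fun j hj => hF j (Finset.mem_insert_of_mem hj))

/-- mutual independence of a family from the one-against-the-others form -/
theorem integral_prod_of_ind {J : Type} [DecidableEq J] (t : Finset J) (V : J → Set I)
    (h : ∀ j ∈ t, ∀ t' ⊆ t, j ∉ t' → Ind M (V j) (⋃ i ∈ t', V i)) (F : J → Om I → ℂ)
    (hF : ∀ j ∈ t, AEStronglyMeasurable[sg (V j)] (F j) M) :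
    ∫ x, ∏ j ∈ t, F j x ∂M = ∏ j ∈ t, ∫ x, F j x ∂M := by
  induction t using Finset.induction_on with
  | empty => simp only [Finset.prod_empty, integral_const, probReal_univ, one_smul]
  | insert a t ha ih =>
    simp only [Finset.prod_insert ha]
    rw [← ih (fun j hj t' ht' => h j (Finset.mem_insert_of_mem hj) t'
      (ht'.trans (Finset.subset_insert _ _))) fun j hj => hF j (Finset.mem_insert_of_mem hj)]
    exact (h a (Finset.mem_insert_self _ _) t (Finset.subset_insert _ _) ha).integral_mul
      (hF a (Finset.mem_insert_self _ _)) (integral_prod_of_ind_meas t fun j hj =>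
        (hF j (Finset.mem_insert_of_mem hj)).mono (sg_mono (subset_biUnion_of_mem (u := V) hj)))

theorem condExp_pull [Countable A] (a : A → I) (R : Set A) {F : Om A → E}
    (hF : AEStronglyMeasurable F (M.map (pull a))) :
    M[F ∘ pull a | sg (a '' R)] =ᵐ[M] (M.map (pull a))[F | sg R] ∘ pull a := by
  have hφ : Measurable (pull a : Om I → Om A) := measurable_pull a
  have hP : IsProbabilityMeasure (M.map (pull a)) :=
    Measure.isProbabilityMeasure_map hφ.aemeasurable
  by_cases hi : Integrable F (M.map (pull a))
  · have hi' : Integrable (F ∘ pull a) M := (integrable_map_measure hF hφ.aemeasurable).1 hi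
    have hc : Integrable ((M.map (pull a))[F | sg R]) (M.map (pull a)) := integrable_condExp
    have hc' : Integrable ((M.map (pull a))[F | sg R] ∘ pull a) M :=
      (integrable_map_measure hc.aestronglyMeasurable hφ.aemeasurable).1 hc
    symm
    refine ae_eq_condExp_of_forall_setIntegral_eq (sg_le _) hi'
      (fun s _ _ => hc'.integrableOn) (fun s hs _ => ?_) ?_
    · rw [sg_image] at hs
      obtain ⟨t, ht, rfl⟩ := hs
      have ht' : MeasurableSet t := sg_le R t ht
      have e1 := setIntegral_map ht' hc.aestronglyMeasurable hφ.aemeasurable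
      have e2 := setIntegral_map ht' hF hφ.aemeasurable
      simp only [Function.comp_apply]
      rw [← e1, ← e2, setIntegral_condExp (sg_le R) hi ht]
    · exact (stronglyMeasurable_condExp.comp_measurable
        (measurable_pull_sg a (subset_refl _))).aestronglyMeasurable
  · have hi' : ¬ Integrable (F ∘ pull a) M := fun h =>
      hi ((integrable_map_measure hF hφ.aemeasurable).2 h)
    rw [condExp_of_not_integrable hi, condExp_of_not_integrable hi']
    exact Filter.EventuallyEq.rfl

theorem ci_pull [Countable A] (a : A → I) (R R' R'' : Set A) :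
    CI M (a '' R) (a '' R') (a '' R'') ↔ CI (M.map (pull a)) R R' R'' := by
  have hφ : Measurable (pull a : Om I → Om A) := measurable_pull a
  have key : ∀ m : Multiset A,
      (M[mon (m.map a) | sg (a '' R' ∪ a '' R'')] =ᵐ[M] M[mon (m.map a) | sg (a '' R'')]) ↔
        ((M.map (pull a))[mon m | sg (R' ∪ R'')] =ᵐ[M.map (pull a)]
          (M.map (pull a))[mon m | sg R'']) := by
    intro m
    have e : mon (m.map a) = mon m ∘ pull a := funext (mon_map a m)
    have hm : AEStronglyMeasurable (mon m) (M.map (pull a)) :=
      (measurable_mon m).aestronglyMeasurable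
    have h1 := condExp_pull (M := M) a (R' ∪ R'') hm
    have h2 := condExp_pull (M := M) a R'' hm
    rw [e, ← image_union]
    have hset : MeasurableSet {x | ((M.map (pull a))[mon m | sg (R' ∪ R'')]) x =
        ((M.map (pull a))[mon m | sg R'']) x} :=
      measurableSet_eq_fun (stronglyMeasurable_condExp.mono (sg_le _)).measurable
        (stronglyMeasurable_condExp.mono (sg_le _)).measurable
    constructor
    · intro h
      exact (ae_map_iff hφ.aemeasurable hset).2 ((h1.symm.trans h).trans h2)
    · intro h
      exact (h1.trans (ae_eq_comp hφ.aemeasurable h)).trans h2.symm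
  constructor
  · intro h m hm
    exact (key m).1 (h _ (hm.map a))
  · intro h m hm
    obtain ⟨m', hm', rfl⟩ := hm.of_image
    exact (key m').2 (h m' hm')

theorem ind_pull [Countable A] (a : A → I) (R R' : Set A) :
    Ind M (a '' R) (a '' R') ↔ Ind (M.map (pull a)) R R' := by
  have hφ : Measurable (pull a : Om I → Om A) := measurable_pull a
  have key : ∀ m m' : Multiset A,
      (∫ x, mon (m.map a) x * mon (m'.map a) x ∂M =
        (∫ x, mon (m.map a) x ∂M) * ∫ x, mon (m'.map a) x ∂M) ↔
      (∫ x, mon m x * mon m' x ∂(M.map (pull a)) =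
        (∫ x, mon m x ∂(M.map (pull a))) * ∫ x, mon m' x ∂(M.map (pull a))) := by
    intro m m'
    rw [integral_map (f := fun x => mon m x * mon m' x) hφ.aemeasurable
        ((measurable_mon m).mul (measurable_mon m')).aestronglyMeasurable,
      integral_map hφ.aemeasurable (measurable_mon m).aestronglyMeasurable,
      integral_map hφ.aemeasurable (measurable_mon m').aestronglyMeasurable]
    simp only [mon_map]
  constructor
  · intro h m m' hm hm'
    exact (key m m').1 (h _ _ (hm.map a) (hm'.map a))
  · intro h m m' hm hm'
    obtain ⟨u, hu, rfl⟩ := hm.of_image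
    obtain ⟨u', hu', rfl⟩ := hm'.of_image
    exact (key u u').2 (h u u' hu hu')

theorem en_pull [Countable A] (a : A → I) (R : Set A) {F : Om A → ℝ}
    (hF : AEStronglyMeasurable F (M.map (pull a))) :
    en M (F ∘ pull a) (a '' R) = en (M.map (pull a)) F R := by
  have hφ : Measurable (pull a : Om I → Om A) := measurable_pull a
  have h1 := condExp_pull (M := M) a R hF
  have hm : Measurable ((M.map (pull a))[F | sg R]) :=
    (stronglyMeasurable_condExp.mono (sg_le _)).measurable
  unfold en
  rw [integral_map hφ.aemeasurable (hm.pow_const 2).aestronglyMeasurable]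
  refine integral_congr_ae ?_
  filter_upwards [h1] with x hx
  rw [hx]
  rfl

end Crest.Agent.R69
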