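import Crest.Agent.R69.B4

/-! # Row 69: energy; systems -/

set_option autoImplicit false
set_option linter.unusedVariables false
set_option linter.unusedSectionVars false

open MeasureTheory ProbabilityTheory Filter Topology Set

noncomputable section

namespace Crest.Agent.R69

variable {I A B D : Type} {E : Type} [NormedAddCommGroup E] [NormedSpace ℝ E] [CompleteSpace E]
  [SecondCountableTopology E]
variable {M : Measure (Om I)} [IsProbabilityMeasure M] {S T : Set I}

theorem en_aux_mul {F : Om I → ℝ} (hF : MemLp F 2 M) :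
    ∫ x, F x * (M[F | sg S]) x ∂M = en M F S := by
  have hG : MemLp (M[F | sg S]) 2 M := hF.condExp one_le_two
  have hi : Integrable (F * M[F | sg S]) M := hF.integrable_mul hG
  have h1 := condExp_mul_of_aestronglyMeasurable_right (μ := M) (m := sg S) (f := F)
    (g := M[F | sg S]) stronglyMeasurable_condExp.aestronglyMeasurable hi (hF.integrable one_le_two)
  have h2 := integral_condExp (μ := M) (f := F * M[F | sg S]) (sg_le S)
  rw [integral_congr_ae h1] at h2
  rw [en]
  simp only [Pi.mul_apply] at h2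
  rw [← h2]
  simp only [pow_two]

theorem en_aux_pyth {F : Om I → ℝ} (hF : MemLp F 2 M) :
    ∫ x, (F x - (M[F | sg S]) x) ^ 2 ∂M = ∫ x, F x ^ 2 ∂M - en M F S := by
  have hG : MemLp (M[F | sg S]) 2 M := hF.condExp one_le_two
  have hi : Integrable (fun x => F x * (M[F | sg S]) x) M := hF.integrable_mul hG
  have e : (fun x => (F x - (M[F | sg S]) x) ^ 2) =
      fun x => (F x ^ 2 - 2 * (F x * (M[F | sg S]) x)) + (M[F | sg S]) x ^ 2 := by
    funext x; ring
  have h3 : Integrable (fun x => F x ^ 2 - 2 * (F x * (M[F | sg S]) x)) M :=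
    hF.integrable_sq.sub (hi.const_mul 2)
  rw [e, integral_add h3 hG.integrable_sq,
    integral_sub hF.integrable_sq (hi.const_mul 2), integral_const_mul, en_aux_mul hF]
  rw [en]; ring

theorem en_aux_eq {F : Om I → ℝ} (hF : MemLp F 2 M) (he : ∫ x, F x ^ 2 ∂M ≤ en M F S) :
    F =ᵐ[M] M[F | sg S] := by
  have hG : MemLp (M[F | sg S]) 2 M := hF.condExp one_le_two
  have h0 : ∫ x, (F x - (M[F | sg S]) x) ^ 2 ∂M = 0 :=
    le_antisymm (by rw [en_aux_pyth hF]; linarith) (integral_nonneg fun x => sq_nonneg _)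
  have h1 := (integral_eq_zero_iff_of_nonneg (fun x => sq_nonneg _) (hF.sub hG).integrable_sq).1 h0
  filter_upwards [h1] with x hx
  exact sub_eq_zero.1 (pow_eq_zero_iff two_ne_zero |>.1 hx)

theorem en_aux_tower (F : Om I → ℝ) (h : S ⊆ T) : en M (M[F | sg T]) S = en M F S :=
  integral_congr_ae <| by
    filter_upwards [condExp_condExp_of_le (μ := M) (f := F) (sg_mono h) (sg_le T)] with x hx
    rw [hx]

theorem en_nonneg (F : Om I → ℝ) : 0 ≤ en M F S := integral_nonneg fun x => sq_nonneg _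

theorem en_le {F : Om I → ℝ} (hF : MemLp F 2 M) : en M F S ≤ ∫ x, F x ^ 2 ∂M := by
  have h := en_aux_pyth (S := S) hF
  have h0 : 0 ≤ ∫ x, (F x - (M[F | sg S]) x) ^ 2 ∂M := integral_nonneg fun x => sq_nonneg _
  linarith

theorem en_mon_le (m : Multiset I) : en M (mon m) S ≤ 1 := by
  refine (en_le (memLp_mon M m 2)).trans ?_
  have h : ∫ x, mon m x ^ 2 ∂M ≤ ∫ _x, (1 : ℝ) ∂M :=
    integral_mono (memLp_mon M m 2).integrable_sq (integrable_const _) fun x =>
      (sq_le_one_iff_abs_le_one _).2 (abs_mon_le m x)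
  simpa using h

theorem en_mono {F : Om I → ℝ} (hF : MemLp F 2 M) (h : S ⊆ T) : en M F S ≤ en M F T := by
  rw [← en_aux_tower F h]
  exact en_le (hF.condExp one_le_two)

theorem condExp_eq_of_en_le {F : Om I → ℝ} (hF : MemLp F 2 M) (h : S ⊆ T)
    (he : en M F T ≤ en M F S) : M[F | sg T] =ᵐ[M] M[F | sg S] := by
  have h1 := en_aux_eq (S := S) (hF.condExp (m := sg T) one_le_two)
    (by rw [en_aux_tower F h]; exact he)
  exact h1.trans (condExp_condExp_of_le (sg_mono h) (sg_le T))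

theorem eq_condExp_of_le_en {F : Om I → ℝ} (hF : MemLp F 2 M) (he : ∫ x, F x ^ 2 ∂M ≤ en M F S) :
    F =ᵐ[M] M[F | sg S] := en_aux_eq hF he

theorem en_eq_of_meas {F : Om I → ℝ} (hF : MemLp F 2 M) (hm : AEStronglyMeasurable[sg S] F M) :
    en M F S = ∫ x, F x ^ 2 ∂M :=
  integral_congr_ae <| by
    filter_upwards [condExp_of_aestronglyMeasurable' (sg_le S) hm (hF.integrable one_le_two)]
      with x hx
    rw [hx]

theorem en_eq_zero_iff {F : Om I → ℝ} (hF : MemLp F 2 M) : en M F S = 0 ↔ M[F | sg S] =ᵐ[M] 0 := by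
  rw [en, integral_eq_zero_iff_of_nonneg (fun x => sq_nonneg _)
    (hF.condExp (m := sg S) one_le_two).integrable_sq]
  constructor
  · intro h
    filter_upwards [h] with x hx
    exact pow_eq_zero_iff two_ne_zero |>.1 hx
  · intro h
    filter_upwards [h] with x hx
    simp [hx]

theorem en_eq_integral_mul {F : Om I → ℝ} (hF : MemLp F 2 M) :
    en M F S = ∫ x, F x * (M[F | sg S]) x ∂M := (en_aux_mul hF).symm

variable {s s' : Sys}

theorem Sys.mp_sh (s : Sys) (t : ℤ) : MeasurePreserving (s.sh t) s.μ s.μ := by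
  exact ⟨measurable_sh s t, s.map_sh t⟩

theorem Hom.mp (h : Hom s s') : MeasurePreserving (pull h.ι) s'.μ s.μ := by
  exact ⟨measurable_pull _, h.law⟩

theorem Sys.Inv.image {X : Set s.I} (hX : s.Inv X) (h : Hom s s') : s'.Inv (h.ι '' X) := by
  intro a
  constructor
  · rintro ⟨x, hx, e⟩
    refine ⟨s.τ.symm x, (hX _).1 (by rwa [Equiv.apply_symm_apply]), s'.τ.injective ?_⟩
    rw [← h.comm, Equiv.apply_symm_apply, e]
  · rintro ⟨x, hx, rfl⟩
    exact ⟨s.τ x, (hX x).2 hx, h.comm x⟩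

theorem Sys.Inv.union {X Y : Set s.I} (hX : s.Inv X) (hY : s.Inv Y) : s.Inv (X ∪ Y) := by
  exact fun a => or_congr (hX a) (hY a)

theorem Sys.inv_univ (s : Sys) : s.Inv univ := by
  exact fun _ => Iff.rfl

theorem Sys.inv_empty (s : Sys) : s.Inv ∅ := by
  exact fun _ => Iff.rfl

theorem Hom.inv_range (h : Hom s s') : s'.Inv (range h.ι) := by
  rw [← image_univ]
  exact s.inv_univ.image h

theorem Sys.Inv.image_zpow {X : Set s.I} (hX : s.Inv X) (t : ℤ) : (s.τ ^ t : Equiv.Perm s.I) '' X = X := by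
  ext a
  constructor
  · rintro ⟨x, hx, rfl⟩
    exact (hX.zpow t x).2 hx
  · intro ha
    exact ⟨(s.τ ^ t).symm a, (hX.zpow t _).1 (by rwa [Equiv.apply_symm_apply]),
      Equiv.apply_symm_apply _ _⟩

theorem Sys.res_sh {X : Set s.I} (hX : s.Inv X) (t : ℤ) (x : Om s.I) :
    res X (s.sh t x) = s.shB hX t (res X x) := by
  rfl

theorem Sys.shB_add {X : Set s.I} (hX : s.Inv X) (t u : ℤ) (x : Om X) :
    s.shB hX t (s.shB hX u x) = s.shB hX (u + t) x := by
  funext a
  simp [Sys.shB, pull, zpow_add]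

theorem Sys.shB_zero {X : Set s.I} (hX : s.Inv X) (x : Om X) : s.shB hX 0 x = x := by
  funext a
  simp [Sys.shB, pull]

theorem Sys.mp_shB {X : Set s.I} (hX : s.Inv X) (t : ℤ) :
    MeasurePreserving (s.shB hX t) (s.μ.map (res X)) (s.μ.map (res X)) := by
  refine ⟨measurable_pull _, ?_⟩
  have hm : Measurable (s.shB hX t) := measurable_pull _
  rw [Measure.map_map hm (measurable_pull _),
    show s.shB hX t ∘ res X = res X ∘ s.sh t from rfl,
    ← Measure.map_map (measurable_pull _) (measurable_sh s t), s.map_sh]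

theorem Sys.measurable_sh_sg {X : Set s.I} (hX : s.Inv X) (t : ℤ) :
    @Measurable _ _ (sg X) (sg X) (s.sh t) := by
  exact measurable_pull_sg _ (hX.image_zpow t).subset

theorem Sys.condExp_sh {X : Set s.I} (hX : s.Inv X) (t : ℤ) {F : Om s.I → E}
    (hF : AEStronglyMeasurable F s.μ) :
    s.μ[F ∘ s.sh t | sg X] =ᵐ[s.μ] s.μ[F | sg X] ∘ s.sh t := by
  have e : s.μ.map (pull (s.τ ^ t : Equiv.Perm s.I)) = s.μ := s.map_sh t
  have := condExp_pull (M := s.μ) (s.τ ^ t : Equiv.Perm s.I) X (F := F) (by rwa [e])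
  rwa [e, hX.image_zpow] at this

theorem Sys.Mix.image {X : Set s.I} (hX : s.Mix X) (h : Hom s s') : s'.Mix (h.ι '' X) := by
  intro m m' hm hm'
  obtain ⟨u, hu, rfl⟩ := hm.of_image
  obtain ⟨u', hu', rfl⟩ := hm'.of_image
  have key : ∀ F : Om s.I → ℝ, Measurable F → ∫ x, F (pull h.ι x) ∂s'.μ = ∫ x, F x ∂s.μ :=
    fun F hF => by
      rw [← h.law, integral_map (measurable_pull _).aemeasurable hF.aestronglyMeasurable]
  simp only [mon_map, h.pull_sh]
  rw [key _ (measurable_mon u), key _ (measurable_mon u')]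
  refine (hX u u' hu hu').congr fun n => (key (fun x => mon u x * mon u' (s.sh n x)) ?_).symm
  exact (measurable_mon u).mul ((measurable_mon u').comp (measurable_sh s n))

theorem Hom.ind_iff (h : Hom s s') (X Y : Set s.I) : Ind s'.μ (h.ι '' X) (h.ι '' Y) ↔ Ind s.μ X Y := by
  rw [ind_pull, h.law]

theorem Hom.ci_iff (h : Hom s s') (X Y Z : Set s.I) :
    CI s'.μ (h.ι '' X) (h.ι '' Y) (h.ι '' Z) ↔ CI s.μ X Y Z := by
  rw [ci_pull, h.law]

theorem Hom.map_res (h : Hom s s') (X : Set s.I) :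
    s'.μ.map (pull fun a : X => h.ι a) = s.μ.map (res X) := by
  rw [← h.law, Measure.map_map (measurable_pull _) (measurable_pull _)]
  rfl

theorem Adm.mono {X Y : Set s.I} {h : Hom s s'} {Y' Y'' : Set s'.I} (a : Adm X Y h Y')
    (hi : s'.Inv Y'') (h1 : h.ι '' Y ⊆ Y'') (h2 : Y'' ⊆ Y') : Adm X Y h Y'' := by
  exact ⟨hi, h1, a.2.2.mono Subset.rfl h2⟩

end Crest.Agent.R69
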