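import Crest.Agent.R69.B5

/-! # Row 69: conditional laws I -/

set_option autoImplicit false
set_option linter.unusedVariables false
set_option linter.unusedSectionVars false

open MeasureTheory ProbabilityTheory Filter Topology Set

noncomputable section

namespace Crest.Agent.R69

variable {I A B D A' : Type} {E : Type} [NormedAddCommGroup E] [NormedSpace ℝ E] [CompleteSpace E]
  [SecondCountableTopology E] [Countable I] [Countable A] [Countable B] [Countable D] [Countable A']
  {M : Measure (Om I)} [IsProbabilityMeasure M]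

/-- (T) transfer of an arbitrary a.e. statement along a continuous map of compact metric spaces -/
theorem ae_map_of_ae_cont {α β : Type} [TopologicalSpace α] [CompactSpace α] [PolishSpace α]
    [MeasurableSpace α] [BorelSpace α] [TopologicalSpace β] [T2Space β] [MeasurableSpace β]
    [BorelSpace β] {μ : Measure α} [IsFiniteMeasure μ] {f : α → β} (hf : Continuous f)
    {Q : β → Prop} (h : ∀ᵐ x ∂μ, Q (f x)) : ∀ᵐ y ∂μ.map f, Q y := by
  let _ := TopologicalSpace.upgradeIsCompletelyMetrizable α
  rw [ae_iff] at h ⊢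
  obtain ⟨N, hsub, hNm, hN0⟩ := exists_measurable_superset_of_null h
  refine le_antisymm (ENNReal.le_of_forall_pos_le_add fun ε hε _ => ?_) zero_le
  obtain ⟨C, hCN, hC, hlt⟩ := hNm.compl.exists_isCompact_sdiff_lt (measure_ne_top μ _)
    (ε := ε) (by exact_mod_cast hε.ne')
  have hfC : MeasurableSet (f '' C) := (hC.image hf).isClosed.measurableSet
  have h1 : {y | ¬ Q y} ⊆ (f '' C)ᶜ := by
    rintro y hy ⟨x, hx, rfl⟩
    exact hCN hx (hsub hy)
  calc μ.map f {y | ¬ Q y} ≤ μ.map f (f '' C)ᶜ := measure_mono h1
    _ = μ (f ⁻¹' (f '' C)ᶜ) := Measure.map_apply hf.measurable hfC.compl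
    _ ≤ μ (N ∪ (Nᶜ \ C)) := by
      refine measure_mono fun x hx => ?_
      by_cases hxN : x ∈ N
      · exact Or.inl hxN
      · exact Or.inr ⟨hxN, fun hxC => hx ⟨x, hxC, rfl⟩⟩
    _ ≤ μ N + μ (Nᶜ \ C) := measure_union_le _ _
    _ ≤ 0 + ε := by rw [hN0]; gcongr

theorem ae_map_pull (b : B → I) {Q : Om B → Prop} (h : ∀ᵐ x ∂M, Q (pull b x)) :
    ∀ᵐ β ∂M.map (pull b), Q β :=
  ae_map_of_ae_cont (continuous_pull b) h

theorem cd_compProd (a : A → I) (b : B → I) :
    M.map (fun x => (pull b x, pull a x)) = (M.map (pull b)) ⊗ₘ cd M a b :=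
  (compProd_map_condDistrib (X := pull b) (measurable_pull a).aemeasurable).symm

theorem cd_bind (a : A → I) (b : B → I) : (M.map (pull b)).bind (cd M a b) = M.map (pull a) :=
  condDistrib_comp_map (measurable_pull b).aemeasurable (measurable_pull a).aemeasurable

theorem cd_unique (a : A → I) (b : B → I) (κ : Kernel (Om B) (Om A)) [IsMarkovKernel κ]
    (h : M.map (fun x => (pull b x, pull a x)) = (M.map (pull b)) ⊗ₘ κ) :
    ∀ᵐ β ∂M.map (pull b), cd M a b β = κ β :=
  condDistrib_ae_eq_of_measure_eq_compProd (pull b) (measurable_pull a).aemeasurable h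

theorem cd_condExp (a : A → I) (b : B → I) {F : Om B × Om A → E} (hF : StronglyMeasurable F)
    (hi : Integrable (fun x => F (pull b x, pull a x)) M) :
    M[fun x => F (pull b x, pull a x) | sg (range b)] =ᵐ[M]
      fun x => ∫ α, F (pull b x, α) ∂cd M a b (pull b x) := by
  rw [sg_range]
  exact condExp_prod_ae_eq_integral_condDistrib (measurable_pull b)
    (measurable_pull a).aemeasurable hF hi

theorem cd_integral (a : A → I) (b : B → I) {F : Om B × Om A → E} (hF : StronglyMeasurable F)
    (hi : Integrable (fun x => F (pull b x, pull a x)) M) :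
    ∫ x, F (pull b x, pull a x) ∂M = ∫ β, ∫ α, F (β, α) ∂cd M a b β ∂M.map (pull b) := by
  have hm : Measurable fun x : Om I => (pull b x, pull a x) :=
    (measurable_pull b).prodMk (measurable_pull a)
  have h1 : Integrable F (M.map fun x => (pull b x, pull a x)) :=
    (integrable_map_measure hF.aestronglyMeasurable hm.aemeasurable).2 hi
  have h2 := integral_map (μ := M) hm.aemeasurable (f := F) hF.aestronglyMeasurable
  rw [← h2]
  rw [cd_compProd] at h1 ⊢
  exact Measure.integral_compProd h1

theorem cd_memLp (a : A → I) (b : B → I) {F : Om B × Om A → E} (hF : StronglyMeasurable F)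
    {p : ENNReal} (hp : p ≠ ⊤) (hi : MemLp (fun x => F (pull b x, pull a x)) p M) :
    ∀ᵐ β ∂M.map (pull b), MemLp (fun α => F (β, α)) p (cd M a b β) := by
  have hs : ∀ β, AEStronglyMeasurable (fun α => F (β, α)) (cd M a b β) := fun β =>
    (hF.comp_measurable measurable_prodMk_left).aestronglyMeasurable
  by_cases hp0 : p = 0
  · subst hp0
    exact Eventually.of_forall fun β => memLp_zero_iff_aestronglyMeasurable.2 (hs β)
  have hm : Measurable fun x : Om I => (pull b x, pull a x) :=
    (measurable_pull b).prodMk (measurable_pull a)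
  have h1 : MemLp F p (M.map fun x => (pull b x, pull a x)) :=
    (memLp_map_measure_iff hF.aestronglyMeasurable hm.aemeasurable).2 hi
  rw [cd_compProd] at h1
  have h2 := (integrable_norm_rpow_iff h1.1 hp0 hp).2 h1
  have h3 := ((Measure.integrable_compProd_iff h2.1).1 h2).1
  filter_upwards [h3] with β hβ
  exact (integrable_norm_rpow_iff (hs β) hp0 hp).1 hβ

theorem cd_of_test (a : A → I) (b : B → I) (κ : Kernel (Om B) (Om A)) [IsMarkovKernel κ]
    (h : ∀ m : Multiset A, M[fun x => mon m (pull a x) | sg (range b)] =ᵐ[M]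
      fun x => ∫ α, mon m α ∂κ (pull b x)) :
    ∀ᵐ β ∂M.map (pull b), cd M a b β = κ β := by
  refine cd_unique a b κ ?_
  have hm : Measurable fun x : Om I => (pull b x, pull a x) :=
    (measurable_pull b).prodMk (measurable_pull a)
  have : IsProbabilityMeasure (M.map (pull b)) :=
    Measure.isProbabilityMeasure_map (measurable_pull b).aemeasurable
  refine ext_mon_prod fun m m' => ?_
  have hFm : Measurable fun x : Om B × Om A => mon m x.1 * mon m' x.2 :=
    ((measurable_mon m).comp measurable_fst).mul ((measurable_mon m').comp measurable_snd)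
  have hFi : Integrable (fun x : Om B × Om A => mon m x.1 * mon m' x.2) (M.map (pull b) ⊗ₘ κ) := by
    refine Integrable.of_bound hFm.aestronglyMeasurable 1 (Eventually.of_forall fun x => ?_)
    rw [Real.norm_eq_abs, abs_mul]
    exact mul_le_one₀ (abs_mon_le _ _) (abs_nonneg _) (abs_mon_le _ _)
  rw [integral_map hm.aemeasurable hFm.aestronglyMeasurable, Measure.integral_compProd hFi]
  have hi : Integrable (fun x => mon m' (pull a x)) M := by
    have := integrable_mon M (m'.map a)
    refine this.congr (Eventually.of_forall fun x => mon_map a m' x)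
  have hin : InB (m.map b) (range b) := fun i hi => by
    obtain ⟨j, -, rfl⟩ := Multiset.mem_map.1 hi
    exact ⟨j, rfl⟩
  have h1 := integral_mon_smul_condExp (M := M) (S := range b) hi hin
  have hG : StronglyMeasurable fun β : Om B => mon m β * ∫ α, mon m' α ∂κ β :=
    (measurable_mon m).stronglyMeasurable.mul
      (measurable_mon m').stronglyMeasurable.integral_kernel
  simp only [integral_const_mul]
  rw [integral_map (measurable_pull b).aemeasurable hG.aestronglyMeasurable]
  simp only [smul_eq_mul, mon_map] at h1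
  rw [← h1]
  refine integral_congr_ae ?_
  filter_upwards [h m'] with x hx
  rw [hx]

/-- arbitrary a.e. statements pass to the fibres -/
theorem ae_cd (a : A → I) (b : B → I) {Q : Om B → Om A → Prop}
    (h : ∀ᵐ x ∂M, Q (pull b x) (pull a x)) :
    ∀ᵐ β ∂M.map (pull b), ∀ᵐ α ∂cd M a b β, Q β α := by
  have h1 : ∀ᵐ p ∂M.map (fun x => (pull b x, pull a x)), Q p.1 p.2 :=
    ae_map_of_ae_cont (f := fun x => (pull b x, pull a x))
      ((continuous_pull b).prodMk (continuous_pull a)) (Q := fun p => Q p.1 p.2) h
  rw [cd_compProd] at h1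
  exact Measure.ae_ae_of_ae_compProd (p := fun p => Q p.1 p.2) h1

/-- measurable statements come back from the fibres -/
theorem ae_of_ae_cd (a : A → I) (b : B → I) {Q : Om B → Om A → Prop}
    (hQ : MeasurableSet {p : Om B × Om A | Q p.1 p.2})
    (h : ∀ᵐ β ∂M.map (pull b), ∀ᵐ α ∂cd M a b β, Q β α) : ∀ᵐ x ∂M, Q (pull b x) (pull a x) := by
  have h1 : ∀ᵐ p ∂(M.map (pull b)) ⊗ₘ cd M a b, Q p.1 p.2 :=
    Measure.ae_compProd_of_ae_ae (p := fun p => Q p.1 p.2) hQ h
  rw [← cd_compProd] at h1
  exact ae_of_ae_map ((measurable_pull b).prodMk (measurable_pull a)).aemeasurable h1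

end Crest.Agent.R69
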