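import Crest.Agent.R69.B6

/-! # Row 69: conditional laws II -/

set_option autoImplicit false
set_option linter.unusedVariables false
set_option linter.unusedSectionVars false

open MeasureTheory ProbabilityTheory Filter Topology Set

noncomputable section

namespace Crest.Agent.R69

variable {I A B D A' : Type} {E : Type} [NormedAddCommGroup E] [NormedSpace ℝ E] [CompleteSpace E]
  [SecondCountableTopology E] [Countable I] [Countable A] [Countable B] [Countable D] [Countable A']
  {M : Measure (Om I)} [IsProbabilityMeasure M]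

theorem cd_map (a : A → I) (b : B → I) (c : D → A) :
    ∀ᵐ β ∂M.map (pull b), (cd M a b β).map (pull c) = cd M (a ∘ c) b β := by
  have h := condDistrib_comp (μ := M) (mβ := inferInstance) (pull b) (Y := pull a)
    (measurable_pull a).aemeasurable (measurable_pull c)
  filter_upwards [h] with β hβ
  rw [← Kernel.map_apply _ (measurable_pull c)]
  exact hβ.symm

/-- on the fibre the common coordinates are frozen -/
theorem cd_frozen (a : A → I) (b : B → I) (c : D → A) (d : D → B) (h : a ∘ c = b ∘ d) :
    ∀ᵐ β ∂M.map (pull b), ∀ᵐ α ∂cd M a b β, pull c α = pull d β := by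
  refine ae_cd a b (Q := fun β α => pull c α = pull d β) (ae_of_all _ fun x => ?_)
  show pull c (pull a x) = pull d (pull b x)
  rw [pull_pull, pull_pull, h]

theorem cd_hom {J : Type} [Countable J] (φ : J → I) (a : A → J) (b : B → J) (M₀ : Measure (Om J))
    [IsProbabilityMeasure M₀] (h : M.map (pull φ) = M₀) :
    ∀ᵐ β ∂M₀.map (pull b), cd M (φ ∘ a) (φ ∘ b) β = cd M₀ a b β := by
  have h1 : M.map (pull (φ ∘ b)) = M₀.map (pull b) := by
    rw [← h, Measure.map_map (measurable_pull _) (measurable_pull _)]; rfl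
  rw [← h1]
  refine cd_unique (φ ∘ a) (φ ∘ b) (cd M₀ a b) ?_
  rw [h1, ← cd_compProd (M := M₀) a b, ← h,
    Measure.map_map ((measurable_pull b).prodMk (measurable_pull a)) (measurable_pull φ)]
  rfl

theorem cd_ci (a : A → I) (b : B → I) (c : D → B)
    (h : CI M (range a) (range b) (range (b ∘ c))) :
    ∀ᵐ β ∂M.map (pull b), cd M a b β = cd M a (b ∘ c) (pull c β) := by
  have key := cd_of_test (M := M) a b ((cd M a (b ∘ c)).comap (pull c) (measurable_pull c)) ?_
  · filter_upwards [key] with β hβ
    rw [hβ, Kernel.comap_apply]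
  intro m
  have h1 := h (m.map a) (fun i hi => by
    obtain ⟨j, -, rfl⟩ := Multiset.mem_map.1 hi
    exact mem_range_self j)
  have h2 : range b ∪ range (b ∘ c) = range b :=
    union_eq_left.2 (range_comp_subset_range c b)
  rw [h2] at h1
  have h3 : mon (m.map a) = fun x => mon m (pull a x) := funext fun x => mon_map a m x
  rw [h3] at h1
  have h4 := cd_condExp (M := M) a (b ∘ c) (F := fun p : Om D × Om A => mon m p.2)
    ((measurable_mon m).comp measurable_snd).stronglyMeasurable
    (by have := integrable_mon M (m.map a); rwa [h3] at this)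
  refine h1.trans (h4.trans (ae_of_all _ fun x => ?_))
  simp only [Kernel.comap_apply]
  rfl

theorem cdT_sm (κ : Kernel (Om B) (Om A)) [IsMarkovKernel κ] (m : Multiset A) :
    StronglyMeasurable fun β => ∫ α, mon m α ∂κ β :=
  (measurable_mon m).stronglyMeasurable.integral_kernel

theorem cdT_abs (ν : Measure (Om A)) [IsProbabilityMeasure ν] (m : Multiset A) :
    ‖∫ α, mon m α ∂ν‖ ≤ 1 := by
  have := norm_integral_le_of_norm_le_const (μ := ν) (f := mon m) (C := 1)
    (Eventually.of_forall fun x => abs_mon_le m x)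
  simpa using this

theorem cdT_int_mon (a : A → I) (m : Multiset A) : Integrable (fun x => mon m (pull a x)) M := by
  have := integrable_mon M (m.map a)
  refine this.congr (Eventually.of_forall fun x => mon_map a m x)

theorem cdT_condExp (a : A → I) (b : B → I) (m : Multiset A) :
    M[fun x => mon m (pull a x) | sg (range b)] =ᵐ[M]
      fun x => ∫ α, mon m α ∂cd M a b (pull b x) :=
  cd_condExp a b (F := fun p => mon m p.2)
    ((measurable_mon m).comp measurable_snd).stronglyMeasurable (cdT_int_mon a m)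

theorem cd_tower (a : A → I) (b : B → I) (c : D → B) :
    ∀ᵐ ζ ∂M.map (pull (b ∘ c)), (cd M b (b ∘ c) ζ).bind (cd M a b) = cd M a (b ∘ c) ζ := by
  have key := cd_of_test (M := M) a (b ∘ c) (cd M a b ∘ₖ cd M b (b ∘ c)) (fun m => by
    have hg := cdT_sm (cd M a b) m
    have hgi : Integrable (fun x => ∫ α, mon m α ∂cd M a b (pull b x)) M :=
      Integrable.of_bound (hg.comp_measurable (measurable_pull b)).aestronglyMeasurable 1
        (Eventually.of_forall fun x => cdT_abs _ m)
    have h1 := cdT_condExp (M := M) a b m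
    have h2 := cd_condExp (M := M) b (b ∘ c) (F := fun p => ∫ α, mon m α ∂cd M a b p.2)
      (hg.comp_measurable measurable_snd) hgi
    have h3 := condExp_condExp_of_le (μ := M) (f := fun x => mon m (pull a x))
      (sg_mono (range_comp_subset_range c b)) (sg_le (range b))
    refine h3.symm.trans ((condExp_congr_ae h1).trans (h2.trans ?_))
    refine Eventually.of_forall fun x => ?_
    exact (Kernel.integral_comp (integrable_mon _ m)).symm)
  filter_upwards [key] with ζ hζ
  rw [hζ, Kernel.comp_apply]

theorem cdP_split (m : Multiset (A ⊕ A')) : ∃ (m₁ : Multiset A) (m₂ : Multiset A'),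
    ∀ γ : Om (A ⊕ A'), mon m γ = mon m₁ (pull Sum.inl γ) * mon m₂ (pull Sum.inr γ) := by
  obtain ⟨n₁, n₂, h₁, h₂, rfl⟩ := InB.of_union (m := m) (S := range Sum.inl) (S' := range Sum.inr)
    (fun i _ => by rcases i with i | i <;> simp)
  obtain ⟨m₁, rfl⟩ := h₁.of_range
  obtain ⟨m₂, rfl⟩ := h₂.of_range
  exact ⟨m₁, m₂, fun γ => by rw [mon_add, mon_map, mon_map]⟩

theorem cdP_condExp_mul {S T U : Set I} (h : CI M S T U) {m m' : Multiset I} (hm : InB m S)
    (hm' : InB m' T) :
    M[fun x => mon m x * mon m' x | sg U] =ᵐ[M]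
      fun x => (M[mon m | sg U]) x * (M[mon m' | sg U]) x := by
  have hF : Integrable (fun x => mon m x * mon m' x) M :=
    (integrable_mon M (m + m')).congr (Eventually.of_forall fun x => mon_add m m' x)
  have hG : Integrable (fun x => (M[mon m | sg U]) x * (M[mon m' | sg U]) x) M :=
    (MemLp.condExp (m := sg U) one_le_two (memLp_mon M m 2)).integrable_mul
      (MemLp.condExp (m := sg U) one_le_two (memLp_mon M m' 2))
  refine condExp_of_test hF hG
    (stronglyMeasurable_condExp.mul stronglyMeasurable_condExp).aestronglyMeasurable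
    fun m'' hm'' => ?_
  have := ci_iff_test.1 h m m' m'' hm hm' hm''
  simp only [smul_eq_mul]
  simp only [mul_comm (mon m'' _)]
  exact this

/-- conditional independence as a factorisation of the joint law -/
theorem cd_prod (a : A → I) (a' : A' → I) (b : B → I) (h : CI M (range a) (range a') (range b)) :
    M.map (fun x => (pull b x, (pull a x, pull a' x))) =
      (M.map (pull b)) ⊗ₘ (cd M a b ×ₖ cd M a' b) := by
  let j : Om A × Om A' → Om (A ⊕ A') := fun p => Sum.elim p.1 p.2
  have hj : Measurable j := measurable_pi_lambda _ fun i => by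
    rcases i with i | i
    · exact (measurable_pi_apply i).comp measurable_fst
    · exact (measurable_pi_apply i).comp measurable_snd
  let k : Om (A ⊕ A') → Om A × Om A' := fun γ => (pull Sum.inl γ, pull Sum.inr γ)
  have hk : Measurable k := (measurable_pull _).prodMk (measurable_pull _)
  have : IsMarkovKernel ((cd M a b ×ₖ cd M a' b).map j) := Kernel.IsMarkovKernel.map _ hj
  have key := cd_of_test (M := M) (Sum.elim a a') b ((cd M a b ×ₖ cd M a' b).map j) (fun m => by
    obtain ⟨m₁, m₂, hm⟩ := cdP_split m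
    have e1 : (fun x => mon m (pull (Sum.elim a a') x)) =
        fun x => mon (m₁.map a) x * mon (m₂.map a') x := by
      funext x; rw [hm, mon_map, mon_map]; rfl
    have h0 := cdP_condExp_mul h (m := m₁.map a) (m' := m₂.map a')
      (fun i hi => by obtain ⟨u, -, rfl⟩ := Multiset.mem_map.1 hi; exact ⟨u, rfl⟩)
      (fun i hi => by obtain ⟨u, -, rfl⟩ := Multiset.mem_map.1 hi; exact ⟨u, rfl⟩)
    have h1 := cdT_condExp (M := M) a b m₁
    have h2 := cdT_condExp (M := M) a' b m₂
    have e2 : mon (m₁.map a) = fun x => mon m₁ (pull a x) := funext (mon_map a m₁)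
    have e3 : mon (m₂.map a') = fun x => mon m₂ (pull a' x) := funext (mon_map a' m₂)
    rw [e1]
    refine h0.trans ?_
    rw [e2, e3]
    filter_upwards [h1, h2] with x hx1 hx2
    rw [hx1, hx2, Kernel.map_apply _ hj,
      integral_map hj.aemeasurable (measurable_mon m).aestronglyMeasurable, Kernel.prod_apply,
      ← integral_prod_mul]
    refine integral_congr_ae (Eventually.of_forall fun p => ?_)
    show _ = mon m (j p)
    rw [hm]; rfl)
  have h1 := cd_compProd (M := M) (Sum.elim a a') b
  rw [Measure.compProd_congr (η := (cd M a b ×ₖ cd M a' b).map j) key] at h1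
  have h2 := congrArg (Measure.map (Prod.map id k)) h1
  rw [← Measure.compProd_map hk, ← Kernel.map_comp_right _ hj hk,
    Measure.map_map (measurable_id.prodMap hk)
      ((measurable_pull b).prodMk (measurable_pull _))] at h2
  have e : k ∘ j = id := rfl
  rw [e, Kernel.map_id] at h2
  exact h2

theorem ae_cd_prod (a : A → I) (a' : A' → I) (b : B → I) (h : CI M (range a) (range a') (range b))
    {Q : Om B → Om A → Om A' → Prop} (hQ : ∀ᵐ x ∂M, Q (pull b x) (pull a x) (pull a' x)) :
    ∀ᵐ β ∂M.map (pull b), ∀ᵐ α ∂cd M a b β, ∀ᵐ α' ∂cd M a' b β, Q β α α' := by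
  have h1 := ae_map_of_ae_cont (μ := M) (f := fun x => (pull b x, (pull a x, pull a' x)))
    (by fun_prop) (Q := fun p => Q p.1 p.2.1 p.2.2) hQ
  rw [cd_prod a a' b h] at h1
  filter_upwards [Measure.ae_ae_of_ae_compProd h1] with β hβ
  rw [Kernel.prod_apply] at hβ
  exact Measure.ae_ae_of_ae_prod hβ

theorem cd_ind (a : A → I) (b : B → I) (h : Ind M (range a) (range b)) :
    ∀ᵐ β ∂M.map (pull b), cd M a b β = M.map (pull a) := by
  have : IsProbabilityMeasure (M.map (pull a)) :=
    Measure.isProbabilityMeasure_map (measurable_pull a).aemeasurable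
  exact cd_unique a b (Kernel.const _ (M.map (pull a)))
    (by rw [Measure.compProd_const]; exact (ind_iff_map_prod b a).1 h.symm)

/-- equivariance -/
theorem cd_equiv (φ : I → I) (hφ : M.map (pull φ) = M) (a : A → I) (b : B → I) (φA : A → A)
    (φB : B → B) (ha : φ ∘ a = a ∘ φA) (hb : φ ∘ b = b ∘ φB) (hs : Function.Surjective φB) :
    ∀ᵐ β ∂M.map (pull b), cd M a b (pull φB β) = (cd M a b β).map (pull φA) := by
  have hν : (M.map (pull b)).map (pull φB) = M.map (pull b) := by
    rw [Measure.map_map (measurable_pull _) (measurable_pull _)]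
    have h1 : (pull φB ∘ pull b : Om I → Om B) = pull b ∘ pull φ := by
      funext x i
      show x (b (φB i)) = x (φ (b i))
      rw [show φ (b i) = b (φB i) from congrFun hb i]
    rw [h1, ← Measure.map_map (measurable_pull _) (measurable_pull _), hφ]
  have h3 := cd_hom (M := M) φ a b M hφ
  rw [ha, hb] at h3
  have h3' : ∀ᵐ β ∂M.map (pull b),
      cd M (a ∘ φA) (b ∘ φB) (pull φB β) = cd M a b (pull φB β) := by
    rw [← hν] at h3
    exact ae_of_ae_map (measurable_pull φB).aemeasurable h3
  have hci : CI M (range (a ∘ φA)) (range b) (range (b ∘ φB)) := by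
    rw [hs.range_comp b]
    intro m _
    rw [union_self]
  filter_upwards [cd_map (M := M) a b φA, cd_ci (M := M) (a ∘ φA) b φB hci, h3'] with β h1 h2 h3
  rw [h1, h2, h3]

theorem Sys.fib_sh (s : Sys) {Y : Set s.I} (hY : s.Inv Y) :
    ∀ᵐ w ∂s.μ.map (res Y), ∀ t : ℤ, fib s.μ Y (s.shB hY t w) = (fib s.μ Y w).map (s.sh t) := by
  rw [ae_all_iff]
  intro t
  refine cd_equiv (M := s.μ) (s.τ ^ t : Equiv.Perm s.I) (s.map_sh t) id Subtype.val
    (s.τ ^ t : Equiv.Perm s.I) (fun a : Y => (⟨(s.τ ^ t) a, (hY.zpow t a).2 a.2⟩ : Y)) rfl rfl ?_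
  intro y
  refine ⟨⟨(s.τ ^ (-t)) y, (hY.zpow (-t) y).2 y.2⟩, Subtype.ext ?_⟩
  simp

theorem Sys.fib_res (s : Sys) {X Y : Set s.I} (h : Ind s.μ X Y) :
    ∀ᵐ w ∂s.μ.map (res Y), (fib s.μ Y w).map (res X) = s.μ.map (res X) := by
  have h' : Ind s.μ (range (id ∘ (Subtype.val : X → s.I))) (range (Subtype.val : Y → s.I)) := by
    simpa using h
  filter_upwards [cd_map (M := s.μ) id (Subtype.val : Y → s.I) (Subtype.val : X → s.I),
    cd_ind (M := s.μ) _ _ h'] with w h1 h2
  exact h1.trans h2

end Crest.Agent.R69
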