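import Crest.Agent.R69.B7

/-! # Row 69: conditional expectations on the fibres -/

set_option autoImplicit false
set_option linter.unusedVariables false
set_option linter.unusedSectionVars false

open MeasureTheory ProbabilityTheory Filter Topology Set

noncomputable section

namespace Crest.Agent.R69

variable {I A B D A' : Type} {E : Type} [NormedAddCommGroup E] [NormedSpace ℝ E] [CompleteSpace E]
  [SecondCountableTopology E] [Countable I] [Countable A] [Countable B] [Countable D] [Countable A']
  {M : Measure (Om I)} [IsProbabilityMeasure M]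

theorem fce_integrable_smul {J : Type} {μ : Measure (Om J)} (m : Multiset J) {H : Om J → E}
    (hH : Integrable H μ) : Integrable (fun x => mon m x • H x) μ := by
  refine Integrable.mono hH ((measurable_mon m).aestronglyMeasurable.smul hH.1) ?_
  refine Eventually.of_forall fun x => ?_
  rw [norm_smul, Real.norm_eq_abs]
  exact mul_le_of_le_one_left (norm_nonneg _) (abs_mon_le m x)

/-- the conditional expectation on the fibres is the global one -/
theorem fib_condExp (a : A → I) (b : B → I) (R : Set A) {F : Om B × Om A → E}
    (hF : StronglyMeasurable F) (hi : Integrable (fun x => F (pull b x, pull a x)) M) :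
    ∃ G : Om B × Om A → E, StronglyMeasurable G ∧ (∀ β, StronglyMeasurable[sg R] fun α => G (β, α)) ∧
      (M[fun x => F (pull b x, pull a x) | sg (a '' R ∪ range b)] =ᵐ[M]
        fun x => G (pull b x, pull a x)) ∧
      ∀ᵐ β ∂M.map (pull b), (cd M a b β)[fun α => F (β, α) | sg R] =ᵐ[cd M a b β]
        fun α => G (β, α) := by
  classical
  let c : B ⊕ R → I := Sum.elim b (fun r => a r)
  have hc : range c = a '' R ∪ range b := by
    ext i
    constructor
    · rintro ⟨j | r, rfl⟩
      · exact Or.inr ⟨j, rfl⟩
      · exact Or.inl ⟨r, r.2, rfl⟩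
    · rintro (⟨r, hr, rfl⟩ | ⟨j, rfl⟩)
      · exact ⟨Sum.inr ⟨r, hr⟩, rfl⟩
      · exact ⟨Sum.inl j, rfl⟩
  let j : Om B × Om R → Om (B ⊕ R) := fun p i => Sum.elim p.1 p.2 i
  have hj : Measurable j := by
    refine measurable_pi_lambda _ fun i => ?_
    rcases i with i | r
    · exact (measurable_pi_apply i).comp measurable_fst
    · exact (measurable_pi_apply r).comp measurable_snd
  have hjc : ∀ x : Om I, j (pull b x, res R (pull a x)) = pull c x := by
    intro x; funext i; rcases i with i | r <;> rfl
  have hsm : StronglyMeasurable[sg (range c)]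
      (M[fun x => F (pull b x, pull a x) | sg (range c)]) := stronglyMeasurable_condExp
  obtain ⟨g, hg, hgeq⟩ := exists_factor hsm
  let G : Om B × Om A → E := fun p => g (j (p.1, res R p.2))
  have hG : StronglyMeasurable G :=
    hg.comp_measurable (hj.comp (measurable_fst.prodMk ((measurable_pull _).comp measurable_snd)))
  have hGβ : ∀ β, StronglyMeasurable[sg R] fun α => G (β, α) := by
    intro β
    have h1 : Measurable[sg R] (res R : Om A → Om R) := comap_measurable _
    have h2 : Measurable fun r : Om R => j (β, r) := hj.comp measurable_prodMk_left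
    exact hg.comp_measurable (h2.comp h1)
  have hGeq : (fun x => G (pull b x, pull a x)) =
      M[fun x => F (pull b x, pull a x) | sg (range c)] := by
    rw [hgeq]; funext x; simp only [G, Function.comp, hjc]
  have hGi : Integrable (fun x => G (pull b x, pull a x)) M := by
    rw [hGeq]; exact integrable_condExp
  refine ⟨G, hG, hGβ, ?_, ?_⟩
  · rw [← hc, hGeq]
  have key : ∀ m : Multiset A, InB m R → ∀ᵐ β ∂M.map (pull b),
      ∫ α, mon m α • F (β, α) ∂cd M a b β = ∫ α, mon m α • G (β, α) ∂cd M a b β := by
    intro m hm
    have hmm : StronglyMeasurable fun p : Om B × Om A => mon m p.2 :=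
      ((measurable_mon m).comp measurable_snd).stronglyMeasurable
    have i1 : Integrable (fun x => mon m (pull a x) • F (pull b x, pull a x)) M := by
      simpa only [mon_map] using fce_integrable_smul (m.map a) hi
    have i2 : Integrable (fun x => mon m (pull a x) • G (pull b x, pull a x)) M := by
      simpa only [mon_map] using fce_integrable_smul (m.map a) hGi
    have e1 := cd_condExp (M := M) a b (F := fun p => mon m p.2 • F p) (hmm.smul hF) i1
    have e2 := cd_condExp (M := M) a b (F := fun p => mon m p.2 • G p) (hmm.smul hG) i2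
    have hin : InB (m.map a) (range c) := (hm.map a).mono (hc ▸ subset_union_left)
    have e3 : M[fun x => mon m (pull a x) • F (pull b x, pull a x) | sg (range c)] =ᵐ[M]
        fun x => mon m (pull a x) • G (pull b x, pull a x) := by
      have h0 := condExp_smul_of_aestronglyMeasurable_left (μ := M) (m := sg (range c))
        (f := mon (m.map a)) (g := fun x => F (pull b x, pull a x))
        (measurable_mon_sg hin).aestronglyMeasurable (fce_integrable_smul (m.map a) hi) hi
      rw [← hGeq] at h0
      have h1 : (mon (m.map a) • fun x => F (pull b x, pull a x)) =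
          fun x => mon m (pull a x) • F (pull b x, pull a x) := by
        funext x; simp only [Pi.smul_apply', mon_map]
      have h2 : (mon (m.map a) • fun x => G (pull b x, pull a x)) =
          fun x => mon m (pull a x) • G (pull b x, pull a x) := by
        funext x; simp only [Pi.smul_apply', mon_map]
      rwa [h1, h2] at h0
    have hle : sg (range b) ≤ sg (range c) := sg_mono (hc ▸ subset_union_right)
    have e4 := condExp_condExp_of_le (μ := M)
      (f := fun x => mon m (pull a x) • F (pull b x, pull a x)) hle (sg_le _)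
    have e5 := condExp_congr_ae (m := sg (range b)) e3
    refine ae_map_pull b ?_
    filter_upwards [e1, e2, e4, e5] with x h1 h2 h4 h5
    rw [← h1, ← h2, ← h4, h5]
  have key' : ∀ᵐ β ∂M.map (pull b), ∀ m : Multiset A, InB m R →
      ∫ α, mon m α • F (β, α) ∂cd M a b β = ∫ α, mon m α • G (β, α) ∂cd M a b β := by
    rw [ae_all_iff]
    intro m
    by_cases hm : InB m R
    · filter_upwards [key m hm] with β h _ using h
    · exact Eventually.of_forall fun β h => absurd h hm
  have l1 := cd_memLp (M := M) a b hF (p := 1) ENNReal.one_ne_top (memLp_one_iff_integrable.2 hi)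
  have l2 := cd_memLp (M := M) a b hG (p := 1) ENNReal.one_ne_top (memLp_one_iff_integrable.2 hGi)
  filter_upwards [key', l1, l2] with β h h1 h2
  exact condExp_of_test (memLp_one_iff_integrable.1 h1) (memLp_one_iff_integrable.1 h2)
    (hGβ β).aestronglyMeasurable h

theorem fib_ci (a : A → I) (b : B → I) {R R' R'' : Set A}
    (h : CI M (a '' R) (a '' R') (a '' R'' ∪ range b)) :
    ∀ᵐ β ∂M.map (pull b), CI (cd M a b β) R R' R'' := by
  unfold CI
  rw [ae_all_iff]
  intro m
  by_cases hm : InB m R
  swap
  · exact Eventually.of_forall fun β h' => absurd h' hm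
  have hF : StronglyMeasurable fun p : Om B × Om A => mon m p.2 :=
    ((measurable_mon m).comp measurable_snd).stronglyMeasurable
  have he : (fun x : Om I => mon m (pull a x)) = mon (m.map a) :=
    funext fun x => (mon_map a m x).symm
  have hi : Integrable (fun x => (fun p : Om B × Om A => mon m p.2) (pull b x, pull a x)) M := by
    show Integrable (fun x : Om I => mon m (pull a x)) M
    rw [he]
    exact integrable_mon M _
  obtain ⟨G₁, -, -, g1, f1⟩ := fib_condExp (M := M) a b (R' ∪ R'') hF hi
  obtain ⟨G₂, -, -, g2, f2⟩ := fib_condExp (M := M) a b R'' hF hi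
  have h0 := h (m.map a) (hm.map a)
  rw [← union_assoc, ← image_union, ← he] at h0
  have h1 : ∀ᵐ x ∂M, G₁ (pull b x, pull a x) = G₂ (pull b x, pull a x) :=
    (g1.symm.trans h0).trans g2
  have h2 := ae_cd (M := M) a b (Q := fun β α => G₁ (β, α) = G₂ (β, α)) h1
  filter_upwards [f1, f2, h2] with β e1 e2 e3 _
  exact (e1.trans e3).trans e2.symm

theorem fib_ind (a : A → I) (b : B → I) {R R' : Set A} (h : CI M (a '' R) (a '' R') (range b)) :
    ∀ᵐ β ∂M.map (pull b), Ind (cd M a b β) R R' := by
  have h' : CI M (a '' R) (a '' R') (a '' (∅ : Set A) ∪ range b) := by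
    rwa [image_empty, empty_union]
  filter_upwards [fib_ci a b h'] with β hβ
  exact ind_iff_ci.2 hβ

/-- measurable on almost every fibre implies measurable -/
theorem aesm_of_fib (a : A → I) (b : B → I) (R : Set A) {F : Om A → E}
    (hF : StronglyMeasurable F) (hi : Integrable (fun x => F (pull a x)) M)
    (h : ∀ᵐ β ∂M.map (pull b), AEStronglyMeasurable[sg R] F (cd M a b β)) :
    AEStronglyMeasurable[sg (a '' R ∪ range b)] (fun x => F (pull a x)) M := by
  have hF' : StronglyMeasurable fun p : Om B × Om A => F p.2 := hF.comp_measurable measurable_snd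
  obtain ⟨G, hG, -, h1, h2⟩ := fib_condExp (M := M) a b R hF' hi
  have h3 := cd_memLp (M := M) a b hF' (p := 1) ENNReal.one_ne_top (memLp_one_iff_integrable.2 hi)
  have h4 : ∀ᵐ x ∂M, F (pull a x) = G (pull b x, pull a x) := by
    refine ae_of_ae_cd a b (Q := fun β α => F α = G (β, α)) (hF'.measurableSet_eq_fun hG) ?_
    filter_upwards [h, h2, h3] with β e1 e2 e3
    exact (condExp_of_aestronglyMeasurable' (sg_le R) e1 (memLp_one_iff_integrable.1 e3)).symm.trans e2
  exact stronglyMeasurable_condExp.aestronglyMeasurable.congr (h1.trans (EventuallyEq.symm h4))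

theorem fib_of_aesm (a : A → I) (b : B → I) (R : Set A) {F : Om A → E}
    (h : AEStronglyMeasurable[sg (a '' R ∪ range b)] (fun x => F (pull a x)) M) :
    ∀ᵐ β ∂M.map (pull b), AEStronglyMeasurable[sg R] F (cd M a b β) := by
  have hr : a '' R ∪ range b = range (Sum.elim b fun r : R => a r) := by
    rw [Sum.elim_range, union_comm, image_eq_range]
  rw [hr] at h
  obtain ⟨g, hg, e⟩ := exists_factor h.stronglyMeasurable_mk
  have h1 : ∀ᵐ x ∂M, F (pull a x) = g (Sum.elim (pull b x) (res R (pull a x))) := by
    filter_upwards [h.ae_eq_mk] with x hx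
    rw [hx, e]
    exact congrArg g (funext fun i => by cases i <;> rfl)
  filter_upwards [ae_cd a b (Q := fun β α => F α = g (Sum.elim β (res R α))) h1] with β hβ
  have hm : Measurable fun y : Om R => (Sum.elim β y : Om (B ⊕ R)) :=
    measurable_pi_lambda _ fun i => by
      cases i with
      | inl i => exact measurable_const
      | inr i => exact measurable_pi_apply i
  exact ⟨_, hg.comp_measurable (hm.comp (comap_measurable (res R))), hβ⟩

/-- a function equal on both sides of a relatively independent coupling is a function of the base -/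
theorem common_of_ci {X : Set I} {γ : Measure (Om (Bool × I))} [IsProbabilityMeasure γ]
    (hci : CI γ (sS false univ) (sS true univ) (sS true X))
    (hd : ∀ᵐ q ∂γ, res X (side false q) = res X (side true q)) {F F' : Om I → ℂ}
    (hF : Measurable F) (hF' : Measurable F') (hb : ∃ D : ℝ, ∀ x, ‖F x‖ ≤ D ∧ ‖F' x‖ ≤ D)
    (h : ∀ᵐ q ∂γ, F (side false q) = F' (side true q)) :
    ∃ g : Om X → ℂ, Measurable g ∧ (∀ᵐ x ∂γ.map (side false), F x = g (res X x)) ∧
      ∀ᵐ x ∂γ.map (side true), F' x = g (res X x) := by
  obtain ⟨D, hD⟩ := hb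
  have hi : Integrable (fun q => F (side false q)) γ :=
    Integrable.of_bound (hF.comp (measurable_pull _)).aestronglyMeasurable D
      (ae_of_all _ fun q => (hD _).1)
  have m1 : StronglyMeasurable[sg (sS false univ ∪ sS true X)] fun q => F (side false q) :=
    (hF.comp (measurable_pull_range (fun a : I => (false, a))
      (by rintro _ ⟨a, rfl⟩; exact Or.inl ⟨rfl, trivial⟩))).stronglyMeasurable
  have m2 : StronglyMeasurable[sg (sS true univ ∪ sS true X)] fun q => F' (side true q) :=
    (hF'.comp (measurable_pull_range (fun a : I => (true, a))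
      (by rintro _ ⟨a, rfl⟩; exact Or.inl ⟨rfl, trivial⟩))).stronglyMeasurable
  have h1 := (condExp_of_aestronglyMeasurable' (sg_le _) ⟨_, m2, h⟩ hi).symm.trans
    (hci.condExp hi m1.aestronglyMeasurable)
  have hr : sS true X = range fun a : X => (true, (a : I)) := by
    ext ⟨c, a⟩
    constructor
    · rintro ⟨rfl, ha⟩
      exact ⟨⟨a, ha⟩, rfl⟩
    · rintro ⟨⟨a', ha⟩, e⟩
      cases e
      exact ⟨rfl, ha⟩
  rw [hr] at h1
  obtain ⟨g, hg, e⟩ := exists_factor (b := fun a : X => (true, (a : I)))
    (stronglyMeasurable_condExp (μ := γ) (f := fun q => F (side false q)))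
  rw [e] at h1
  refine ⟨g, hg.measurable, ae_map_pull _ ?_, ae_map_pull _ ?_⟩
  · filter_upwards [h1, hd] with q e1 e2
    rw [e2]
    exact e1
  · filter_upwards [h1, h] with q e1 e2
    rw [← e2]
    exact e1

end Crest.Agent.R69
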