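import Crest.Agent.R69.CoreB

/-! # Row 69, endgame (helper34): recurrent words are torsion -/

set_option autoImplicit false
set_option linter.unusedVariables false
set_option linter.unusedSectionVars false

open MeasureTheory ProbabilityTheory Filter Topology Set

noncomputable section

namespace Crest.Agent.R69

section
variable {C : Type} {N : ℕ}

/-- recurrent words of infinite order -/
def Orb (r : C) (L Q m : ℕ) (K : Set (C × ℤ × Fin N →₀ ℤ)) : Set (C × ℤ × Fin N →₀ ℤ) :=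
  {x | x ∈ Wd r 0 L Q ∧ (∀ k : ℤ, ∃ y ∈ Wd r (k * m) L Q, x - y ∈ K) ∧
    ¬ ∃ n : ℕ, 0 < n ∧ n • x ∈ K}

def OrbF (r : C) (L Q m : ℕ) (K : Set (C × ℤ × Fin N →₀ ℤ)) : Finset (C × ℤ × Fin N →₀ ℤ) :=
  ((Wd_finite r 0 L Q).subset (fun x hx => hx.1 : Orb r L Q m K ⊆ Wd r 0 L Q)).toFinset

theorem mem_OrbF {r : C} {L Q m : ℕ} {K : Set (C × ℤ × Fin N →₀ ℤ)} {x : C × ℤ × Fin N →₀ ℤ} :
    x ∈ OrbF r L Q m K ↔ x ∈ Orb r L Q m K := Set.Finite.mem_toFinset _

theorem card_OrbF (r : C) (L Q m : ℕ) (K : Set (C × ℤ × Fin N →₀ ℤ)) :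
    (OrbF r L Q m K).card ≤ (Wd_finite (N := N) r 0 L Q).toFinset.card :=
  Finset.card_le_card fun x hx => (Set.Finite.mem_toFinset _).2 (mem_OrbF.1 hx).1

theorem mapD_sub {G G' : Type} (f : G → G') (x y : G →₀ ℤ) :
    Finsupp.mapDomain f (x - y) = Finsupp.mapDomain f x - Finsupp.mapDomain f y :=
  map_sub (Finsupp.mapDomain.addMonoidHom f) x y

theorem mapD_nsmul {G G' : Type} (f : G → G') (n : ℕ) (x : G →₀ ℤ) :
    Finsupp.mapDomain f (n • x) = n • Finsupp.mapDomain f x :=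
  map_nsmul (Finsupp.mapDomain.addMonoidHom f) n x

theorem mapD_symm {G G' : Type} (σ : G ≃ G') (y : G' →₀ ℤ) :
    Finsupp.mapDomain σ (Finsupp.mapDomain σ.symm y) = y := by
  rw [← Finsupp.mapDomain_comp]; simp

theorem Orb_eqv (r : C) (L Q m : ℕ) {K K' : Set (C × ℤ × Fin N →₀ ℤ)}
    {σ : Equiv.Perm (C × ℤ × Fin N)} (hσ : Mv 0 σ) (hK : ∀ x, Finsupp.mapDomain σ x ∈ K' ↔ x ∈ K)
    (x : C × ℤ × Fin N →₀ ℤ) : Finsupp.mapDomain σ x ∈ Orb r L Q m K' ↔ x ∈ Orb r L Q m K := by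
  have hW : ∀ s y, Finsupp.mapDomain σ y ∈ Wd r s L Q ↔ y ∈ Wd r s L Q := fun s y => by
    simpa using Wd_mapDomain r s 0 L Q σ hσ y
  refine and_congr (hW 0 x) (and_congr (forall_congr' fun k => ⟨?_, ?_⟩) (not_congr ?_))
  · rintro ⟨y, hy, h⟩
    refine ⟨Finsupp.mapDomain σ.symm y, (hW _ _).1 (by rwa [mapD_symm]), (hK _).1 ?_⟩
    rwa [mapD_sub, mapD_symm]
  · rintro ⟨y, hy, h⟩
    exact ⟨_, (hW _ _).2 hy, by rw [← mapD_sub]; exact (hK _).2 h⟩
  · exact exists_congr fun n => and_congr_right fun _ => by rw [← mapD_nsmul, hK]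

theorem Orb_trl (r : C) (L Q m : ℕ) (K : AddSubgroup (C × ℤ × Fin N →₀ ℤ))
    {K' : Set (C × ℤ × Fin N →₀ ℤ)} (n : ℤ)
    (hK : ∀ x, Finsupp.mapDomain (trl (n * m)) x ∈ K ↔ x ∈ K') {x : C × ℤ × Fin N →₀ ℤ}
    (hx : x ∈ Orb r L Q m K') :
    ∃ y ∈ Orb r L Q m (K : Set _), Finsupp.mapDomain (trl (n * m)) x - y ∈ K := by
  obtain ⟨-, h2, h3⟩ := hx
  have key : ∀ k : ℤ, ∃ y ∈ Wd r (k * m) L Q, Finsupp.mapDomain (trl (n * m)) x - y ∈ K := by
    intro k
    obtain ⟨y, hy, h⟩ := h2 (k - n)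
    refine ⟨Finsupp.mapDomain (trl (n * m)) y, ?_, by rw [← mapD_sub]; exact (hK _).2 h⟩
    have := (Wd_mapDomain r _ (n * m) L Q _ (mv_trl _) y).2 hy
    rwa [show (k - n) * (m : ℤ) + n * m = k * m by ring] at this
  obtain ⟨y, hy, h⟩ := key 0
  refine ⟨y, ⟨by simpa using hy, fun k => ?_, ?_⟩, h⟩
  · obtain ⟨z, hz, h'⟩ := key k
    exact ⟨z, hz, by simpa using K.sub_mem h' h⟩
  · rintro ⟨j, hj, h'⟩
    refine h3 ⟨j, hj, (hK _).1 ?_⟩
    have := K.add_mem (K.nsmul_mem h j) h'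
    rwa [smul_sub, sub_add_cancel, ← mapD_nsmul] at this

variable {I : Type}

/-- power sums of the recurrent words -/
def psum (r : C) (L Q m j : ℕ) (κ : Measure (Om I)) (E : C × ℤ × Fin N → Om I → ℂ) (a : Om I) : ℂ :=
  ∑ x ∈ OrbF r L Q m (Kr κ E), chr E x a ^ j

theorem measurable_psum (r : C) (L Q m j : ℕ) (κ : Measure (Om I))
    {E : C × ℤ × Fin N → Om I → ℂ} (mE : ∀ g, Measurable (E g)) : Measurable (psum r L Q m j κ E) :=
  Finset.measurable_fun_sum _ fun x _ => (measurable_chr mE x).pow_const j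

theorem norm_psum (r : C) (L Q m j : ℕ) (κ : Measure (Om I))
    {E : C × ℤ × Fin N → Om I → ℂ} (hE : ∀ g a, ‖E g a‖ = 1) (a : Om I) :
    ‖psum r L Q m j κ E a‖ ≤ (Wd_finite (N := N) r 0 L Q).toFinset.card := by
  refine (norm_sum_le _ _).trans ?_
  simp only [norm_pow, norm_chr hE, one_pow, Finset.sum_const, nsmul_eq_mul, mul_one]
  exact_mod_cast card_OrbF r L Q m _

theorem LK.psum {X : Set I} {r : C} {κ κ' : Measure (Om I)}
    {E E' : C × ℤ × Fin N → Om I → ℂ} (h : LK X r κ κ' E E') (hE : ∀ g a, ‖E g a‖ = 1)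
    (hE' : ∀ g a, ‖E' g a‖ = 1) (mE : ∀ g, Measurable (E g)) (mE' : ∀ g, Measurable (E' g))
    (L Q m j : ℕ) :
    ∃ h : Om X → ℂ, Measurable h ∧ (∀ᵐ x ∂κ, psum r L Q m j κ E x = h (res X x)) ∧
      ∀ᵐ x ∂κ', psum r L Q m j κ' E' x = h (res X x) := by
  obtain ⟨Ls, -, h1, h2⟩ := h
  refine h2 _ _ (measurable_psum r L Q m j κ mE) (measurable_psum r L Q m j κ' mE')
    ⟨_, fun x => ⟨norm_psum r L Q m j κ hE x, norm_psum r L Q m j κ' hE' x⟩⟩ fun γ hγ => ?_
  obtain ⟨e1, e2, π, hπ⟩ := h1 γ hγ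
  choose c hc1 hc2 using hπ
  have hK : ∀ x, Finsupp.mapDomain (prm π) x ∈ Kr κ' E' ↔ x ∈ Kr κ E := by
    rw [← e1, ← e2]
    exact Kr_link γ hE hE' mE mE' (measurable_pull _) (measurable_pull _) _
      fun g => ⟨_, hc2 g.1 g.2.1 g.2.2⟩
  have : ∀ᵐ q ∂γ, ∀ x ∈ OrbF r L Q m (Kr κ E),
      chr E x (side false q) = chr E' (Finsupp.mapDomain (prm π) x) (side true q) := by
    refine (Filter.eventually_all_finset _).2 fun x hx => ?_
    filter_upwards [chr_link γ hE' (side false) (side true) (prm π) (fun g => c g.1 g.2.1 g.2.2)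
      (fun g => hc2 g.1 g.2.1 g.2.2) x] with q hq
    rw [hq, Finsupp.prod, Finset.prod_eq_one, one_mul]
    intro g hg
    rw [hc1 _ _ _ (((mem_OrbF.1 hx).1 g).2 (Finsupp.mem_support_iff.1 hg)).1, one_zpow]
  filter_upwards [this] with q hq
  refine Finset.sum_bij (fun x _ => Finsupp.mapDomain (prm π) x) (fun x hx => ?_)
    (fun x _ y _ h => Finsupp.mapDomain_injective (prm π).injective h) (fun y hy => ?_)
    fun x hx => by rw [hq x hx]
  · exact mem_OrbF.2 ((Orb_eqv r L Q m (mv_prm π) hK x).2 (mem_OrbF.1 hx))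
  · refine ⟨Finsupp.mapDomain (prm π).symm y, mem_OrbF.2 ((Orb_eqv r L Q m (mv_prm π) hK _).1 ?_),
      mapD_symm _ _⟩
    rw [mapD_symm]; exact mem_OrbF.1 hy

end

namespace CoreD
variable (D : CoreD)

abbrev mX : Measure (Om D.X) := D.s.μ.map (res D.X)
abbrev mY : Measure (Om D.Y) := D.s.μ.map (res D.Y)
abbrev κ (w : Om D.Y) : Measure (Om D.s.I) := fib D.s.μ D.Y w
abbrev E (w : Om D.Y) : D.P.Col × ℤ × Fin D.N → Om D.s.I → ℂ := gen D.s D.invY D.b w
abbrev S (t : ℤ) : Om D.Y → Om D.Y := D.s.shB D.invY t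

instance : IsProbabilityMeasure D.mY :=
  Measure.isProbabilityMeasure_map (measurable_pull _).aemeasurable
instance : IsProbabilityMeasure D.mX :=
  Measure.isProbabilityMeasure_map (measurable_pull _).aemeasurable

theorem Eu (w : Om D.Y) : ∀ g a, ‖D.E w g a‖ = 1 := gen_uni D.s D.invY D.bu w
theorem Em (w : Om D.Y) : ∀ g, Measurable (D.E w g) := gen_meas D.s D.invY D.bm w

theorem ae_S {p : Om D.Y → Prop} (h : ∀ᵐ w ∂D.mY, p w) : ∀ᵐ w ∂D.mY, ∀ t, p (D.S t w) :=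
  ae_all_iff.2 fun t => (mp_shB D.s D.invY t).quasiMeasurePreserving.ae h

theorem ae_sh : ∀ᵐ w ∂D.mY, ∀ t, (D.κ w).map (D.s.sh t) = D.κ (D.S t w) :=
  ae_all_iff.2 fun t => core_fib_sh D.s D.invY t

theorem ae_X : ∀ᵐ w ∂D.mY, (D.κ w).map (res D.X) = D.mX := core_fib_X D.s D.ind

/-- the power sums are functions on `X` -/
theorem psum_X (L Q m j : ℕ) : ∃ (h : Om D.X → ℂ) (B : ℝ), Measurable h ∧ (∀ x, ‖h x‖ ≤ B) ∧
    ∀ᵐ w ∂D.mY, ∀ᵐ a ∂D.κ w, psum D.r L Q m j (D.κ w) (D.E w) a = h (res D.X a) := by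
  obtain ⟨w0, hlk, hX0⟩ := (D.lk.and D.ae_X).exists
  obtain ⟨w1, h1⟩ := hlk.exists
  obtain ⟨h, mh, hh, -⟩ := h1.psum (D.Eu _) (D.Eu _) (D.Em _) (D.Em _) L Q m j
  set B : ℝ := ((Wd_finite (N := D.N) D.r 0 L Q).toFinset.card : ℝ)
  refine ⟨fun x => if ‖h x‖ ≤ B then h x else 0, B,
    Measurable.ite (measurableSet_le mh.norm measurable_const) mh measurable_const, fun x => ?_, ?_⟩
  · dsimp only
    split_ifs with hx
    · exact hx
    · simp [B]
  filter_upwards [hlk, D.ae_X] with w hw hX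
  obtain ⟨h', mh', e1, e2⟩ := hw.psum (D.Eu _) (D.Eu _) (D.Em _) (D.Em _) L Q m j
  have e3 : ∀ᵐ x ∂D.mX, h' x = h x := by
    rw [← hX0]
    refine (ae_map_iff (measurable_pull _).aemeasurable (measurableSet_eq_fun mh' mh)).2 ?_
    filter_upwards [hh, e1] with a a1 a2
    rw [← a1, ← a2]
  rw [← hX] at e3
  filter_upwards [e2, ae_of_ae_map (measurable_pull _).aemeasurable e3] with a a1 a2
  rw [if_pos, a1, a2]
  rw [← a2, ← a1]
  exact norm_psum _ _ _ _ _ _ (D.Eu _) a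

theorem psum_zero (L Q m j : ℕ) (hm : 0 < m) (hj : 0 < j) :
    ∀ᵐ w ∂D.mY, ∀ᵐ a ∂D.κ w, psum D.r L Q m j (D.κ w) (D.E w) a = 0 := by
  obtain ⟨h, B, mh, bh, hh⟩ := D.psum_X L Q m j
  suffices h0 : ∀ᵐ x ∂D.mX, h x = 0 by
    filter_upwards [hh, D.ae_X] with w h1 hX
    rw [← hX] at h0
    filter_upwards [h1, ae_of_ae_map (measurable_pull _).aemeasurable h0] with a a1 a2
    rw [a1, a2]
  obtain ⟨w, ⟨⟨h1, h2⟩, hX⟩, ho⟩ := ((((D.ae_S hh).and D.ae_sh).and D.ae_X).and D.orth).exists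
  set A : ℂ := ∫ x, h x * (starRingEnd ℂ) (h x) ∂D.mX with hA
  let c : ℕ → (D.P.Col × ℤ × Fin D.N →₀ ℤ) → ℂ := fun n y =>
    ∫ a, h (res D.X (D.s.sh (n * m : ℕ) a)) * (starRingEnd ℂ) (chr (D.E w) y a ^ j) ∂D.κ w
  let O := OrbF D.r L Q m (Kr (D.κ w) (D.E w))
  have mc : ∀ y, Measurable fun a => (starRingEnd ℂ) (chr (D.E w) y a ^ j) := fun y =>
    Complex.continuous_conj.measurable.comp ((measurable_chr (D.Em w) y).pow_const j)
  have bc : ∀ y a, ‖(starRingEnd ℂ) (chr (D.E w) y a ^ j)‖ = 1 := fun y a => by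
    rw [Complex.norm_conj, norm_pow, norm_chr (D.Eu w), one_pow]
  have hc : ∀ y ∈ O, Tendsto (fun n => ‖c n y‖) atTop (𝓝 0) := by
    intro y hy
    have := mix_fib D.s D.invX D.mix (D.κ w) hX _ h (mc y) mh (max B 1)
      (fun a => (bc y a).le.trans (le_max_right _ _)) fun x => (bh x).trans (le_max_left _ _)
    have h0 : ∫ a, chr (D.E w) (j • y) a ∂D.κ w = 0 := by
      by_contra hne
      exact (mem_OrbF.1 hy).2.2 ⟨j, hj, ho _ hne⟩
    simp only [chr_nsmul (D.Eu w)] at h0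
    rw [integral_conj, h0, map_zero, mul_zero] at this
    exact tendsto_zero_iff_norm_tendsto_zero.1
      (this.comp (tendsto_id.atTop_mul_const' hm))
  have hδ : Tendsto (fun n => ((Wd_finite (N := D.N) D.r 0 L Q).toFinset.card : ℝ) *
      ∑ y ∈ O, ‖c n y‖) atTop (𝓝 0) := by
    simpa using (tendsto_finsetSum O hc).const_mul
      ((Wd_finite (N := D.N) D.r 0 L Q).toFinset.card : ℝ)
  have hle : ∀ n : ℕ, ‖A‖ ≤ ((Wd_finite (N := D.N) D.r 0 L Q).toFinset.card : ℝ) *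
      ∑ y ∈ O, ‖c n y‖ := by
    intro n
    set t : ℤ := ((n * m : ℕ) : ℤ) with ht
    have mg : Measurable fun a => h (res D.X (D.s.sh t a)) :=
      mh.comp ((measurable_pull _).comp (measurable_sh _ _))
    have e1 : A = ∫ a, h (res D.X (D.s.sh t a)) * (starRingEnd ℂ) (h (res D.X (D.s.sh t a))) ∂D.κ w := by
      have mm : Measurable fun x => h x * (starRingEnd ℂ) (h x) :=
        mh.mul (Complex.continuous_conj.measurable.comp mh)
      have e0 : (D.κ w).map (D.s.shB D.invX t ∘ res D.X) = D.mX := by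
        rw [← Measure.map_map (measurable_shB _ _ _) (measurable_pull _), hX]
        exact (mp_shB D.s D.invX t).map_eq
      rw [hA, ← e0, integral_map ((measurable_shB _ _ _).comp (measurable_pull _)).aemeasurable
        mm.aestronglyMeasurable]
      rfl
    let O' := OrbF D.r L Q m (Kr (D.κ (D.S t w)) (D.E (D.S t w)))
    have e2 : ∀ᵐ a ∂D.κ w, h (res D.X (D.s.sh t a)) =
        ∑ x ∈ O', chr (D.E w) (Finsupp.mapDomain (trl t) x) a ^ j := by
      have := h1 t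
      rw [← h2 t] at this
      filter_upwards [ae_of_ae_map (measurable_sh _ _).aemeasurable this] with a ha
      rw [← ha, h2 t]
      exact Finset.sum_congr rfl fun x _ => by rw [chr_gen_sh D.s D.invY D.bu]
    have hi : ∀ y, Integrable (fun a => h (res D.X (D.s.sh t a)) *
        (starRingEnd ℂ) (chr (D.E w) y a ^ j)) (D.κ w) := fun y =>
      Integrable.of_bound (mg.mul (mc y)).aestronglyMeasurable B
        (Eventually.of_forall fun a => by rw [norm_mul, bc, mul_one]; exact bh _)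
    have e3 : A = ∑ x ∈ O', c n (Finsupp.mapDomain (trl t) x) := by
      rw [e1, ← integral_finsetSum _ fun x _ => hi _]
      refine integral_congr_ae ?_
      filter_upwards [e2] with a ha
      rw [← Finset.mul_sum, ← map_sum, ← ha]
    have e4 : ∀ x ∈ O', ‖c n (Finsupp.mapDomain (trl t) x)‖ ≤ ∑ y ∈ O, ‖c n y‖ := by
      intro x hx
      have ht' : t = (n : ℤ) * m := by rw [ht]; push_cast; ring
      obtain ⟨y, hy, d, hd⟩ := Orb_trl D.r L Q m (kerS (D.κ w) (D.E w) (D.Eu w)) n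
        (K' := Kr (D.κ (D.S t w)) (D.E (D.S t w)))
        (fun x => by rw [← ht', ← h2 t]; exact Kr_sh D.s D.invY D.bu D.bm w t _ x) (mem_OrbF.1 hx)
      rw [← ht'] at hd
      obtain ⟨a0, ha0⟩ := hd.exists
      have hd1 : ‖d‖ = 1 := by rw [← ha0, norm_chr (D.Eu w)]
      have : c n (Finsupp.mapDomain (trl t) x) = (starRingEnd ℂ) (d ^ j) * c n y := by
        rw [← integral_const_mul]
        refine integral_congr_ae ?_
        filter_upwards [hd] with a ha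
        rw [chr_sub (D.Eu w) _ y, ha, mul_pow, map_mul]
        ring
      rw [this, norm_mul, Complex.norm_conj, norm_pow, hd1, one_pow, one_mul]
      exact Finset.single_le_sum (f := fun y => ‖c n y‖) (fun _ _ => norm_nonneg _) (mem_OrbF.2 hy)
    rw [e3]
    refine (norm_sum_le _ _).trans ((Finset.sum_le_card_nsmul _ _ _ e4).trans ?_)
    rw [nsmul_eq_mul]
    exact mul_le_mul_of_nonneg_right (by exact_mod_cast card_OrbF _ _ _ _ _)
      (Finset.sum_nonneg fun _ _ => norm_nonneg _)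
  have hA0 : A = 0 := norm_le_zero_iff.1 (ge_of_tendsto' hδ hle)
  have e : A = ((∫ x, ‖h x‖ ^ 2 ∂D.mX : ℝ) : ℂ) := by
    rw [hA, ← integral_complex_ofReal]
    exact integral_congr_ae (Eventually.of_forall fun x => by simp [Complex.mul_conj'])
  rw [e, Complex.ofReal_eq_zero, integral_eq_zero_iff_of_nonneg (fun x => by positivity)
    (Integrable.of_bound (mh.norm.pow_const 2).aestronglyMeasurable (B ^ 2)
      (Eventually.of_forall fun x => by
        rw [norm_pow, norm_norm]; exact pow_le_pow_left₀ (norm_nonneg _) (bh x) 2))] at hA0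
  filter_upwards [hA0] with x hx
  simpa using hx

theorem orb_empty : ∀ᵐ w ∂D.mY, ∀ L Q m : ℕ, 0 < m → Orb D.r L Q m (Kr (D.κ w) (D.E w)) = ∅ := by
  refine ae_all_iff.2 fun L => ae_all_iff.2 fun Q => ae_all_iff.2 fun m => ?_
  by_cases hm : 0 < m
  swap
  · exact Eventually.of_forall fun w h => absurd h hm
  filter_upwards [ae_all_iff.2 fun j : ℕ => D.psum_zero L Q m (j + 1) hm j.succ_pos] with w hw _
  obtain ⟨a, ha⟩ := (ae_all_iff.2 hw).exists
  by_contra hne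
  obtain ⟨x, hx⟩ := Set.nonempty_iff_ne_empty.2 hne
  obtain ⟨j, hj, h⟩ := powsum_ne (OrbF D.r L Q m (Kr (D.κ w) (D.E w))) ⟨x, mem_OrbF.2 hx⟩
    (fun x => chr (D.E w) x a) fun x => norm_chr (D.Eu w) x a
  obtain ⟨j, rfl⟩ := Nat.exists_eq_succ_of_ne_zero hj.ne'
  exact h (ha j)

end CoreD

end Crest.Agent.R69
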