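import Crest.Agent.R69.Defs
import Crest.Agent.R69.Alg
import Crest.Agent.R69.CoreP

/-! # Row 69: the endgame (owner helper34) -/

set_option autoImplicit false
set_option linter.unusedVariables false
set_option linter.unusedSectionVars false

open MeasureTheory ProbabilityTheory Filter Topology Set

noncomputable section

namespace Crest.Agent.R69

namespace CoreD
variable (D : CoreD)

/-- labelled generators have infinite orbits -/
theorem p1 : ∀ᵐ w ∂D.mY, ∀ (k : Fin D.N) (m : ℕ) (kk : ℕ → Fin D.N), 0 < m →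
    ¬ ∀ n : ℕ, Finsupp.single (D.r, (0 : ℤ), k) (1 : ℤ) -
      Finsupp.single (D.r, ((n * m : ℕ) : ℤ), kk n) (1 : ℤ) ∈ Kr (D.κ w) (D.E w) := by
  filter_upwards [D.ae_S D.lab, D.ae_sh, D.ae_X, D.ae_S D.ae_X] with w hl hs hX hX' k m kk hm hK
  let g : Om D.X → ℂ := fun x => (starRingEnd ℂ) (D.ψ x)
  have mg : Measurable g := Complex.continuous_conj.measurable.comp D.lbl.1
  have bg : ∀ x, ‖g x‖ ≤ 1 := fun x => by simpa [g] using D.lbl.2 x
  set A : ℂ := ∫ x, D.ψ x * g x ∂D.mX with hA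
  have h1 := mix_fib D.s D.invX D.mix (D.κ w) hX _ g (D.Em w (D.r, 0, k)) mg 1
    (fun a => (D.Eu w _ a).le) bg
  have hg0 : ∫ x, g x ∂D.mX = 0 := by
    simp only [g]
    rw [integral_conj, D.mean, map_zero]
  rw [hg0, zero_mul] at h1
  have h2 := tendsto_zero_iff_norm_tendsto_zero.1 (h1.comp (tendsto_id.atTop_mul_const' hm))
  have h3 : ∀ n : ℕ, ‖∫ a, g (res D.X (D.s.sh (n * m : ℕ) a)) * D.E w (D.r, 0, k) a ∂D.κ w‖ = ‖A‖ := by
    intro n
    set t : ℤ := ((n * m : ℕ) : ℤ)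
    obtain ⟨d, hd⟩ := hK n
    obtain ⟨a0, ha0⟩ := hd.exists
    have hd1 : ‖d‖ = 1 := by rw [← ha0, norm_chr (D.Eu w)]
    have e1 : ∫ a, g (res D.X (D.s.sh t a)) * D.E w (D.r, 0, k) a ∂D.κ w =
        d * ∫ a, D.b D.r (D.S t w) (kk n) (D.s.sh t a) * g (res D.X (D.s.sh t a)) ∂D.κ w := by
      rw [← integral_const_mul]
      refine integral_congr_ae ?_
      filter_upwards [hd] with a ha
      have := chr_sub (D.Eu w) (Finsupp.single (D.r, (0 : ℤ), k) (1 : ℤ))
        (Finsupp.single (D.r, t, kk n) (1 : ℤ)) a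
      rw [ha, chr_single, chr_single, zpow_one, zpow_one] at this
      rw [this]
      simp only [CoreD.E, gen]
      ring
    have e2 : ∫ a, D.b D.r (D.S t w) (kk n) (D.s.sh t a) * g (res D.X (D.s.sh t a)) ∂D.κ w =
        ∫ a, D.b D.r (D.S t w) (kk n) a * g (res D.X a) ∂D.κ (D.S t w) := by
      rw [← hs t]
      exact (integral_map (measurable_sh _ _).aemeasurable
        ((D.bm _ _ _).mul (mg.comp (measurable_pull _))).aestronglyMeasurable).symm
    have e3 : ∫ a, D.ψ (res D.X a) * g (res D.X a) ∂D.κ (D.S t w) = A := by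
      rw [hA, ← hX' t]
      exact (integral_map (measurable_pull _).aemeasurable
        (D.lbl.1.mul mg).aestronglyMeasurable).symm
    rw [e1, e2, hl t (kk n) g ⟨mg, bg⟩, e3, norm_mul, hd1, one_mul]
  have hA0 : A = 0 := by
    refine norm_eq_zero.1 (tendsto_nhds_unique tendsto_const_nhds (h2.congr fun n => h3 n))
  have e : A = ((∫ x, ‖D.ψ x‖ ^ 2 ∂D.mX : ℝ) : ℂ) := by
    rw [hA, ← integral_complex_ofReal]
    exact integral_congr_ae (Eventually.of_forall fun x => by simp [g, Complex.mul_conj'])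
  rw [e, Complex.ofReal_eq_zero, integral_eq_zero_iff_of_nonneg (fun x => by positivity)
    (Integrable.of_bound (D.lbl.1.norm.pow_const 2).aestronglyMeasurable (1 ^ 2)
      (Eventually.of_forall fun x => by
        rw [norm_pow, norm_norm]; exact pow_le_pow_left₀ (norm_nonneg _) (D.lbl.2 x) 2))] at hA0
  refine D.ne ?_
  filter_upwards [hA0] with x hx
  simpa using hx

end CoreD

theorem core_false (D : CoreD) : False := by
  have hl : ∀ᵐ w ∂D.mY, ∀ᵐ w' ∂D.mY, Eqv 0 (Kr (D.κ w) (D.E w)) (Kr (D.κ w') (D.E w')) := by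
    filter_upwards [D.lk] with w hw
    filter_upwards [hw] with w' h using h.eqv (D.Eu _) (D.Eu _) (D.Em _) (D.Em _)
  obtain ⟨w0, h0⟩ := hl.exists
  obtain ⟨w, ⟨⟨⟨⟨a1, a2⟩, a3⟩, a4⟩, a5⟩⟩ :=
    ((((h0.and (D.ae_S h0)).and D.ae_sh).and D.p1).and D.orb_empty).exists
  have b1 : Eqv 1 (Kr (D.κ (D.S 1 w)) (D.E (D.S 1 w))) (Kr (D.κ w) (D.E w)) :=
    ⟨trl 1, mv_trl 1, fun x => by rw [← a3 1]; exact Kr_sh D.s D.invY D.bu D.bm w 1 _ x⟩
  obtain ⟨σ, hσ, hK⟩ := (a1.symm.trans (a2 1)).trans b1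
  refine end_free (kerS (D.κ w) (D.E w) (D.Eu w)) σ (fun g => by simpa using hσ g) hK D.r D.P.p
    D.P.pos D.P.far a4 (fun L Q m x hm hx h => ?_) ?_
  · by_contra hne
    exact Set.eq_empty_iff_forall_notMem.1 (a5 L Q m hm) x ⟨hx, h, hne⟩
  · filter_upwards [D.d4] with n hn
    by_contra hne
    refine hn ?_
    filter_upwards [h0, D.orth] with v hv ho k
    by_contra hk
    obtain ⟨τ, hτ, hτK⟩ := hv.symm.trans a1
    have h1 : ∑ i, Finsupp.single (i, D.P.pos i n, k i) (1 : ℤ) ∈ Kr (D.κ v) (D.E v) := by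
      refine ho _ ?_
      simpa only [chr_sum (D.Eu v), chr_single, zpow_one] using hk
    refine hne ⟨fun i => (τ (i, D.P.pos i n, k i)).2.2, ?_⟩
    have h2 := (hτK _).2 h1
    rw [Finsupp.mapDomain_finsetSum] at h2
    have h3 : ∀ i, τ (i, D.P.pos i n, k i) = (i, D.P.pos i n, (τ (i, D.P.pos i n, k i)).2.2) :=
      fun i => Prod.ext (hτ _).1 (Prod.ext (by simpa using (hτ (i, D.P.pos i n, k i)).2) rfl)
    simp only [Finsupp.mapDomain_single] at h2
    rwa [Finset.sum_congr rfl fun i _ => by rw [h3 i]] at h2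

end Crest.Agent.R69
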