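import Crest.Agent.R69.Alg

/-! # Row 69, endgame (helper34): algebra on the free abelian group of the generators -/

set_option autoImplicit false
set_option linter.unusedVariables false

open Filter

noncomputable section

namespace Crest.Agent.R69

/-- words in the generators of slot `r` at times within `L` of `s`, coefficients at most `Q` -/
def Wd {C : Type} {N : ℕ} (r : C) (s : ℤ) (L Q : ℕ) : Set (C × ℤ × Fin N →₀ ℤ) :=
  {x | ∀ g, |x g| ≤ Q ∧ (x g ≠ 0 → g.1 = r ∧ |g.2.1 - s| ≤ L)}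

theorem Wd_finite {C : Type} {N : ℕ} (r : C) (s : ℤ) (L Q : ℕ) :
    (Wd (N := N) r s L Q).Finite := by
  classical
  let S : Finset (C × ℤ × Fin N) := {r} ×ˢ (Finset.Icc (s - L) (s + L) ×ˢ Finset.univ)
  let b : C × ℤ × Fin N →₀ ℤ := Finsupp.onFinset S (fun g => if g ∈ S then (Q : ℤ) else 0)
    fun g hg => by_contra fun h => hg (if_neg h)
  have key : ∀ x ∈ Wd (N := N) r s L Q, ∀ g, |x g| ≤ b g := fun x hx g => by
    change |x g| ≤ if g ∈ S then (Q : ℤ) else 0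
    split_ifs with h
    · exact (hx g).1
    · have : x g = 0 := by_contra fun h0 => h (by
        obtain ⟨h1, h2⟩ := (hx g).2 h0
        rw [abs_le] at h2
        simp only [S, Finset.mem_product, Finset.mem_singleton, Finset.mem_Icc, Finset.mem_univ,
          and_true]
        exact ⟨h1, by linarith [h2.1], by linarith [h2.2]⟩)
      rw [this, abs_zero]
  exact (Set.finite_Icc (-b) b).subset fun x hx =>
    ⟨fun g => (abs_le.1 (key x hx g)).1, fun g => (abs_le.1 (key x hx g)).2⟩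

/-- a permutation of the generators that keeps the slot and adds `a` to the time moves words -/
theorem Wd_mapDomain {C : Type} {N : ℕ} (r : C) (s a : ℤ) (L Q : ℕ)
    (σ : Equiv.Perm (C × ℤ × Fin N)) (hσ : ∀ g, (σ g).1 = g.1 ∧ (σ g).2.1 = g.2.1 + a)
    (x : C × ℤ × Fin N →₀ ℤ) :
    Finsupp.mapDomain σ x ∈ Wd r (s + a) L Q ↔ x ∈ Wd r s L Q := by
  unfold Wd
  simp only [Set.mem_ofPred_eq]
  rw [← σ.forall_congr_right]
  refine forall_congr' fun g => ?_
  rw [Finsupp.mapDomain_apply σ.injective, (hσ g).1, (hσ g).2, add_sub_add_right_eq_sub]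

theorem end_free_zpow {C : Type} {N : ℕ} (σ : Equiv.Perm (C × ℤ × Fin N))
    (hσ : ∀ g, (σ g).1 = g.1 ∧ (σ g).2.1 = g.2.1 + 1) (t : ℤ) :
    ∀ g, ((σ ^ t) g).1 = g.1 ∧ ((σ ^ t) g).2.1 = g.2.1 + t := by
  induction t using Int.induction_on with
  | zero => intro g; simp
  | succ t ih =>
    intro g
    have e : (σ ^ ((t : ℤ) + 1)) g = σ ((σ ^ (t : ℤ)) g) := by
      rw [add_comm, zpow_one_add, Equiv.Perm.mul_apply]
    rw [e, (hσ _).1, (hσ _).2, (ih g).1, (ih g).2]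
    exact ⟨rfl, by ring⟩
  | pred t ih =>
    intro g
    have e : σ ((σ ^ (-(t : ℤ) - 1)) g) = (σ ^ (-(t : ℤ))) g := by
      rw [← Equiv.Perm.mul_apply, ← zpow_one_add]
      congr 2
      ring
    have h1 := hσ ((σ ^ (-(t : ℤ) - 1)) g)
    rw [e, (ih g).1, (ih g).2] at h1
    exact ⟨h1.1.symm, by linarith [h1.2]⟩

theorem end_free_add {X : Type} (σ : Equiv.Perm X) (s t : ℤ) (x : X →₀ ℤ) :
    Finsupp.mapDomain (σ ^ (s + t)) x = Finsupp.mapDomain (σ ^ s) (Finsupp.mapDomain (σ ^ t) x) := by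
  rw [← Finsupp.mapDomain_comp, zpow_add, Equiv.Perm.coe_mul]

theorem end_free_zero {X : Type} (σ : Equiv.Perm X) (x : X →₀ ℤ) :
    Finsupp.mapDomain (σ ^ (0 : ℤ)) x = x := by
  rw [zpow_zero, Equiv.Perm.coe_one, Finsupp.mapDomain_id]

theorem end_free_K {X : Type} (K : AddSubgroup (X →₀ ℤ)) (σ : Equiv.Perm X)
    (hK : ∀ x, Finsupp.mapDomain σ x ∈ K ↔ x ∈ K) (t : ℤ) (x : X →₀ ℤ) :
    Finsupp.mapDomain (σ ^ t) x ∈ K ↔ x ∈ K := by
  induction t using Int.induction_on with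
  | zero => rw [end_free_zero]
  | succ t ih => rw [add_comm, end_free_add, zpow_one, hK, ih]
  | pred t ih =>
    rw [← hK, ← ih]
    have e := end_free_add σ 1 (-(t : ℤ) - 1) x
    rw [zpow_one, show (1 : ℤ) + (-(t : ℤ) - 1) = -(t : ℤ) by ring] at e
    rw [e]

theorem end_free_per {M : Type} [AddCommGroup M] (U : ℤ → M →+ M) (U0 : ∀ x, U 0 x = x)
    (Uadd : ∀ s t x, U (s + t) x = U s (U t x)) {m : ℤ} {d : M} (h : U m d = d) (k : ℤ) :
    U (k * m) d = d := by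
  induction k using Int.induction_on with
  | zero => rw [zero_mul, U0]
  | succ k ih => rw [add_mul, one_mul, Uadd, h, ih]
  | pred k ih =>
    have e := Uadd ((-(k : ℤ) - 1) * m) m d
    rw [h, show (-(k : ℤ) - 1) * m + m = -(k : ℤ) * m by ring, ih] at e
    exact e.symm

theorem end_free_Wd {C : Type} {N : ℕ} (r : C) (x : C × ℤ × Fin N →₀ ℤ)
    (hx : ∀ g, x g ≠ 0 → g.1 = r) : ∃ L Q : ℕ, x ∈ Wd r 0 L Q := by
  refine ⟨x.support.sup fun g => g.2.1.natAbs, x.support.sup fun g => (x g).natAbs,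
    fun g => ⟨?_, fun hg => ⟨hx g hg, ?_⟩⟩⟩
  · by_cases hg : x g = 0
    · rw [hg, abs_zero]; positivity
    · rw [Int.abs_eq_natAbs]
      exact_mod_cast Finset.le_sup (f := fun g => (x g).natAbs) (Finsupp.mem_support_iff.2 hg)
  · rw [sub_zero, Int.abs_eq_natAbs]
    exact_mod_cast Finset.le_sup (f := fun g : C × ℤ × Fin N => g.2.1.natAbs)
      (Finsupp.mem_support_iff.2 hg)

/-- **end game on the free abelian group** -/
theorem end_free {C Nt : Type} [Fintype C] {N : ℕ} (K : AddSubgroup (C × ℤ × Fin N →₀ ℤ))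
    (σ : Equiv.Perm (C × ℤ × Fin N)) (hσ : ∀ g, (σ g).1 = g.1 ∧ (σ g).2.1 = g.2.1 + 1)
    (hK : ∀ x, Finsupp.mapDomain σ x ∈ K ↔ x ∈ K)
    (r : C) (p : Ultrafilter Nt) (pos : C → Nt → ℤ)
    (hpos : ∀ i j, i ≠ j → Tendsto (fun n => |pos i n - pos j n|) p atTop)
    (P1 : ∀ (k : Fin N) (m : ℕ) (kk : ℕ → Fin N), 0 < m →
      ¬ ∀ n : ℕ, Finsupp.single (r, (0 : ℤ), k) (1 : ℤ) -
        Finsupp.single (r, ((n * m : ℕ) : ℤ), kk n) (1 : ℤ) ∈ K)
    (P2 : ∀ (L Q m : ℕ) (x : C × ℤ × Fin N →₀ ℤ), 0 < m → x ∈ Wd r 0 L Q →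
      (∀ k : ℤ, ∃ y ∈ Wd r (k * m) L Q, x - y ∈ K) → ∃ n : ℕ, 0 < n ∧ n • x ∈ K)
    (P3 : ∀ᶠ n in (p : Filter Nt), ∃ k : C → Fin N,
      ∑ i, Finsupp.single (i, pos i n, k i) (1 : ℤ) ∈ K) : False := by
  classical
  have hz := end_free_zpow σ hσ
  let U : ℤ → ((C × ℤ × Fin N →₀ ℤ) ⧸ K) →+ ((C × ℤ × Fin N →₀ ℤ) ⧸ K) := fun t =>
    QuotientAddGroup.map K K (Finsupp.mapDomain.addMonoidHom ⇑(σ ^ t))
      fun x hx => (end_free_K K σ hK t x).2 hx
  have hU : ∀ (t : ℤ) (x : C × ℤ × Fin N →₀ ℤ),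
      U t (x : (C × ℤ × Fin N →₀ ℤ) ⧸ K) = (Finsupp.mapDomain (σ ^ t) x : C × ℤ × Fin N →₀ ℤ) :=
    fun t x => rfl
  have U0 : ∀ x, U 0 x = x := by
    intro x
    obtain ⟨x, rfl⟩ := QuotientAddGroup.mk_surjective x
    rw [hU, end_free_zero]
  have Uadd : ∀ s t x, U (s + t) x = U s (U t x) := by
    intro s t x
    obtain ⟨x, rfl⟩ := QuotientAddGroup.mk_surjective x
    rw [hU, hU, hU, end_free_add]
  have P3' : ∀ᶠ n in (p : Filter Nt), ∃ k : C → Fin N,
      ∑ i, Finsupp.single ((σ ^ pos i n) (i, (0 : ℤ), k i)) (1 : ℤ) ∈ K := by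
    filter_upwards [P3] with n hn
    obtain ⟨k, hk⟩ := hn
    refine ⟨fun i => ((σ ^ (-pos i n)) (i, pos i n, k i)).2.2, ?_⟩
    convert hk using 3 with i
    have e : ((i, (0 : ℤ), ((σ ^ (-pos i n)) (i, pos i n, k i)).2.2) : C × ℤ × Fin N) =
        (σ ^ (-pos i n)) (i, pos i n, k i) := by
      obtain ⟨h1, h2⟩ := hz (-pos i n) (i, pos i n, k i)
      refine Prod.ext h1.symm (Prod.ext ?_ rfl)
      rw [h2]
      exact (add_neg_cancel _).symm
    rw [e, ← Equiv.Perm.mul_apply, ← zpow_add, add_neg_cancel, zpow_zero, Equiv.Perm.one_apply]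
  obtain ⟨k, hk⟩ := Ultrafilter.eventually_exists_iff.1 P3'
  refine alg_core U U0 Uadd r
    (fun i => (Finsupp.single (i, (0 : ℤ), k i) (1 : ℤ) : C × ℤ × Fin N →₀ ℤ)) p pos hpos ?_ ?_ ?_
  · intro m hm h
    refine P1 (k r) m (fun n => ((σ ^ ((n : ℤ) * m)) (r, (0 : ℤ), k r)).2.2) hm fun n => ?_
    have h1 := end_free_per U U0 Uadd h n
    rw [hU, Finsupp.mapDomain_single] at h1
    have e : ((r, ((n * m : ℕ) : ℤ), ((σ ^ ((n : ℤ) * m)) (r, (0 : ℤ), k r)).2.2) : C × ℤ × Fin N) =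
        (σ ^ ((n : ℤ) * m)) (r, (0 : ℤ), k r) := by
      obtain ⟨h1, h2⟩ := hz ((n : ℤ) * m) (r, (0 : ℤ), k r)
      refine Prod.ext h1.symm (Prod.ext ?_ rfl)
      rw [h2]
      push_cast
      exact (zero_add _).symm
    rw [e]
    exact QuotientAddGroup.eq_iff_sub_mem.1 h1.symm
  · intro d hd m hm h
    have hx : ∃ x : C × ℤ × Fin N →₀ ℤ, (∀ g, x g ≠ 0 → g.1 = r) ∧ d = x := by
      clear h
      induction hd using AddSubgroup.closure_induction with
      | mem y hy =>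
        obtain ⟨t, rfl⟩ := hy
        refine ⟨Finsupp.single ((σ ^ t) (r, (0 : ℤ), k r)) 1, fun g hg => ?_, ?_⟩
        · have := (Finsupp.mem_support_single _ _ _).1 (Finsupp.mem_support_iff.2 hg)
          rw [this.1, (hz t _).1]
        · beta_reduce
          rw [hU, Finsupp.mapDomain_single]
      | zero => exact ⟨0, fun g hg => absurd rfl hg, rfl⟩
      | add y z _ _ hy hz' =>
        obtain ⟨y, hy, rfl⟩ := hy
        obtain ⟨z, hz', rfl⟩ := hz'
        refine ⟨y + z, fun g hg => ?_, rfl⟩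
        by_cases h0 : y g = 0
        · refine hz' g fun h1 => hg ?_
          rw [Finsupp.add_apply, h0, h1, add_zero]
        · exact hy g h0
      | neg y _ hy =>
        obtain ⟨y, hy, rfl⟩ := hy
        refine ⟨-y, fun g hg => hy g fun h1 => hg ?_, rfl⟩
        rw [Finsupp.neg_apply, h1, neg_zero]
    obtain ⟨x, hx, rfl⟩ := hx
    obtain ⟨L, Q, hW⟩ := end_free_Wd r x hx
    obtain ⟨n, hn, hnx⟩ := P2 L Q m x hm hW fun j => by
      refine ⟨Finsupp.mapDomain (σ ^ (j * m)) x, ?_, ?_⟩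
      · have := (Wd_mapDomain r 0 (j * m) L Q (σ ^ (j * m)) (hz _) x).2 hW
        rwa [zero_add] at this
      · have h1 := end_free_per U U0 Uadd h j
        rw [hU] at h1
        exact QuotientAddGroup.eq_iff_sub_mem.1 h1.symm
    refine ⟨n, hn, ?_⟩
    rw [← QuotientAddGroup.mk_nsmul]
    exact (QuotientAddGroup.eq_zero_iff _).2 hnx
  · filter_upwards [hk] with n hn
    have h1 := (QuotientAddGroup.eq_zero_iff _).2 hn
    rw [QuotientAddGroup.mk_sum] at h1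
    rw [← h1]
    refine Finset.sum_congr rfl fun i _ => ?_
    rw [hU, Finsupp.mapDomain_single]

/-- unimodular numbers cannot have all power sums zero -/
theorem powsum_ne {ι : Type} (s : Finset ι) (hs : s.Nonempty) (z : ι → ℂ) (hz : ∀ i, ‖z i‖ = 1) :
    ∃ j : ℕ, 0 < j ∧ ∑ i ∈ s, z i ^ j ≠ 0 := by
  classical
  by_contra hc
  have h0 : ∀ j : ℕ, ∑ i ∈ s, z i ^ (j + 1) = 0 := fun j =>
    by_contra fun h => hc ⟨j + 1, j.succ_pos, h⟩
  have h1 : ∀ P : Polynomial ℂ, ∑ i ∈ s, z i * P.eval (z i) = 0 := fun P => by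
    induction P using Polynomial.induction_on' with
    | add p q hp hq => simp only [Polynomial.eval_add, mul_add, Finset.sum_add_distrib, hp, hq,
        add_zero]
    | monomial n a =>
      have := congrArg (a * ·) (h0 n)
      simp only [Finset.mul_sum, mul_zero] at this
      rw [← this]
      exact Finset.sum_congr rfl fun i _ => by rw [Polynomial.eval_monomial]; ring
  obtain ⟨i₀, hi₀⟩ := hs
  obtain ⟨P, hP0, hP1⟩ : ∃ P : Polynomial ℂ, P.eval (z i₀) ≠ 0 ∧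
      ∀ i ∈ s, z i ≠ z i₀ → P.eval (z i) = 0 := by
    refine ⟨∏ v ∈ (s.image z).erase (z i₀), (Polynomial.X - Polynomial.C v), ?_, fun i hi h => ?_⟩
    · rw [Polynomial.eval_prod]
      refine Finset.prod_ne_zero_iff.2 fun v hv => ?_
      rw [Polynomial.eval_sub, Polynomial.eval_X, Polynomial.eval_C]
      exact sub_ne_zero.2 (Finset.mem_erase.1 hv).1.symm
    · rw [Polynomial.eval_prod]
      refine Finset.prod_eq_zero (Finset.mem_erase.2 ⟨h, Finset.mem_image_of_mem z hi⟩) ?_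
      rw [Polynomial.eval_sub, Polynomial.eval_X, Polynomial.eval_C, sub_self]
  have h2 : ∑ i ∈ s, z i * P.eval (z i) =
      ∑ i ∈ s.filter fun i => z i = z i₀, z i₀ * P.eval (z i₀) := by
    rw [Finset.sum_filter]
    refine Finset.sum_congr rfl fun i hi => ?_
    split_ifs with h
    · rw [h]
    · rw [hP1 i hi h, mul_zero]
  rw [h1, Finset.sum_const, nsmul_eq_mul] at h2
  have h3 : z i₀ ≠ 0 := norm_ne_zero_iff.1 (by rw [hz]; exact one_ne_zero)
  have h4 : ((s.filter fun i => z i = z i₀).card : ℂ) ≠ 0 :=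
    Nat.cast_ne_zero.2 (Finset.card_ne_zero.2 ⟨i₀, Finset.mem_filter.2 ⟨hi₀, rfl⟩⟩)
  exact mul_ne_zero h4 (mul_ne_zero h3 hP0) h2.symm

end Crest.Agent.R69
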