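import Crest.Agent.R69.CoreF
import Crest.Agent.R69.CoreA

/-! # Row 69, endgame (helper34): characters of the free abelian group and their kernels -/

set_option autoImplicit false
set_option linter.unusedVariables false
set_option linter.unusedSectionVars false

open MeasureTheory ProbabilityTheory Filter Topology Set

noncomputable section

namespace Crest.Agent.R69

section
variable {I G G' : Type} {E : G → Om I → ℂ}

theorem chr_zero (E : G → Om I → ℂ) (a : Om I) : chr E 0 a = 1 := by simp [chr]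

theorem chr_single (E : G → Om I → ℂ) (g : G) (n : ℤ) (a : Om I) :
    chr E (Finsupp.single g n) a = E g a ^ n := Finsupp.prod_single_index (zpow_zero _)

theorem ne_of_uni {z : ℂ} (h : ‖z‖ = 1) : z ≠ 0 := fun h0 => by simp [h0] at h

theorem chr_add (hE : ∀ g a, ‖E g a‖ = 1) (x y : G →₀ ℤ) (a : Om I) :
    chr E (x + y) a = chr E x a * chr E y a :=
  Finsupp.prod_add_index' (fun g => zpow_zero _) fun g m n => zpow_add₀ (ne_of_uni (hE g a)) m n

theorem norm_chr (hE : ∀ g a, ‖E g a‖ = 1) (x : G →₀ ℤ) (a : Om I) : ‖chr E x a‖ = 1 := by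
  simp [chr, Finsupp.prod, norm_prod, norm_zpow, hE]

theorem chr_neg (hE : ∀ g a, ‖E g a‖ = 1) (x : G →₀ ℤ) (a : Om I) :
    chr E (-x) a = (chr E x a)⁻¹ := by
  refine eq_inv_of_mul_eq_one_left ?_
  rw [← chr_add hE, neg_add_cancel, chr_zero]

theorem chr_sub (hE : ∀ g a, ‖E g a‖ = 1) (x y : G →₀ ℤ) (a : Om I) :
    chr E x a = chr E (x - y) a * chr E y a := by
  rw [← chr_add hE, sub_add_cancel]

theorem chr_nsmul (hE : ∀ g a, ‖E g a‖ = 1) (n : ℕ) (x : G →₀ ℤ) (a : Om I) :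
    chr E (n • x) a = chr E x a ^ n := by
  induction n with
  | zero => simp [chr_zero]
  | succ n ih => rw [succ_nsmul, chr_add hE, ih, pow_succ]

theorem chr_sum (hE : ∀ g a, ‖E g a‖ = 1) {ι : Type} (s : Finset ι) (x : ι → G →₀ ℤ) (a : Om I) :
    chr E (∑ i ∈ s, x i) a = ∏ i ∈ s, chr E (x i) a := by
  classical
  induction s using Finset.induction_on with
  | empty => simp [chr_zero]
  | insert i s hi ih => rw [Finset.sum_insert hi, Finset.prod_insert hi, chr_add hE, ih]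

theorem measurable_chr (mE : ∀ g, Measurable (E g)) (x : G →₀ ℤ) : Measurable (chr E x) :=
  Finset.measurable_fun_prod _ fun g _ => (mE g).pow_const _

theorem chr_mapDomain {E' : G' → Om I → ℂ} (hE : ∀ g a, ‖E' g a‖ = 1) (f : G → G') (x : G →₀ ℤ)
    (a : Om I) : chr E' (Finsupp.mapDomain f x) a = chr (fun g => E' (f g)) x a :=
  Finsupp.prod_mapDomain_index (fun g => zpow_zero _)
    fun g m n => zpow_add₀ (ne_of_uni (hE g a)) m n

/-- the elements whose character is constant -/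
def Kr (κ : Measure (Om I)) (E : G → Om I → ℂ) : Set (G →₀ ℤ) :=
  {x | ∃ c : ℂ, ∀ᵐ a ∂κ, chr E x a = c}

def kerS (κ : Measure (Om I)) (E : G → Om I → ℂ) (hE : ∀ g a, ‖E g a‖ = 1) :
    AddSubgroup (G →₀ ℤ) where
  carrier := Kr κ E
  zero_mem' := ⟨1, Eventually.of_forall (chr_zero E)⟩
  add_mem' := fun ⟨c, hc⟩ ⟨d, hd⟩ => ⟨c * d, by
    filter_upwards [hc, hd] with a h1 h2; rw [chr_add hE, h1, h2]⟩
  neg_mem' := fun ⟨c, hc⟩ => ⟨c⁻¹, by filter_upwards [hc] with a h1; rw [chr_neg hE, h1]⟩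

/-- characters under a coupling that links the generators -/
theorem chr_link {Q : Type} [MeasurableSpace Q] (γ : Measure Q) {E' : G' → Om I → ℂ}
    (hE' : ∀ g a, ‖E' g a‖ = 1) (u v : Q → Om I) (f : G → G') (c : G → ℂ)
    (h : ∀ g, ∀ᵐ q ∂γ, E g (u q) = c g * E' (f g) (v q)) (x : G →₀ ℤ) :
    ∀ᵐ q ∂γ, chr E x (u q) = (x.prod fun g n => c g ^ n) * chr E' (Finsupp.mapDomain f x) (v q) := by
  have : ∀ᵐ q ∂γ, ∀ g ∈ x.support, E g (u q) = c g * E' (f g) (v q) :=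
    (Filter.eventually_all_finset _).2 fun g _ => h g
  filter_upwards [this] with q hq
  rw [chr_mapDomain hE']
  simp only [chr, Finsupp.prod]
  rw [← Finset.prod_mul_distrib]
  exact Finset.prod_congr rfl fun g hg => by rw [hq g hg, mul_zpow]

theorem Kr_link {Q : Type} [MeasurableSpace Q] (γ : Measure Q) {E' : G' → Om I → ℂ}
    (hE : ∀ g a, ‖E g a‖ = 1) (hE' : ∀ g a, ‖E' g a‖ = 1) (mE : ∀ g, Measurable (E g))
    (mE' : ∀ g, Measurable (E' g)) {u v : Q → Om I} (mu : Measurable u) (mv : Measurable v)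
    (f : G → G') (h : ∀ g, ∃ c : ℂ, ∀ᵐ q ∂γ, E g (u q) = c * E' (f g) (v q)) (x : G →₀ ℤ) :
    Finsupp.mapDomain f x ∈ Kr (γ.map v) E' ↔ x ∈ Kr (γ.map u) E := by
  choose c hc using h
  have hl := chr_link γ hE' u v f c hc x
  set d := x.prod fun g n => c g ^ n
  constructor
  · rintro ⟨e, he⟩
    refine ⟨d * e, (ae_map_iff mu.aemeasurable
      (measurableSet_eq_fun (measurable_chr mE x) measurable_const)).2 ?_⟩
    filter_upwards [hl, ae_of_ae_map mv.aemeasurable he] with q h1 h2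
    rw [h1, h2]
  · rintro ⟨e, he⟩
    refine ⟨d⁻¹ * e, (ae_map_iff mv.aemeasurable
      (measurableSet_eq_fun (measurable_chr mE' _) measurable_const)).2 ?_⟩
    filter_upwards [hl, ae_of_ae_map mu.aemeasurable he] with q h1 h2
    have hd : d ≠ 0 := fun h0 => ne_of_uni (norm_chr hE x (u q)) (by rw [h1, h0, zero_mul])
    rw [← h2, h1, inv_mul_cancel_left₀ hd]

end

section
variable {C : Type} {N : ℕ}

/-- permutations of the generators that keep the slot and add `a` to the time -/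
def Mv (a : ℤ) (σ : Equiv.Perm (C × ℤ × Fin N)) : Prop :=
  ∀ g, (σ g).1 = g.1 ∧ (σ g).2.1 = g.2.1 + a

def Eqv (a : ℤ) (K K' : Set (C × ℤ × Fin N →₀ ℤ)) : Prop :=
  ∃ σ : Equiv.Perm (C × ℤ × Fin N), Mv a σ ∧ ∀ x, Finsupp.mapDomain σ x ∈ K' ↔ x ∈ K

theorem Eqv.symm {a : ℤ} {K K' : Set (C × ℤ × Fin N →₀ ℤ)} (h : Eqv a K K') : Eqv (-a) K' K := by
  obtain ⟨σ, h1, h2⟩ := h
  refine ⟨σ.symm, fun g => ?_, fun x => ?_⟩
  · have := h1 (σ.symm g)
    rw [σ.apply_symm_apply] at this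
    exact ⟨this.1.symm, by rw [this.2]; ring⟩
  · rw [← h2, ← Finsupp.mapDomain_comp]
    simp

theorem Eqv.trans {a b : ℤ} {K K' K'' : Set (C × ℤ × Fin N →₀ ℤ)} (h : Eqv a K K')
    (h' : Eqv b K' K'') : Eqv (a + b) K K'' := by
  obtain ⟨σ, h1, h2⟩ := h
  obtain ⟨τ, k1, k2⟩ := h'
  refine ⟨σ.trans τ, fun g => ?_, fun x => ?_⟩
  · exact ⟨(k1 _).1.trans (h1 g).1, by rw [Equiv.trans_apply, (k1 _).2, (h1 g).2, add_assoc]⟩
  · rw [Equiv.coe_trans, Finsupp.mapDomain_comp, k2, h2]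

/-- permutation inside the blocks -/
def prm (π : C × ℤ → Equiv.Perm (Fin N)) : Equiv.Perm (C × ℤ × Fin N) where
  toFun g := (g.1, g.2.1, π (g.1, g.2.1) g.2.2)
  invFun g := (g.1, g.2.1, (π (g.1, g.2.1)).symm g.2.2)
  left_inv g := by simp
  right_inv g := by simp

theorem mv_prm (π : C × ℤ → Equiv.Perm (Fin N)) : Mv 0 (prm π) := fun g => ⟨rfl, (add_zero _).symm⟩

/-- translation of the time -/
def trl (t : ℤ) : Equiv.Perm (C × ℤ × Fin N) where
  toFun g := (g.1, g.2.1 + t, g.2.2)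
  invFun g := (g.1, g.2.1 - t, g.2.2)
  left_inv g := by simp
  right_inv g := by simp

theorem mv_trl (t : ℤ) : Mv t (trl t : Equiv.Perm (C × ℤ × Fin N)) := fun g => ⟨rfl, rfl⟩

theorem LK.eqv {I : Type} {X : Set I} {r : C} {κ κ' : Measure (Om I)}
    {E E' : C × ℤ × Fin N → Om I → ℂ} (h : LK X r κ κ' E E') (hE : ∀ g a, ‖E g a‖ = 1)
    (hE' : ∀ g a, ‖E' g a‖ = 1) (mE : ∀ g, Measurable (E g)) (mE' : ∀ g, Measurable (E' g)) :
    Eqv 0 (Kr κ E) (Kr κ' E') := by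
  obtain ⟨L, ⟨γ, hγ⟩, h1, -⟩ := h
  obtain ⟨rfl, rfl, π, hπ⟩ := h1 γ hγ
  refine ⟨prm π, mv_prm π, Kr_link γ hE hE' mE mE' (measurable_pull _) (measurable_pull _) _ ?_⟩
  rintro ⟨i, t, k⟩
  obtain ⟨c, -, hc⟩ := hπ i t k
  exact ⟨c, hc⟩

variable (s : Sys) {Y : Set s.I} (hY : s.Inv Y) (b : C → Om Y → Fin N → Om s.I → ℂ)

theorem shB_add (t u : ℤ) (w : Om Y) : s.shB hY t (s.shB hY u w) = s.shB hY (u + t) w := by
  funext a; simp [Sys.shB, pull, zpow_add]

theorem gen_sh (w : Om Y) (t : ℤ) (g : C × ℤ × Fin N) (a : Om s.I) :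
    gen s hY b (s.shB hY t w) g (s.sh t a) = gen s hY b w (trl t g) a := by
  simp only [gen, trl, Equiv.coe_fn_mk]
  rw [shB_add, s.sh_add, add_comm]

variable {b}

theorem gen_uni (bu : ∀ i w k x, ‖b i w k x‖ = 1) (w : Om Y) (g : C × ℤ × Fin N) (a : Om s.I) :
    ‖gen s hY b w g a‖ = 1 := bu _ _ _ _

theorem gen_meas (bm : ∀ i w k, Measurable (b i w k)) (w : Om Y) (g : C × ℤ × Fin N) :
    Measurable (gen s hY b w g) := (bm _ _ _).comp (measurable_sh s _)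

theorem chr_gen_sh (bu : ∀ i w k x, ‖b i w k x‖ = 1) (w : Om Y) (t : ℤ) (x : C × ℤ × Fin N →₀ ℤ)
    (a : Om s.I) : chr (gen s hY b (s.shB hY t w)) x (s.sh t a) =
      chr (gen s hY b w) (Finsupp.mapDomain (trl t) x) a := by
  rw [chr_mapDomain (gen_uni s hY bu w)]
  simp only [chr, gen_sh]

theorem Kr_sh (bu : ∀ i w k x, ‖b i w k x‖ = 1) (bm : ∀ i w k, Measurable (b i w k)) (w : Om Y)
    (t : ℤ) (κ : Measure (Om s.I)) (x : C × ℤ × Fin N →₀ ℤ) :
    Finsupp.mapDomain (trl t) x ∈ Kr κ (gen s hY b w) ↔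
      x ∈ Kr (κ.map (s.sh t)) (gen s hY b (s.shB hY t w)) := by
  have := Kr_link κ (gen_uni s hY bu (s.shB hY t w)) (gen_uni s hY bu w) (gen_meas s hY bm _)
    (gen_meas s hY bm _) (measurable_sh s t) measurable_id (trl t)
    (fun g => ⟨1, Eventually.of_forall fun a => by rw [gen_sh, one_mul]; rfl⟩) x
  rwa [Measure.map_id] at this

end

end Crest.Agent.R69
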