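import Crest.Agent.R69.CoreM

/-! # Row 69, endgame (helper34): the fibres over an invariant base -/

set_option autoImplicit false
set_option linter.unusedVariables false
set_option linter.unusedSectionVars false

open MeasureTheory ProbabilityTheory Filter Topology Set

noncomputable section

namespace Crest.Agent.R69

/-- the fibres are permuted by the shift -/
theorem core_fib_sh (s : Sys) {Y : Set s.I} (hY : s.Inv Y) (t : ℤ) :
    ∀ᵐ w ∂s.μ.map (res Y), (fib s.μ Y w).map (s.sh t) = fib s.μ Y (s.shB hY t w) := by
  have hi : ∀ w, s.shB hY (-t) (s.shB hY t w) = w := fun w => by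
    funext a
    simp [Sys.shB, pull]
  have mB := measurable_shB s hY
  have mS := measurable_sh s t
  have mR : Measurable (res Y : Om s.I → Om Y) := measurable_pull _
  have m0 : Measurable (pull id : Om s.I → Om s.I) := measurable_pull _
  have hA := condDistrib_comp (μ := s.μ) (mβ := inferInstance) (res Y) m0.aemeasurable mS
  have hB : condDistrib (s.sh t ∘ pull id) (res Y) s.μ =ᵐ[s.μ.map (res Y)]
      (fib s.μ Y).comap (s.shB hY t) (mB t) := by
    refine condDistrib_ae_eq_of_measure_eq_compProd _ (mS.comp m0).aemeasurable ?_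
    have h1 : s.μ.map (res Y) ⊗ₘ fib s.μ Y = s.μ.map fun a => (res Y a, pull id a) :=
      compProd_map_condDistrib m0.aemeasurable
    have mP : Measurable (Prod.map (s.shB hY (-t)) (id : Om s.I → Om s.I)) :=
      (mB _).prodMap measurable_id
    have h2 : s.μ.map (fun a => (res Y a, (s.sh t ∘ pull id) a)) =
        (s.μ.map (res Y) ⊗ₘ fib s.μ Y).map (Prod.map (s.shB hY (-t)) id) := by
      rw [h1, Measure.map_map mP (mR.prodMk m0)]
      conv_rhs => rw [← s.map_sh t]
      rw [Measure.map_map (mP.comp (mR.prodMk m0)) mS]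
      congr 1
      funext a
      exact Prod.ext (hi (res Y a)).symm rfl
    rw [h2]
    ext S hS
    rw [Measure.map_apply mP hS, Measure.compProd_apply (mP hS), Measure.compProd_apply hS,
      ← (mp_shB s hY t).lintegral_comp (Kernel.measurable_kernel_prodMk_left (mP hS))]
    refine lintegral_congr fun w => ?_
    rw [Kernel.comap_apply]
    congr 1
    ext y
    simp only [mem_preimage, Prod.map_apply, hi, id]
  filter_upwards [hA, hB] with w h1 h2
  rw [Kernel.map_apply _ mS] at h1
  rw [Kernel.comap_apply] at h2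
  exact h1.symm.trans h2

theorem core_fib_ext {E : Type} [TopologicalSpace E] [CompactSpace E] [MeasurableSpace E]
    [BorelSpace E] [HasOuterApproxClosed E] (μ ν : Measure E) [IsFiniteMeasure μ]
    [IsFiniteMeasure ν] (S : Set C(E, ℝ)) (hsep : ∀ x y, x ≠ y → ∃ f ∈ S, f x ≠ f y)
    (h : ∀ f ∈ Submonoid.closure S, ∫ x, f x ∂μ = ∫ x, f x ∂ν) : μ = ν := by
  have hint : ∀ (f : C(E, ℝ)) (ρ : Measure E) [IsFiniteMeasure ρ], Integrable f ρ :=
    fun f ρ _ => (BoundedContinuousFunction.mkOfCompact f).integrable ρ
  have hc : ∀ (ρ : Measure E) [IsFiniteMeasure ρ], Continuous fun f : C(E, ℝ) => ∫ x, f x ∂ρ := by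
    intro ρ _
    refine (LipschitzWith.of_dist_le_mul (K := (ρ univ).toNNReal) fun f g => ?_).continuous
    rw [Real.dist_eq, ← integral_sub (hint f ρ) (hint g ρ), ← Real.norm_eq_abs, mul_comm]
    exact norm_integral_le_of_norm_le_const (Eventually.of_forall fun x =>
      (dist_eq_norm (f x) (g x)) ▸ ContinuousMap.dist_apply_le_dist x)
  have h1 : ∀ f ∈ Algebra.adjoin ℝ S, ∫ x, f x ∂μ = ∫ x, f x ∂ν := by
    intro f hf
    rw [← Subalgebra.mem_toSubmodule, Algebra.adjoin_eq_span] at hf
    induction hf using Submodule.span_induction with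
    | mem g hg => exact h g hg
    | zero => simp
    | add f g _ _ hf hg =>
      simp only [ContinuousMap.add_apply]
      rw [integral_add (hint f μ) (hint g μ), integral_add (hint f ν) (hint g ν), hf, hg]
    | smul c f _ hf =>
      simp only [ContinuousMap.smul_apply]
      rw [integral_smul, integral_smul, hf]
  have h2 := ContinuousMap.subalgebra_topologicalClosure_eq_top_of_separatesPoints
    (Algebra.adjoin ℝ S) fun x y hxy => by
      obtain ⟨f, hf, hne⟩ := hsep x y hxy
      exact ⟨f, ⟨f, Algebra.subset_adjoin hf, rfl⟩, hne⟩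
  have h3 : ∀ f : C(E, ℝ), ∫ x, f x ∂μ = ∫ x, f x ∂ν := fun f => by
    have hf : f ∈ closure (Algebra.adjoin ℝ S : Set C(E, ℝ)) := by
      rw [← Subalgebra.topologicalClosure_coe, h2]
      trivial
    exact closure_minimal h1 (isClosed_eq (hc μ) (hc ν)) hf
  exact ext_of_forall_integral_eq_of_IsFiniteMeasure fun f => h3 f.toContinuousMap

theorem core_fib_mon {I : Type} (B : Set I) (m : Multiset B) (x : Om I) :
    mon m (res B x) = mon (m.map Subtype.val) x := by
  simp only [mon, Multiset.map_map]
  rfl

theorem core_fib_mon_cont {I : Type} (m : Multiset I) : Continuous (mon m) :=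
  continuous_multiset_prod _ fun a _ => continuous_subtype_val.comp (continuous_apply a)

theorem core_fib_prod {I : Type} [Countable I] (M : Measure (Om I)) [IsProbabilityMeasure M]
    {X Y : Set I} (h : Ind M X Y) :
    M.map (fun a => (res Y a, res X a)) = (M.map (res Y)).prod (M.map (res X)) := by
  have mY : Measurable (res Y : Om I → Om Y) := measurable_pull _
  have mX : Measurable (res X : Om I → Om X) := measurable_pull _
  let cY : Y → C(Om Y × Om X, ℝ) := fun a => ⟨fun p => (p.1 a : ℝ), by fun_prop⟩
  let cX : X → C(Om Y × Om X, ℝ) := fun a => ⟨fun p => (p.2 a : ℝ), by fun_prop⟩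
  refine core_fib_ext _ _ (range cY ∪ range cX) (fun x y hxy => ?_) fun f hf => ?_
  · by_contra hn
    push Not at hn
    refine hxy (Prod.ext (funext fun a => Subtype.ext ?_) (funext fun a => Subtype.ext ?_))
    · exact hn _ (Or.inl ⟨a, rfl⟩)
    · exact hn _ (Or.inr ⟨a, rfl⟩)
  · obtain ⟨u, v, huv⟩ : ∃ (u : Multiset Y) (v : Multiset X), ∀ p, f p = mon u p.1 * mon v p.2 := by
      induction hf using Submonoid.closure_induction with
      | mem g hg =>
        rcases hg with ⟨a, rfl⟩ | ⟨a, rfl⟩
        · exact ⟨{a}, 0, fun p => by simp [mon, cY]⟩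
        · exact ⟨0, {a}, fun p => by simp [mon, cX]⟩
      | one => exact ⟨0, 0, fun p => by simp [mon]⟩
      | mul f g _ _ hf hg =>
        obtain ⟨u, v, h1⟩ := hf
        obtain ⟨u', v', h2⟩ := hg
        refine ⟨u + u', v + v', fun p => ?_⟩
        rw [ContinuousMap.mul_apply, h1, h2]
        simp only [mon, Multiset.map_add, Multiset.prod_add]
        ring
    rw [integral_map (mY.prodMk mX).aemeasurable f.continuous.aestronglyMeasurable]
    simp only [huv]
    rw [integral_prod_mul, integral_map mY.aemeasurable (core_fib_mon_cont u).aestronglyMeasurable,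
      integral_map mX.aemeasurable (core_fib_mon_cont v).aestronglyMeasurable]
    simp only [core_fib_mon]
    rw [mul_comm, ← h _ _ (fun a ha => ?_) fun a ha => ?_]
    · simp only [mul_comm]
    · obtain ⟨b, -, rfl⟩ := Multiset.mem_map.1 ha
      exact b.2
    · obtain ⟨b, -, rfl⟩ := Multiset.mem_map.1 ha
      exact b.2

/-- a factor independent of the base has the same law on all fibres -/
theorem core_fib_X (s : Sys) {X Y : Set s.I} (h : Ind s.μ X Y) :
    ∀ᵐ w ∂s.μ.map (res Y), (fib s.μ Y w).map (res X) = s.μ.map (res X) := by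
  have mX : Measurable (res X : Om s.I → Om X) := measurable_pull _
  have m0 : Measurable (pull id : Om s.I → Om s.I) := measurable_pull _
  have hA := condDistrib_comp (μ := s.μ) (mβ := inferInstance) (res Y) m0.aemeasurable mX
  have hB : condDistrib (res X ∘ pull id) (res Y) s.μ =ᵐ[s.μ.map (res Y)]
      Kernel.const _ (s.μ.map (res X)) := by
    refine condDistrib_ae_eq_of_measure_eq_compProd _ (mX.comp m0).aemeasurable ?_
    rw [Measure.compProd_const]
    exact core_fib_prod s.μ h
  filter_upwards [hA, hB] with w h1 h2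
  rw [Kernel.map_apply _ mX] at h1
  exact h1.symm.trans h2

end Crest.Agent.R69
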