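import Crest.Agent.R69.Defs

/-! # Row 69, endgame (helper34): mixing seen on a fibre -/

set_option autoImplicit false
set_option linter.unusedVariables false
set_option linter.unusedSectionVars false

open MeasureTheory ProbabilityTheory Filter Topology Set

noncomputable section

namespace Crest.Agent.R69

theorem res_sh (s : Sys) {B : Set s.I} (h : s.Inv B) (t : ℤ) (a : Om s.I) :
    res B (s.sh t a) = s.shB h t (res B a) := rfl

theorem measurable_shB (s : Sys) {B : Set s.I} (h : s.Inv B) (t : ℤ) : Measurable (s.shB h t) :=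
  measurable_pull _

theorem mp_shB (s : Sys) {B : Set s.I} (h : s.Inv B) (t : ℤ) :
    MeasurePreserving (s.shB h t) (s.μ.map (res B)) (s.μ.map (res B)) := by
  refine ⟨measurable_shB s h t, ?_⟩
  rw [Measure.map_map (measurable_shB s h t) (measurable_pull _)]
  have : s.shB h t ∘ res B = res B ∘ s.sh t := rfl
  rw [this, ← Measure.map_map (measurable_pull _) (measurable_sh s t), s.map_sh]

/-- monomials as complex continuous maps -/
def mix_bdd_mon {I : Type} (m : Multiset I) : C(Om I, ℂ) :=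
  ⟨fun x => (mon m x : ℂ), Complex.continuous_ofReal.comp (continuous_multiset_prod m fun a _ =>
    continuous_subtype_val.comp (continuous_apply a))⟩

/-- polynomials -/
def mix_bdd_pol (I : Type) : StarSubalgebra ℂ C(Om I, ℂ) where
  toSubalgebra := (Submodule.span ℂ (range (mix_bdd_mon (I := I)))).toSubalgebra
    (Submodule.subset_span ⟨0, ContinuousMap.ext fun x => by simp [mix_bdd_mon, mon]⟩)
    fun p q hp hq => by
      have := Submodule.mul_mem_mul hp hq
      rw [Submodule.span_mul_span] at this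
      refine Submodule.span_mono ?_ this
      rintro _ ⟨_, ⟨m, rfl⟩, _, ⟨m', rfl⟩, rfl⟩
      exact ⟨m + m', ContinuousMap.ext fun x => by simp [mix_bdd_mon, mon]⟩
  star_mem' {p} hp := by
    change p ∈ Submodule.span ℂ (range (mix_bdd_mon (I := I))) at hp
    change star p ∈ Submodule.span ℂ (range (mix_bdd_mon (I := I)))
    induction hp using Submodule.span_induction with
    | mem x hx =>
      obtain ⟨m, rfl⟩ := hx
      exact Submodule.subset_span ⟨m, ContinuousMap.ext fun x => by simp [mix_bdd_mon]⟩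
    | zero => rw [star_zero]; exact Submodule.zero_mem _
    | add x y _ _ hx hy => rw [star_add]; exact Submodule.add_mem _ hx hy
    | smul a x _ hx => rw [star_smul]; exact Submodule.smul_mem _ _ hx

theorem mix_bdd_dense {I : Type} [Countable I] (κ : Measure (Om I)) [IsProbabilityMeasure κ]
    {h : Om I → ℂ} (hh : Integrable h κ) {ε : ℝ} (hε : 0 < ε) :
    ∃ p ∈ Submodule.span ℂ (range (mix_bdd_mon (I := I))), ∫ x, ‖h x - p x‖ ∂κ ≤ ε := by
  obtain ⟨f, hf, hfi⟩ := hh.exists_boundedContinuous_integral_sub_le (half_pos hε)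
  have htop := ContinuousMap.starSubalgebra_topologicalClosure_eq_top_of_separatesPoints
    (mix_bdd_pol I) (fun x y hxy => by
      obtain ⟨a, ha⟩ := Function.ne_iff.1 hxy
      refine ⟨_, ⟨mix_bdd_mon {a}, Submodule.subset_span ⟨{a}, rfl⟩, rfl⟩, ?_⟩
      simpa [mix_bdd_mon, mon, Subtype.val_inj] using ha)
  have hmem : f.toContinuousMap ∈ (mix_bdd_pol I).topologicalClosure := by
    rw [htop]; trivial
  obtain ⟨p, hp, hd⟩ := Metric.mem_closure_iff.1 hmem _ (half_pos hε)
  refine ⟨p, hp, ?_⟩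
  have hb : ∀ x, ‖h x - p x‖ ≤ ‖h x - f x‖ + ε / 2 := fun x => by
    have h1 := ContinuousMap.dist_apply_le_dist (f := f.toContinuousMap) (g := p) x
    rw [dist_eq_norm] at h1
    have h2 := norm_sub_le_norm_sub_add_norm_sub (h x) (f x) (p x)
    have h3 : ‖f x - p x‖ ≤ ε / 2 := h1.trans hd.le
    linarith
  have hi : Integrable (fun x => ‖h x - f x‖) κ := (hh.sub hfi).norm
  calc ∫ x, ‖h x - p x‖ ∂κ ≤ ∫ x, (‖h x - f x‖ + ε / 2) ∂κ :=
        integral_mono_of_nonneg (Eventually.of_forall fun x => norm_nonneg _)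
          (hi.add (integrable_const _)) (Eventually.of_forall hb)
    _ ≤ ε := by
        rw [integral_add hi (integrable_const _), integral_const]
        simp only [probReal_univ, smul_eq_mul, one_mul]
        linarith

theorem mix_bdd_lim {a : ℕ → ℂ} {L : ℂ} {C : ℝ}
    (h : ∀ ε > 0, ∃ (b : ℕ → ℂ) (L' : ℂ), Tendsto b atTop (𝓝 L') ∧ ‖L - L'‖ ≤ C * ε ∧
      ∀ n, ‖a n - b n‖ ≤ C * ε) : Tendsto a atTop (𝓝 L) := by
  refine Metric.tendsto_atTop.2 fun ε hε => ?_
  have hC : 0 < |C| + 1 := by positivity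
  obtain ⟨b, L', hb, hL, ha⟩ := h (ε / 3 / (|C| + 1)) (by positivity)
  have hs : C * (ε / 3 / (|C| + 1)) ≤ ε / 3 := by
    rw [mul_div_assoc', div_le_iff₀ hC]
    nlinarith [le_abs_self C]
  obtain ⟨N, hN⟩ := Metric.tendsto_atTop.1 hb (ε / 3) (by positivity)
  refine ⟨N, fun n hn => ?_⟩
  have h1 := hN n hn
  have h2 := dist_triangle4 (a n) (b n) L' L
  rw [dist_comm L' L, dist_eq_norm L L', dist_eq_norm (a n) (b n)] at h2
  linarith [ha n]

theorem mix_bdd_est {Ω : Type} [MeasurableSpace Ω] {κ : Measure Ω} {u v w : Ω → ℂ} {D : ℝ}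
    (hu : Integrable u κ) (hv : Integrable v κ) (mw : AEStronglyMeasurable w κ)
    (bw : ∀ x, ‖w x‖ ≤ D) :
    ‖∫ x, u x * w x ∂κ - ∫ x, v x * w x ∂κ‖ ≤ D * ∫ x, ‖u x - v x‖ ∂κ := by
  rw [← integral_sub (hu.mul_bdd mw (Eventually.of_forall bw))
    (hv.mul_bdd mw (Eventually.of_forall bw)), ← integral_const_mul]
  refine norm_integral_le_of_norm_le ((hu.sub hv).norm.const_mul D)
    (Eventually.of_forall fun x => ?_)
  rw [← sub_mul, norm_mul, mul_comm]
  exact mul_le_mul_of_nonneg_right (bw x) (norm_nonneg _)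

theorem mix_bdd_ext {I : Type} [Countable I] (κ : Measure (Om I)) [IsProbabilityMeasure κ]
    (T : ℕ → Om I → Om I) (hT : ∀ n, MeasurePreserving (T n) κ κ)
    (hm : ∀ m m' : Multiset I,
      Tendsto (fun n : ℕ => ∫ x, mix_bdd_mon m' (T n x) * mix_bdd_mon m x ∂κ) atTop
        (𝓝 ((∫ x, mix_bdd_mon m' x ∂κ) * ∫ x, mix_bdd_mon m x ∂κ))) (g h : Om I → ℂ)
    (mg : Measurable g) (mh : Measurable h) (D : ℝ) (bg : ∀ x, ‖g x‖ ≤ D) (bh : ∀ x, ‖h x‖ ≤ D) :
    Tendsto (fun n : ℕ => ∫ x, h (T n x) * g x ∂κ) atTop (𝓝 ((∫ x, h x ∂κ) * ∫ x, g x ∂κ)) := by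
  have ib : ∀ {u : Om I → ℂ} {C : ℝ}, Measurable u → (∀ x, ‖u x‖ ≤ C) → Integrable u κ :=
    fun {u C} mu bu => Integrable.of_bound mu.aestronglyMeasurable C (Eventually.of_forall bu)
  have ic : ∀ p : C(Om I, ℂ), Integrable p κ := fun p =>
    ib p.continuous.measurable p.norm_coe_le_norm
  have icc : ∀ (p q : C(Om I, ℂ)) (n : ℕ), Integrable (fun x => p (T n x) * q x) κ :=
    fun p q n => ((hT n).integrable_comp_of_integrable (ic p)).mul_bdd
      q.continuous.measurable.aestronglyMeasurable (Eventually.of_forall q.norm_coe_le_norm)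
  have nb : ∀ {u : Om I → ℂ} {C : ℝ}, (∀ x, ‖u x‖ ≤ C) → ‖∫ x, u x ∂κ‖ ≤ C := fun {u C} bu => by
    simpa using norm_integral_le_of_norm_le_const (μ := κ) (Eventually.of_forall bu)
  have nd : ∀ {u v : Om I → ℂ}, Integrable u κ → Integrable v κ →
      ‖∫ x, u x ∂κ - ∫ x, v x ∂κ‖ ≤ ∫ x, ‖u x - v x‖ ∂κ := fun {u v} hu hv => by
    rw [← integral_sub hu hv]
    exact norm_integral_le_integral_norm _
  have s1 : ∀ p ∈ Submodule.span ℂ (range (mix_bdd_mon (I := I))),
      ∀ q ∈ Submodule.span ℂ (range (mix_bdd_mon (I := I))),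
      Tendsto (fun n : ℕ => ∫ x, p (T n x) * q x ∂κ) atTop
        (𝓝 ((∫ x, p x ∂κ) * ∫ x, q x ∂κ)) := by
    intro p hp q hq
    induction hp using Submodule.span_induction with
    | mem p hp =>
      obtain ⟨m', rfl⟩ := hp
      induction hq using Submodule.span_induction with
      | mem q hq =>
        obtain ⟨m, rfl⟩ := hq
        exact hm m m'
      | zero => simp
      | add x y _ _ hx hy =>
        simp only [ContinuousMap.add_apply, mul_add, integral_add (ic _) (ic _),
          integral_add (icc _ _ _) (icc _ _ _)]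
        exact hx.add hy
      | smul a x _ hx =>
        simp only [ContinuousMap.smul_apply, smul_eq_mul, mul_left_comm _ a, integral_const_mul]
        exact hx.const_mul a
    | zero => simp
    | add x y _ _ hx hy =>
      simp only [ContinuousMap.add_apply, add_mul, integral_add (ic _) (ic _),
        integral_add (icc _ _ _) (icc _ _ _)]
      exact hx.add hy
    | smul a x _ hx =>
      simp only [ContinuousMap.smul_apply, smul_eq_mul, mul_assoc, integral_const_mul]
      exact hx.const_mul a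
  have s2 : ∀ p ∈ Submodule.span ℂ (range (mix_bdd_mon (I := I))),
      Tendsto (fun n : ℕ => ∫ x, p (T n x) * g x ∂κ) atTop
        (𝓝 ((∫ x, p x ∂κ) * ∫ x, g x ∂κ)) := by
    intro p hp
    refine mix_bdd_lim (C := ‖p‖) fun ε hε => ?_
    obtain ⟨q, hq, hd⟩ := mix_bdd_dense κ (ib mg bg) hε
    refine ⟨_, _, s1 p hp q hq, ?_, fun n => ?_⟩
    · rw [← mul_sub, norm_mul]
      exact mul_le_mul (nb p.norm_coe_le_norm) ((nd (ib mg bg) (ic q)).trans hd) (norm_nonneg _)
        (norm_nonneg _)
    · simp only [mul_comm (p (T n _))]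
      exact (mix_bdd_est (ib mg bg) (ic q)
        (p.continuous.measurable.comp (hT n).measurable).aestronglyMeasurable
        fun x => p.norm_coe_le_norm _).trans (mul_le_mul_of_nonneg_left hd (norm_nonneg _))
  have hD : 0 ≤ D := (norm_nonneg _).trans (bg (Classical.arbitrary _))
  refine mix_bdd_lim (C := D) fun ε hε => ?_
  obtain ⟨p, hp, hd⟩ := mix_bdd_dense κ (ib mh bh) hε
  refine ⟨_, _, s2 p hp, ?_, fun n => ?_⟩
  · rw [← sub_mul, norm_mul, mul_comm]
    exact mul_le_mul (nb bg) ((nd (ib mh bh) (ic p)).trans hd) (norm_nonneg _) hD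
  · refine (mix_bdd_est ((hT n).integrable_comp_of_integrable (ib mh bh))
      ((hT n).integrable_comp_of_integrable (ic p)) mg.aestronglyMeasurable bg).trans
      (mul_le_mul_of_nonneg_left (le_of_eq_of_le ?_ hd) hD)
    conv_rhs => rw [← (hT n).map_eq]
    exact (integral_map (f := fun x => ‖h x - p x‖) (hT n).measurable.aemeasurable
      (mh.sub p.continuous.measurable).norm.aestronglyMeasurable).symm
/-- mixing for bounded measurable functions on the factor -/
theorem mix_bdd (s : Sys) {X : Set s.I} (hX : s.Inv X) (hm : s.Mix X) (g h : Om X → ℂ)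
    (mg : Measurable g) (mh : Measurable h) (D : ℝ) (bg : ∀ x, ‖g x‖ ≤ D) (bh : ∀ x, ‖h x‖ ≤ D) :
    Tendsto (fun n : ℕ => ∫ x, h (s.shB hX n x) * g x ∂s.μ.map (res X)) atTop
      (𝓝 ((∫ x, h x ∂s.μ.map (res X)) * ∫ x, g x ∂s.μ.map (res X))) := by
  have hT := fun n : ℕ => mp_shB s hX n
  have : IsProbabilityMeasure (s.μ.map (res X)) :=
    Measure.isProbabilityMeasure_map (measurable_pull _).aemeasurable
  refine mix_bdd_ext _ (fun n : ℕ => s.shB hX n) hT (fun m m' => ?_) g h mg mh D bg bh
  have hin : ∀ m : Multiset X, InB (m.map Subtype.val) X := fun m a ha => by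
    obtain ⟨b, -, rfl⟩ := Multiset.mem_map.1 ha
    exact b.2
  have hres : ∀ (m : Multiset X) (a : Om s.I), mon m (res X a) = mon (m.map Subtype.val) a :=
    fun m a => by simp only [mon, Multiset.map_map]; rfl
  have h1 : ∀ m : Multiset X, ∫ x, mix_bdd_mon m x ∂s.μ.map (res X) =
      ((∫ a, mon (m.map Subtype.val) a ∂s.μ : ℝ) : ℂ) := fun m => by
    rw [integral_map (measurable_pull _).aemeasurable
      (mix_bdd_mon m).continuous.measurable.aestronglyMeasurable, ← integral_complex_ofReal]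
    simp only [mix_bdd_mon, ContinuousMap.coe_mk, hres]
  have h2 := (Complex.continuous_ofReal.tendsto _).comp (hm _ _ (hin m) (hin m'))
  rw [h1, h1, ← Complex.ofReal_mul, mul_comm]
  refine h2.congr fun n => ?_
  rw [integral_map (f := fun x => mix_bdd_mon m' (s.shB hX n x) * mix_bdd_mon m x)
    (measurable_pull _).aemeasurable
    (((mix_bdd_mon m').continuous.measurable.comp (measurable_shB s hX n)).mul
      (mix_bdd_mon m).continuous.measurable).aestronglyMeasurable, Function.comp_apply,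
    ← integral_complex_ofReal]
  refine integral_congr_ae (Eventually.of_forall fun a => ?_)
  simp only [mix_bdd_mon, ContinuousMap.coe_mk, ← res_sh, hres, Complex.ofReal_mul, mul_comm]

/-- a bounded version on `X` of the conditional expectation given `X` -/
theorem exists_ce {I : Type} [Countable I] (κ : Measure (Om I)) [IsProbabilityMeasure κ] (X : Set I)
    (G : Om I → ℂ) (mG : Measurable G) (D : ℝ) (bG : ∀ x, ‖G x‖ ≤ D) :
    ∃ g : Om X → ℂ, Measurable g ∧ (∀ x, ‖g x‖ ≤ D) ∧
      ∀ h : Om X → ℂ, Measurable h → (∃ D' : ℝ, ∀ x, ‖h x‖ ≤ D') →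
        ∫ a, h (res X a) * G a ∂κ = ∫ x, h x * g x ∂κ.map (res X) := by
  refine ⟨fun x => ∫ a, G a ∂(condDistrib id (res X) κ x), ?_, fun x => ?_, ?_⟩
  · exact (mG.stronglyMeasurable.integral_kernel (κ := condDistrib id (res X) κ)).measurable
  · have := norm_integral_le_of_norm_le_const (μ := condDistrib id (res X) κ x)
      (Eventually.of_forall bG)
    simpa using this
  · rintro h mh ⟨D', bh⟩
    have mr : Measurable (res X) := measurable_pull _
    have mp : Measurable fun a : Om I => (res X a, id a) := mr.prodMk measurable_id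
    have mF : Measurable fun z : Om X × Om I => h z.1 * G z.2 :=
      (mh.comp measurable_fst).mul (mG.comp measurable_snd)
    have : IsProbabilityMeasure (κ.map (res X)) := Measure.isProbabilityMeasure_map mr.aemeasurable
    have hi : Integrable (fun z : Om X × Om I => h z.1 * G z.2)
        (κ.map (res X) ⊗ₘ condDistrib id (res X) κ) := by
      refine Integrable.of_bound mF.aestronglyMeasurable (D' * D) (Eventually.of_forall fun z => ?_)
      rw [norm_mul]
      exact mul_le_mul (bh _) (bG _) (norm_nonneg _) ((norm_nonneg _).trans (bh z.1))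
    have e := Measure.integral_compProd hi
    rw [compProd_map_condDistrib aemeasurable_id,
      integral_map mp.aemeasurable mF.aestronglyMeasurable] at e
    simp only [id, integral_const_mul] at e
    exact e

/-- mixing on a measure whose `X`-marginal is the law of `X` -/
theorem mix_fib (s : Sys) {X : Set s.I} (hX : s.Inv X) (hm : s.Mix X) (κ : Measure (Om s.I))
    [IsProbabilityMeasure κ] (hκ : κ.map (res X) = s.μ.map (res X)) (G : Om s.I → ℂ) (h : Om X → ℂ)
    (mG : Measurable G) (mh : Measurable h) (D : ℝ) (bG : ∀ x, ‖G x‖ ≤ D) (bh : ∀ x, ‖h x‖ ≤ D) :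
    Tendsto (fun n : ℕ => ∫ a, h (res X (s.sh n a)) * G a ∂κ) atTop
      (𝓝 ((∫ x, h x ∂s.μ.map (res X)) * ∫ a, G a ∂κ)) := by
  obtain ⟨g, mg, bg, hg⟩ := exists_ce κ X G mG D bG
  have h1 := hg (fun _ => 1) measurable_const ⟨1, fun _ => by simp⟩
  simp only [one_mul] at h1
  rw [h1, hκ]
  refine (mix_bdd s hX hm g h mg mh D bg bh).congr fun n => ?_
  rw [← hκ]
  exact (hg (fun x => h (s.shB hX n x)) (mh.comp (measurable_shB s hX n)) ⟨D, fun x => bh _⟩).symm

end Crest.Agent.R69
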