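import Mathlib

/-!
# Row 69 (helper45): definitions

A system is a shift-invariant probability measure on `I → [-1,1]`, `I` countable; the shift is a
permutation of `I`; factors are invariant subsets of `I`.
-/

set_option autoImplicit false
set_option linter.unusedVariables false
set_option linter.unusedSectionVars false
set_option warn.classDefReducibility false

open MeasureTheory ProbabilityTheory Filter Topology Set

noncomputable section

namespace Crest.Agent.R69

abbrev K : Type := Set.Icc (-1 : ℝ) 1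
instance : Nonempty K := ⟨⟨0, by norm_num⟩⟩
abbrev Om (I : Type) : Type := I → K

variable {I A B : Type}

/-- restriction of coordinates along an index map -/
def pull (a : A → I) (x : Om I) : Om A := fun i => x (a i)
/-- restriction to a set of coordinates -/
abbrev res (B : Set I) : Om I → Om B := pull Subtype.val
/-- the σ-algebra generated by the coordinates in `B` -/
def sg (B : Set I) : MeasurableSpace (Om I) := MeasurableSpace.comap (res B) inferInstance
/-- monomials -/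
def mon (m : Multiset I) (x : Om I) : ℝ := (m.map fun a => (x a : ℝ)).prod
def InB (m : Multiset I) (B : Set I) : Prop := ∀ a ∈ m, a ∈ B

@[fun_prop] theorem measurable_pull (a : A → I) : Measurable (pull a) :=
  measurable_pi_lambda _ fun i => measurable_pi_apply (a i)
@[fun_prop] theorem continuous_pull (a : A → I) : Continuous (pull a) :=
  continuous_pi fun i => continuous_apply (a i)
theorem pull_pull (a : A → I) (b : B → A) (x : Om I) : pull b (pull a x) = pull (a ∘ b) x := rfl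
theorem sg_le (B : Set I) : sg B ≤ (inferInstance : MeasurableSpace (Om I)) :=
  (measurable_pull _).comap_le

/-- `A` is conditionally independent of `B` given `C` -/
def CI (M : Measure (Om I)) (A B C : Set I) : Prop :=
  ∀ m, InB m A → M[mon m | sg (B ∪ C)] =ᵐ[M] M[mon m | sg C]
/-- independence -/
def Ind (M : Measure (Om I)) (A B : Set I) : Prop :=
  ∀ m m', InB m A → InB m' B → ∫ x, mon m x * mon m' x ∂M = (∫ x, mon m x ∂M) * ∫ x, mon m' x ∂M
/-- energy of a conditional expectation -/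
def en (M : Measure (Om I)) (F : Om I → ℝ) (B : Set I) : ℝ := ∫ x, (M[F | sg B]) x ^ 2 ∂M

/-- conditional law of the coordinates `a` given the coordinates `b` -/
def cd [Countable A] (M : Measure (Om I)) [IsFiniteMeasure M] (a : A → I) (b : B → I) :
    Kernel (Om B) (Om A) := condDistrib (pull a) (pull b) M
instance [Countable A] (M : Measure (Om I)) [IsFiniteMeasure M] (a : A → I) (b : B → I) :
    IsMarkovKernel (cd M a b) := by unfold cd; infer_instance
/-- fibre measures over the coordinates in `B` -/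
abbrev fib [Countable I] (M : Measure (Om I)) [IsFiniteMeasure M] (B : Set I) :
    Kernel (Om B) (Om I) := cd M id Subtype.val

/-! ### systems -/

structure Sys where
  I : Type
  cnt : Countable I
  τ : Equiv.Perm I
  μ : Measure (Om I)
  prob : IsProbabilityMeasure μ
  inv : μ.map (pull τ) = μ

attribute [instance] Sys.cnt Sys.prob

/-- the `t`-th power of the transformation -/
def Sys.sh (s : Sys) (t : ℤ) : Om s.I → Om s.I := pull (s.τ ^ t : Equiv.Perm s.I)
def Sys.Inv (s : Sys) (B : Set s.I) : Prop := ∀ a, s.τ a ∈ B ↔ a ∈ B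

theorem Sys.Inv.zpow {s : Sys} {B : Set s.I} (h : s.Inv B) (t : ℤ) (a : s.I) :
    (s.τ ^ t) a ∈ B ↔ a ∈ B := by
  induction t using Int.induction_on generalizing a with
  | zero => simp
  | succ n ih => rw [zpow_add_one, Equiv.Perm.mul_apply, ih, h]
  | pred n ih =>
    rw [zpow_sub_one, Equiv.Perm.mul_apply, ih, ← h]
    simp

/-- the transformation on the coordinates of an invariant set -/
def Sys.shB (s : Sys) {B : Set s.I} (h : s.Inv B) (t : ℤ) : Om B → Om B :=
  pull fun a : B => (⟨(s.τ ^ t) a, (h.zpow t a).2 a.2⟩ : B)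

/-- mixing of the factor `X` -/
def Sys.Mix (s : Sys) (X : Set s.I) : Prop :=
  ∀ m m', InB m X → InB m' X → Tendsto (fun n : ℕ => ∫ x, mon m x * mon m' (s.sh n x) ∂s.μ) atTop
    (𝓝 ((∫ x, mon m x ∂s.μ) * ∫ x, mon m' x ∂s.μ))

/-- `s'` extends `s` -/
structure Hom (s s' : Sys) where
  ι : s.I → s'.I
  comm : ∀ a, ι (s.τ a) = s'.τ (ι a)
  law : s'.μ.map (pull ι) = s.μ

def Hom.refl (s : Sys) : Hom s s := ⟨id, fun _ => rfl, Measure.map_id⟩
def Hom.trans {s s' s'' : Sys} (h : Hom s s') (g : Hom s' s'') : Hom s s'' :=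
  ⟨g.ι ∘ h.ι, fun a => by simp [h.comm, g.comm], by
    rw [← h.law, ← g.law, Measure.map_map (measurable_pull _) (measurable_pull _)]; rfl⟩

/-! ### limits along a pattern -/

/-- an ultrafilter of patterns of positions -/
structure Pat where
  Col : Type
  fin : Fintype Col
  dec : DecidableEq Col
  N : Type
  p : Ultrafilter N
  pos : Col → N → ℤ
  far : ∀ i j, i ≠ j → Tendsto (fun n => |pos i n - pos j n|) p atTop

attribute [instance] Pat.fin Pat.dec

/-- countably many sequences of random variables -/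
structure Seeds (P : Pat) (s : Sys) where
  S : Type
  cnt : Countable S
  ξ : S → P.N → Om s.I → K
  meas : ∀ σ n, Measurable (ξ σ n)

attribute [instance] Seeds.cnt

variable {P : Pat} {s s' : Sys}

abbrev LI (S : Seeds P s) : Type := (P.Col × s.I) ⊕ (ℤ × S.S)

def ev (S : Seeds P s) : LI S → P.N → Om s.I → K
  | .inl (j, a), n, x => s.sh (P.pos j n) x a
  | .inr (t, σ), n, x => S.ξ σ n (s.sh t x)

def evM (S : Seeds P s) (n : P.N) (x : Om s.I) : Om (LI S) := fun i => ev S i n x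

theorem measurable_sh (s : Sys) (t : ℤ) : Measurable (s.sh t) := measurable_pull _

theorem measurable_evM (S : Seeds P s) (n : P.N) : Measurable (evM S n) :=
  measurable_pi_lambda _ fun i => by
    rcases i with ⟨j, a⟩ | ⟨t, σ⟩
    · exact (measurable_pi_apply a).comp (measurable_sh s _)
    · exact (S.meas σ n).comp (measurable_sh s t)

def lawN (S : Seeds P s) (n : P.N) : ProbabilityMeasure (Om (LI S)) :=
  ⟨s.μ.map (evM S n), Measure.isProbabilityMeasure_map (measurable_evM S n).aemeasurable⟩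

def limP (S : Seeds P s) : ProbabilityMeasure (Om (LI S)) :=
  Ultrafilter.lim (P.p.map (lawN S) : Ultrafilter (ProbabilityMeasure (Om (LI S))))

theorem tendsto_lawN (S : Seeds P s) : Tendsto (lawN S) P.p (𝓝 (limP S)) :=
  Ultrafilter.le_nhds_lim (P.p.map (lawN S))

def limτ (S : Seeds P s) : Equiv.Perm (LI S) :=
  Equiv.sumCongr (Equiv.prodCongr (Equiv.refl _) s.τ) (Equiv.prodCongr (Equiv.addRight 1) (Equiv.refl _))

theorem Sys.sh_add (s : Sys) (t u : ℤ) (x : Om s.I) : s.sh t (s.sh u x) = s.sh (u + t) x := by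
  funext a; simp [Sys.sh, pull, zpow_add]
theorem Sys.sh_zero (s : Sys) (x : Om s.I) : s.sh 0 x = x := by
  funext a; simp [Sys.sh, pull]
theorem Sys.sh_one (s : Sys) : s.sh 1 = pull s.τ := by
  funext x a; simp [Sys.sh, pull]

theorem Sys.map_sh (s : Sys) (t : ℤ) : s.μ.map (s.sh t) = s.μ := by
  have h1 : s.μ.map (s.sh 1) = s.μ := by rw [s.sh_one]; exact s.inv
  have hc : ∀ t u : ℤ, s.sh t ∘ s.sh u = s.sh (u + t) := fun t u => funext (s.sh_add t u)
  have h0 : s.sh 0 = id := funext s.sh_zero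
  induction t using Int.induction_on with
  | zero => rw [h0, Measure.map_id]
  | succ n ih =>
    rw [← hc, ← Measure.map_map (measurable_sh s _) (measurable_sh s _), ih, h1]
  | pred n ih =>
    have : s.μ.map (s.sh (-(n : ℤ) - 1)) = (s.μ.map (s.sh 1)).map (s.sh (-(n : ℤ) - 1)) := by rw [h1]
    rw [this, Measure.map_map (measurable_sh s _) (measurable_sh s _), hc]
    rw [show (1 : ℤ) + (-(n : ℤ) - 1) = -(n : ℤ) by ring, ih]

theorem limP_map {J : Type} (S : Seeds P s) (a : J → LI S) (ν : P.N → ProbabilityMeasure (Om J))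
    (ν₀ : ProbabilityMeasure (Om J)) [Countable J]
    (h : ∀ n, (s.μ.map (evM S n)).map (pull a) = ν n) (hν : Tendsto ν P.p (𝓝 ν₀)) :
    (limP S : Measure _).map (pull a) = ν₀ := by
  have h1 := ProbabilityMeasure.tendsto_map_of_tendsto_of_continuous (lawN S) (limP S)
    (tendsto_lawN S) (continuous_pull a)
  have h2 : (fun n => (lawN S n).map (continuous_pull a).measurable.aemeasurable) = ν := by
    funext n; exact Subtype.ext (h n)
  rw [h2] at h1
  have := tendsto_nhds_unique h1 hν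
  rw [← this]; rfl

theorem pull_limτ_evM (S : Seeds P s) (n : P.N) :
    pull (limτ S) ∘ evM S n = evM S n ∘ s.sh 1 := by
  funext x i
  rcases i with ⟨j, a⟩ | ⟨t, σ⟩
  · show s.sh (P.pos j n) x (s.τ a) = s.sh (P.pos j n) (s.sh 1 x) a
    rw [s.sh_add, add_comm, ← s.sh_add, s.sh_one]; rfl
  · show S.ξ σ n (s.sh (t + 1) x) = S.ξ σ n (s.sh t (s.sh 1 x))
    rw [s.sh_add, add_comm]

/-- the limit system -/
@[reducible] def Lim (S : Seeds P s) : Sys where
  I := LI S
  cnt := inferInstance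
  τ := limτ S
  μ := limP S
  prob := inferInstance
  inv := limP_map S _ (lawN S) (limP S) (fun n => by
    rw [Measure.map_map (measurable_pull _) (measurable_evM S n), pull_limτ_evM,
      ← Measure.map_map (measurable_evM S n) (measurable_sh s 1), s.map_sh]; rfl) (tendsto_lawN S)

/-- the column `j` of the limit -/
@[reducible] def col (S : Seeds P s) (j : P.Col) : Hom s (Lim S) where
  ι a := .inl (j, a)
  comm _ := rfl
  law := limP_map S _ (fun _ => ⟨s.μ, s.prob⟩) ⟨s.μ, s.prob⟩ (fun n => by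
    rw [Measure.map_map (measurable_pull _) (measurable_evM S n)]
    exact s.map_sh (P.pos j n)) tendsto_const_nhds

/-- the variables of the limit whose sequences are `B`-measurable -/
def up (S : Seeds P s) (B : Set s.I) : Set (LI S) := {i | ∀ n, Measurable[sg B] (ev S i n)}
/-- the coordinates `B` in the columns `J` -/
def colS (S : Seeds P s) (J : Set P.Col) (B : Set s.I) : Set (LI S) :=
  {i | ∃ j ∈ J, ∃ a ∈ B, i = .inl (j, a)}

/-- the seeds of `s'` contain the pull-backs of the seeds of `s` -/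
structure Lift (h : Hom s s') (S : Seeds P s) (S' : Seeds P s') where
  lf : LI S → LI S'
  col : ∀ j a, lf (.inl (j, a)) = .inl (j, h.ι a)
  ev_eq : ∀ i n x, ev S' (lf i) n x = ev S i n (pull h.ι x)

/-- seeds pulled back along two maps -/
def Seeds.two (h : Bool → Hom s s') (S : Seeds P s) : Seeds P s' where
  S := Bool × ℤ × S.S
  cnt := inferInstance
  ξ := fun q n x => S.ξ q.2.2 n (s.sh q.2.1 (pull (h q.1).ι x))
  meas := fun q n => (S.meas _ n).comp ((measurable_sh s _).comp (measurable_pull _))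

/-- admissible new base -/
def Adm (X Y : Set s.I) (h : Hom s s') (Y' : Set s'.I) : Prop :=
  s'.Inv Y' ∧ h.ι '' Y ⊆ Y' ∧ Ind s'.μ (h.ι '' X) Y'

theorem measurable_coord {B : Set I} {a : I} (ha : a ∈ B) : Measurable[sg B] fun x : Om I => x a :=
  (measurable_pi_apply (⟨a, ha⟩ : B)).comp (comap_measurable (res B))

theorem measurable_pull_sg (a : A → I) {B : Set A} {B' : Set I} (h : a '' B ⊆ B') :
    @Measurable _ _ (sg B') (sg B) (pull a) := by
  refine measurable_comap_iff.2 ?_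
  exact @measurable_pi_lambda _ _ _ (sg B') _ _ fun i => measurable_coord (h ⟨i, i.2, rfl⟩)

theorem col_mem_up (S : Seeds P s) {B : Set s.I} (hB : s.Inv B) (j : P.Col) {a : s.I} (ha : a ∈ B) :
    (Sum.inl (j, a) : LI S) ∈ up S B := fun n => measurable_coord ((hB.zpow _ a).2 ha)

theorem Lift.mem_up {h : Hom s s'} {S : Seeds P s} {S' : Seeds P s'} (L : Lift h S S')
    {B : Set s.I} {B' : Set s'.I} (hB : h.ι '' B ⊆ B') {i : LI S} (hi : i ∈ up S B) :
    L.lf i ∈ up S' B' := fun n => by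
  have : ev S' (L.lf i) n = ev S i n ∘ pull h.ι := funext (L.ev_eq i n)
  rw [this]; exact (hi n).comp (measurable_pull_sg _ hB)

theorem Hom.comm_zpow (h : Hom s s') (t : ℤ) (a : s.I) : h.ι ((s.τ ^ t) a) = (s'.τ ^ t) (h.ι a) := by
  induction t using Int.induction_on generalizing a with
  | zero => simp
  | succ n ih => rw [zpow_add_one, zpow_add_one, Equiv.Perm.mul_apply, Equiv.Perm.mul_apply, ih, h.comm]
  | pred n ih =>
    rw [zpow_sub_one, zpow_sub_one, Equiv.Perm.mul_apply, Equiv.Perm.mul_apply, ih]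
    congr 1
    apply s'.τ.injective
    rw [← h.comm]; simp

theorem Hom.pull_sh (h : Hom s s') (t : ℤ) (x : Om s'.I) :
    pull h.ι (s'.sh t x) = s.sh t (pull h.ι x) := by
  funext a; simp [Sys.sh, pull, h.comm_zpow]

/-- the two lifts into the seeds of a pair -/
def Seeds.lf2 (h : Bool → Hom s s') (S : Seeds P s) (b : Bool) : Lift (h b) S (S.two h) where
  lf := fun i => match i with
    | .inl (j, a) => .inl (j, (h b).ι a)
    | .inr (t, σ) => .inr (0, (b, t, σ))
  col _ _ := rfl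
  ev_eq i n x := by
    rcases i with ⟨j, a⟩ | ⟨t, σ⟩
    · exact congrFun ((h b).pull_sh (P.pos j n) x) a
    · show S.ξ σ n (s.sh t (pull (h b).ι (s'.sh 0 x))) = _
      rw [s'.sh_zero]; rfl

/-! ### saturation, minimal counterexample, pairs -/

structure Sat (P : Pat) (s : Sys) (X Y : Set s.I) (S : Seeds P s) : Prop where
  invX : s.Inv X
  invY : s.Inv Y
  ind : Ind s.μ X Y
  max : ∀ (s' : Sys) (h : Hom s s') (Y' : Set s'.I), Adm X Y h Y' →
    CI s'.μ (range h.ι) Y' (h.ι '' Y)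
  cl : ∀ m : Multiset (P.Col × s.I), ∃ i ∈ up S Y, ∀ n, (fun x => (ev S i n x : ℝ)) =ᵐ[s.μ]
    s.μ[fun x => mon (m.map Sum.inl : Multiset (LI S)) (evM S n x) | sg Y]
  sat : ∀ (s' : Sys) (h : Hom s s') (Y' : Set s'.I) (S' : Seeds P s') (L : Lift h S S') (j : P.Col),
    Adm X Y h Y' → CI (Lim S').μ (colS S' {j} (range h.ι)) (colS S' {j}ᶜ univ ∪ up S' Y')
      (L.lf '' (colS S {j}ᶜ univ ∪ up S Y))

/-- no dependence among fewer than `l` columns, in any system -/
def MinInd (l : ℕ) : Prop :=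
  ∀ (P : Pat) (s : Sys) (X Y : Set s.I) (S : Seeds P s) (j : P.Col) (J : Finset P.Col),
    s.Inv X → s.Inv Y → s.Mix X → Ind s.μ X Y → j ∉ J → J.card + 2 ≤ l →
      Ind (Lim S).μ (colS S {j} X) (colS S J univ ∪ up S Y)

/-- a saturated minimal counterexample -/
structure Ctx where
  P : Pat
  s : Sys
  X : Set s.I
  Y : Set s.I
  S : Seeds P s
  r : P.Col
  three : 3 ≤ Fintype.card P.Col
  mix : s.Mix X
  sat : Sat P s X Y S
  min : MinInd (Fintype.card P.Col)
  dep : ¬ Ind (Lim S).μ (colS S {r} X) (colS S {r}ᶜ univ ∪ up S Y)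

namespace Ctx
variable (c : Ctx)
abbrev W : Set (LI c.S) := up c.S c.Y
abbrev mX : Measure (Om c.X) := c.s.μ.map (res c.X)
abbrev mY : Measure (Om c.Y) := c.s.μ.map (res c.Y)
abbrev mW : Measure (Om c.W) := (Lim c.S).μ.map (res c.W)
/-- fibres of the system over `Y` -/
abbrev fb : Kernel (Om c.Y) (Om c.s.I) := fib c.s.μ c.Y
/-- conditional law of the columns given the base of the limit -/
abbrev nu : Kernel (Om c.W) (Om (c.P.Col × c.s.I)) := cd (Lim c.S).μ Sum.inl Subtype.val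
abbrev wi (j : c.P.Col) (a : c.Y) : c.W := ⟨.inl (j, a), col_mem_up c.S c.sat.invY j a.2⟩
abbrev wj (j : c.P.Col) : Om c.W → Om c.Y := pull (c.wi j)
/-- conditional law of the base of the limit given its `j`-th column -/
abbrev kap (j : c.P.Col) : Kernel (Om c.Y) (Om c.W) :=
  cd (Lim c.S).μ Subtype.val (Subtype.val ∘ c.wi j)
end Ctx

/-- a good base for a pair of copies -/
structure Good (c : Ctx) {E : Sys} (h : Bool → Hom c.s E) (y : Set E.I) : Prop where
  adm : ∀ b, Adm c.X c.Y (h b) y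
  colInd : ∀ (j : c.P.Col) (J : Finset c.P.Col), j ∉ J → J.card + 2 ≤ Fintype.card c.P.Col →
    CI (Lim (c.S.two h)).μ (colS (c.S.two h) {j} univ)
      (colS (c.S.two h) J univ ∪ up (c.S.two h) y) (colS (c.S.two h) {j} y)

section
variable {c : Ctx} {E : Sys}
/-- the limit of a pair -/
abbrev GG (h : Bool → Hom c.s E) : Sys := Lim (c.S.two h)
abbrev ZZ (h : Bool → Hom c.s E) (y : Set E.I) : Set (LI (c.S.two h)) := up (c.S.two h) y
abbrev mZ (h : Bool → Hom c.s E) (y : Set E.I) : Measure (Om (ZZ h y)) := (GG h).μ.map (res (ZZ h y))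
abbrev gi (h : Bool → Hom c.s E) (q : Bool × c.P.Col × c.s.I) : LI (c.S.two h) :=
  .inl (q.2.1, (h q.1).ι q.2.2)
/-- conditional law of the grid given the base -/
abbrev gr (h : Bool → Hom c.s E) (y : Set E.I) : Kernel (Om (ZZ h y)) (Om (Bool × c.P.Col × c.s.I)) :=
  cd (GG h).μ (gi h) Subtype.val
abbrev pi2 (h : Bool → Hom c.s E) (q : Bool × c.s.I) : E.I := (h q.1).ι q.2
/-- conditional law of the pair given the base -/
abbrev lam (h : Bool → Hom c.s E) (y : Set E.I) : Kernel (Om y) (Om (Bool × c.s.I)) :=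
  cd E.μ (pi2 h) Subtype.val
abbrev my (E : Sys) (y : Set E.I) : Measure (Om y) := E.μ.map (res y)
variable {h : Bool → Hom c.s E} {y : Set E.I}
abbrev Good.wI (g : Good c h y) (b : Bool) (i : c.W) : ZZ h y :=
  ⟨(c.S.lf2 h b).lf i, (c.S.lf2 h b).mem_up (g.adm b).2.1 i.2⟩
abbrev Good.wb (g : Good c h y) (b : Bool) : Om (ZZ h y) → Om c.W := pull (g.wI b)
abbrev Good.yI (g : Good c h y) (j : c.P.Col) (a : y) : ZZ h y :=
  ⟨.inl (j, a), col_mem_up _ (g.adm false).1 j a.2⟩
abbrev Good.yj (g : Good c h y) (j : c.P.Col) : Om (ZZ h y) → Om y := pull (g.yI j)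
abbrev Good.vI (g : Good c h y) (b : Bool) (a : c.Y) : y := ⟨(h b).ι a, (g.adm b).2.1 ⟨a, a.2, rfl⟩⟩
abbrev Good.wy (g : Good c h y) (b : Bool) : Om y → Om c.Y := pull (g.vI b)
end

/-- the pair with common factor `X` -/
structure PairD (c : Ctx) where
  E : Sys
  h : Bool → Hom c.s E
  y : Set E.I
  good : Good c h y
  diag : ∀ a ∈ c.X, (h false).ι a = (h true).ι a
  ci : CI E.μ (range (h true).ι) (range (h false).ι) ((h true).ι '' c.X)

/-- the pair with two bases -/
structure PairE (c : Ctx) where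
  E : Sys
  h : Bool → Hom c.s E
  y : Set E.I
  ω : Set E.I
  good : Good c h y
  goodω : Good c h ω
  sub : ω ⊆ y
  adm2 : ∀ b, Adm c.X c.Y (h b) (range (h (!b)).ι ∪ ω)
  top : ∀ F : Om c.s.I → ℝ, Measurable F → MemLp F 2 c.s.μ →
    en (Lim c.S).μ (F ∘ pull (col c.S c.r).ι) (colS c.S {c.r}ᶜ univ ∪ c.W) ≤
      en E.μ (F ∘ pull (h false).ι) (range (h true).ι ∪ y)

/-! ### fibre level -/

section Fibre
variable {C Zt Yt : Type}

abbrev row (b : Bool) : Om (Bool × C × I) → Om (C × I) := pull fun q => (b, q)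
abbrev colm (j : C) : Om (Bool × C × I) → Om (Bool × I) := pull fun q => (q.1, j, q.2)
abbrev cell (j : C) : Om (C × I) → Om I := pull fun a => (j, a)
abbrev side (b : Bool) : Om (Bool × I) → Om I := pull fun a => (b, a)
def gS (Bs : Set Bool) (J : Set C) : Set (Bool × C × I) := {q | q.1 ∈ Bs ∧ q.2.1 ∈ J}
def rS (J : Set C) : Set (C × I) := {q | q.1 ∈ J}
def sS (b : Bool) (X : Set I) : Set (Bool × I) := {q | q.1 = b ∧ q.2 ∈ X}

/-- any `l - 1` cells of the row are independent -/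
def IndR [Fintype C] (ν : Measure (Om (C × I))) : Prop :=
  ∀ (j : C) (J : Finset C), j ∉ J → J.card + 2 ≤ Fintype.card C → Ind ν (rS {j}) (rS J)

structure Grid [Fintype C] (ν : Bool → Measure (Om (C × I))) (M : Measure (Om (Bool × C × I))) :
    Prop where
  rows : ∀ b, M.map (row b) = ν b
  h2 : ∀ b j, CI M (gS {b} {j}) (gS {!b} univ) (gS {!b} {j})
  h3 : ∀ (j : C) (J : Finset C), j ∉ J → J.card + 2 ≤ Fintype.card C →
    Ind M (gS univ {j}) (gS univ J)
  h4 : ∀ b j, CI M (gS {b} {j}) (gS univ {j}ᶜ) (gS {b} {j}ᶜ)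

/-- relation tuple -/
structure RelT [Fintype C] (ν : Measure (Om (C × I))) (χ : C → Om I → ℂ) : Prop where
  meas : ∀ j, Measurable (χ j)
  uni : ∀ j x, ‖χ j x‖ = 1
  rel : ∀ᵐ a ∂ν, ∏ j, χ j (cell j a) = 1

/-- a function that can be a label -/
def Lbl (ψ : Om A → ℂ) : Prop := Measurable ψ ∧ ∀ x, ‖ψ x‖ ≤ 1
/-- `ψ` is the conditional expectation of `χ` given `X` -/
def Lab (κ : Measure (Om I)) (X : Set I) (χ : Om I → ℂ) (ψ : Om X → ℂ) : Prop :=
  ∀ g : Om X → ℂ, Lbl g → ∫ x, χ x * g (res X x) ∂κ = ∫ x, ψ (res X x) * g (res X x) ∂κ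
/-- proportional -/
def Prp (κ : Measure (Om I)) (f g : Om I → ℂ) : Prop := ∃ c : ℂ, ∀ᵐ x ∂κ, f x = c * g x

/-- complete enumeration of the relation tuples with label `ψ` at slot `r` -/
structure Enum [Fintype C] (ν : Measure (Om (C × I))) (X : Set I) (r : C) (ψ : Om X → ℂ) (N : ℕ)
    (e : Fin N → C → Om I → ℂ) : Prop where
  rel : ∀ k, RelT ν (e k)
  lab : ∀ k, Lab (ν.map (cell r)) X (e k r) ψ
  orth : ∀ k k', k ≠ k' → ∀ j, ∫ x, e k j x * (starRingEnd ℂ) (e k' j x) ∂ν.map (cell j) = 0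
  all : ∀ χ, RelT ν χ → Lab (ν.map (cell r)) X (χ r) ψ →
    ∃ k, χ r =ᵐ[ν.map (cell r)] e k r ∧ ∀ j, Prp (ν.map (cell j)) (χ j) (e k j)

/-- an enumeration whose sum at slot `r` is `N ψ` -/
def EnumS [Fintype C] (ν : Measure (Om (C × I))) (X : Set I) (r : C) (ψ : Om X → ℂ) (N : ℕ)
    (e : Fin N → C → Om I → ℂ) : Prop :=
  Enum ν X r ψ N e ∧ ∀ᵐ x ∂ν.map (cell r), ∑ k, e k r x = N * ψ (res X x)

/-- eigen-character of a family of couplings -/
def TopChar (m : Measure (Om Yt)) (lam : Kernel (Om Yt) (Om (Bool × I))) (χ : Om I → ℂ) : Prop :=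
  ∃ h : Om I → ℂ, Measurable h ∧
    ∀ᵐ η ∂m, ∃ c : ℂ, ∀ᵐ q ∂lam η, χ (side false q) = c * h (side true q)

/-- the two-scale structure -/
structure Two [Fintype C] (ρ : Measure (Om Zt)) (yi : C → Yt → Zt)
    (lam : Kernel (Om Yt) (Om (Bool × I))) (M : Kernel (Om Zt) (Om (Bool × C × I)))
    (ν : Bool → Measure (Om (C × I))) : Prop where
  grid : ∀ᵐ z ∂ρ, Grid ν (M z) ∧ ∀ j, (M z).map (colm j) = lam (pull (yi j) z)
  ind : ∀ (j : C) (J : Finset C), j ∉ J → J.card + 2 ≤ Fintype.card C →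
    Ind ρ (range (yi j)) (⋃ i ∈ J, range (yi i))
  prod : Ind (ρ.bind M) (gS {false} univ) (gS {true} univ)

/-- the character of an element of the free abelian group -/
def chr {G : Type} (E : G → Om I → ℂ) (x : G →₀ ℤ) (a : Om I) : ℂ := x.prod fun g n => E g a ^ n

/-- the generators on two fibres are linked -/
def LK {N : ℕ} (X : Set I) (r : C) (κ κ' : Measure (Om I)) (E E' : C × ℤ × Fin N → Om I → ℂ) :
    Prop :=
  ∃ L : Set (Measure (Om (Bool × I))), L.Nonempty ∧
    (∀ γ ∈ L, γ.map (side false) = κ ∧ γ.map (side true) = κ' ∧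
      ∃ π : C × ℤ → Equiv.Perm (Fin N), ∀ i t k, ∃ c : ℂ, (i = r → c = 1) ∧
        ∀ᵐ q ∂γ, E (i, t, k) (side false q) = c * E' (i, t, π (i, t) k) (side true q)) ∧
    ∀ F F' : Om I → ℂ, Measurable F → Measurable F' → (∃ D : ℝ, ∀ x, ‖F x‖ ≤ D ∧ ‖F' x‖ ≤ D) →
      (∀ γ ∈ L, ∀ᵐ q ∂γ, F (side false q) = F' (side true q)) →
      ∃ h : Om X → ℂ, Measurable h ∧ (∀ᵐ x ∂κ, F x = h (res X x)) ∧ ∀ᵐ x ∂κ', F' x = h (res X x)

/-- characters with non-zero mean are constant -/
def Orth {G : Type} (κ : Measure (Om I)) (E : G → Om I → ℂ) : Prop :=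
  ∀ x : G →₀ ℤ, ∫ a, chr E x a ∂κ ≠ 0 → ∃ c : ℂ, ∀ᵐ a ∂κ, chr E x a = c

/-- the generators on the fibre over `w` -/
def gen {N : ℕ} (s : Sys) {Y : Set s.I} (hY : s.Inv Y) (b : C → Om Y → Fin N → Om s.I → ℂ)
    (w : Om Y) (g : C × ℤ × Fin N) (x : Om s.I) : ℂ :=
  b g.1 (s.shB hY g.2.1 w) g.2.2 (s.sh g.2.1 x)

end Fibre

/-- a non-random label -/
structure Lb (c : Ctx) where
  ψ : Om c.X → ℂ
  N : ℕ
  lbl : Lbl ψ
  ne : ¬ ψ =ᵐ[c.mX] 0
  mean : ∫ x, ψ x ∂c.mX = 0
  pos : 0 < N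
  enum : ∀ᵐ v ∂c.mW, ∃ e, EnumS (c.nu v) c.X c.r ψ N e

/-- blocks of characters on the fibres -/
structure Blk (c : Ctx) extends Lb c where
  b : c.P.Col → Om c.Y → Fin N → Om c.s.I → ℂ
  bm : ∀ i w k, Measurable (b i w k)
  bu : ∀ i w k x, ‖b i w k x‖ = 1
  blk : ∀ i, ∀ᵐ w ∂c.mY, ∀ᵐ v ∂c.kap i w, ∃ e, EnumS (c.nu v) c.X c.r ψ N e ∧
    ∀ k, ∃ a : ℂ, (i = c.r → a = 1) ∧ ∀ᵐ x ∂c.fb w, e k i x = a * b i w k x

/-- the data of the last step -/
structure CoreD where
  P : Pat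
  s : Sys
  X : Set s.I
  Y : Set s.I
  invX : s.Inv X
  invY : s.Inv Y
  ind : Ind s.μ X Y
  mix : s.Mix X
  r : P.Col
  N : ℕ
  ψ : Om X → ℂ
  lbl : Lbl ψ
  ne : ¬ ψ =ᵐ[s.μ.map (res X)] 0
  mean : ∫ x, ψ x ∂s.μ.map (res X) = 0
  b : P.Col → Om Y → Fin N → Om s.I → ℂ
  bm : ∀ i w k, Measurable (b i w k)
  bu : ∀ i w k x, ‖b i w k x‖ = 1
  lab : ∀ᵐ w ∂s.μ.map (res Y), ∀ k, Lab (fib s.μ Y w) X (b r w k) ψ
  lk : ∀ᵐ w ∂s.μ.map (res Y), ∀ᵐ w' ∂s.μ.map (res Y),
    LK X r (fib s.μ Y w) (fib s.μ Y w') (gen s invY b w) (gen s invY b w')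
  orth : ∀ᵐ w ∂s.μ.map (res Y), Orth (fib s.μ Y w) (gen s invY b w)
  d4 : ∀ᶠ n in P.p, ¬ ∀ᵐ w ∂s.μ.map (res Y), ∀ k : P.Col → Fin N,
    ∫ x, ∏ i, gen s invY b w (i, P.pos i n, k i) x ∂fib s.μ Y w = 0

/-! ### maximal extensions -/

/-- constraints on a family of marked factors -/
structure Spec (s₀ : Sys) where
  Λ : Type
  Cn : Type
  A : Cn → Set s₀.I
  B : Cn → Set s₀.I
  lam : Cn → Λ
  le : Λ → Λ → Prop

structure St {s₀ : Sys} (Q : Spec s₀) where
  s : Sys
  h : Hom s₀ s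
  Y : Q.Λ → Set s.I
  inv : ∀ l, s.Inv (Y l)
  ind : ∀ c, Ind s.μ (h.ι '' Q.A c) (h.ι '' Q.B c ∪ Y (Q.lam c))
  le : ∀ l l', Q.le l l' → Y l ⊆ Y l'

structure Mor {s₀ : Sys} {Q : Spec s₀} (σ σ' : St Q) where
  g : Hom σ.s σ'.s
  comm : ∀ a, g.ι (σ.h.ι a) = σ'.h.ι a
  sub : ∀ l, g.ι '' σ.Y l ⊆ σ'.Y l

end Crest.Agent.R69
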