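import Crest.Agent.R69.F1I

/-! # Row 69, fibre theorem: two relation tuples that correlate are proportional -/

set_option autoImplicit false
set_option linter.unusedVariables false
set_option linter.unusedSectionVars false

open MeasureTheory ProbabilityTheory Filter Topology Set Function
open scoped InnerProductSpace InnerProduct ComplexConjugate

noncomputable section

namespace Crest.Agent.R69

variable {C I : Type} [Fintype C] [DecidableEq C] [Countable I]
  {ν : Measure (Om (C × I))} [IsProbabilityMeasure ν]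

theorem RelT.conj {χ : C → Om I → ℂ} (h : RelT ν χ) : RelT ν fun j x => conj (χ j x) := by
  refine ⟨fun j => Complex.continuous_conj.measurable.comp (h.meas j), fun j x => ?_, ?_⟩
  · rw [Complex.norm_conj, h.uni]
  · filter_upwards [h.rel] with a ha
    rw [← map_prod, ha, map_one]

theorem RelT.mul {χ χ' : C → Om I → ℂ} (h : RelT ν χ) (h' : RelT ν χ') :
    RelT ν fun j x => χ j x * χ' j x := by
  refine ⟨fun j => (h.meas j).mul (h'.meas j), fun j x => ?_, ?_⟩
  · rw [norm_mul, h.uni, h'.uni, one_mul]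
  · filter_upwards [h.rel, h'.rel] with a ha ha'
    rw [Finset.prod_mul_distrib, ha, ha', one_mul]

theorem fxa_prod (hν : IndR ν) {ψ : C → Om I → ℂ} (hm : ∀ j, Measurable (ψ j)) (k : C) :
    ∫ a, ∏ i ∈ Finset.univ.erase k, ψ i (cell i a) ∂ν =
      ∏ i ∈ Finset.univ.erase k, ∫ a, ψ i (cell i a) ∂ν := by
  refine integral_prod_of_ind _ (fun i => rS {i}) (fun j hj t ht hjt => ?_) _ fun j _ => ?_
  · have hc : (insert k (insert j t)).card ≤ Fintype.card C := Finset.card_le_univ _
    have hk : k ∉ insert j t := fun h => by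
      rcases Finset.mem_insert.1 h with h | h
      · exact Finset.ne_of_mem_erase hj h.symm
      · exact Finset.ne_of_mem_erase (ht h) rfl
    rw [Finset.card_insert_of_notMem hk, Finset.card_insert_of_notMem hjt] at hc
    refine (hν j t hjt hc).mono Subset.rfl fun q hq => ?_
    simp only [mem_iUnion] at hq
    obtain ⟨i, hi, hq⟩ := hq
    obtain rfl : q.1 = i := hq
    exact hi
  · rw [sg_rS_single]
    exact ((hm j).comp (comap_measurable (cell j))).aestronglyMeasurable

theorem fxa_sq (hν : IndR ν) {ψ : C → Om I → ℂ} (h : RelT ν ψ) (k : C) :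
    ‖∫ a, ψ k (cell k a) ∂ν‖ ^ 2 = ∏ i, ‖∫ a, ψ i (cell i a) ∂ν‖ := by
  have e : conj (∫ a, ψ k (cell k a) ∂ν) = ∏ i ∈ Finset.univ.erase k, ∫ a, ψ i (cell i a) ∂ν := by
    rw [← fxa_prod hν h.meas k, ← integral_conj]
    refine integral_congr_ae ?_
    filter_upwards [h.rel] with a ha
    rw [← Finset.mul_prod_erase _ _ (Finset.mem_univ k)] at ha
    have e : conj (ψ k (cell k a)) * ψ k (cell k a) = 1 := by
      rw [mul_comm, Complex.mul_conj, Complex.normSq_eq_norm_sq, h.uni]; simp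
    rw [← mul_one (conj _), ← ha, ← mul_assoc, e, one_mul]
  rw [← Finset.mul_prod_erase _ _ (Finset.mem_univ k), ← norm_prod, ← e, Complex.norm_conj, sq]

/-- a relation tuple with one non-zero mean is constant -/
theorem RelT.const (h3 : 3 ≤ Fintype.card C) (hν : IndR ν) {ψ : C → Om I → ℂ} (h : RelT ν ψ) (r : C)
    (ne : ∫ x, ψ r x ∂ν.map (cell r) ≠ 0) (j : C) : ∃ c : ℂ, ∀ᵐ x ∂ν.map (cell j), ψ j x = c := by
  have hi : ∀ i, ∫ x, ψ i x ∂ν.map (cell i) = ∫ a, ψ i (cell i a) ∂ν := fun i =>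
    integral_map (measurable_pull _).aemeasurable (h.meas i).aestronglyMeasurable
  rw [hi] at ne
  have he : ∀ i, ‖∫ a, ψ i (cell i a) ∂ν‖ = ‖∫ a, ψ r (cell r a) ∂ν‖ := fun i =>
    (sq_eq_sq₀ (norm_nonneg _) (norm_nonneg _)).1 ((fxa_sq hν h i).trans (fxa_sq hν h r).symm)
  have h1 := fxa_sq hν h r
  rw [Finset.prod_congr rfl fun i _ => he i, Finset.prod_const, Finset.card_univ] at h1
  have h2 : ‖∫ a, ψ r (cell r a) ∂ν‖ = 1 := by
    by_contra hne
    have := pow_right_injective₀ (norm_pos_iff.2 ne) hne h1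
    omega
  rcases ae_eq_const_or_norm_integral_lt_of_norm_le_const (μ := ν.map (cell j)) (f := ψ j) (C := 1)
    (Eventually.of_forall fun x => (h.uni j x).le) with h4 | h4
  · exact ⟨_, h4⟩
  · rw [hi, he, h2] at h4
    simp at h4

theorem RelT.prp (h3 : 3 ≤ Fintype.card C) (hν : IndR ν) {χ χ' : C → Om I → ℂ} (h : RelT ν χ)
    (h' : RelT ν χ') (r : C) (ne : ∫ x, conj (χ' r x) * χ r x ∂ν.map (cell r) ≠ 0) (j : C) :
    ∃ c : ℂ, ∀ᵐ x ∂ν.map (cell j), χ j x = c * χ' j x := by
  obtain ⟨c, hc⟩ := (h'.conj.mul h).const h3 hν r ne j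
  refine ⟨c, ?_⟩
  filter_upwards [hc] with x hx
  have e : χ' j x * conj (χ' j x) = 1 := by
    rw [Complex.mul_conj, Complex.normSq_eq_norm_sq, h'.uni]; simp
  rw [← hx, mul_right_comm, mul_comm (conj _), e, one_mul]

end Crest.Agent.R69
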