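import Crest.Agent.R69.F1A
import Crest.Agent.R69.F1X

/-! # Row 69: the fibre theorem of step (3) (owners helper1, helper25) -/

set_option autoImplicit false
set_option linter.unusedVariables false
set_option linter.unusedSectionVars false

open MeasureTheory ProbabilityTheory Filter Topology Set

noncomputable section

namespace Crest.Agent.R69

variable {C I Zt Yt : Type} [Fintype C] [DecidableEq C] [Countable I] [Countable Zt] [Countable Yt]
  {ρ : Measure (Om Zt)} [IsProbabilityMeasure ρ] {yi : C → Yt → Zt}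
  {lam : Kernel (Om Yt) (Om (Bool × I))} [IsMarkovKernel lam]
  {M : Kernel (Om Zt) (Om (Bool × C × I))} [IsMarkovKernel M]
  {ν : Bool → Measure (Om (C × I))} [∀ b, IsProbabilityMeasure (ν b)]

local instance f1_two_ne_top : Fact ((2 : ENNReal) ≠ ⊤) := ⟨by simp⟩
local instance f1_cg : MeasurableSpace.CountablyGenerated (Om I) := inferInstance
local instance f1_sep (μ : Measure (Om I)) [IsProbabilityMeasure μ] :
    TopologicalSpace.SeparableSpace (Lp ℂ 2 μ) := inferInstance

/-- if no relation tuple correlates with `F` at slot `r` then `L1 (u, F) = 0`. -/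
theorem f1a (h3 : 3 ≤ Fintype.card C) (T : Two ρ yi lam M ν) (r : C) (F : Om I → ℝ)
    (hF : Measurable F) (hF2 : MemLp F 2 ((ν false).map (cell r)))
    (horth : ∀ χ, RelT (ν false) χ → ∫ x, χ r x * (F x : ℂ) ∂(ν false).map (cell r) = 0) :
    ∀ᵐ z ∂ρ, ∀ m : Multiset (C × I), InB m (rS {r}ᶜ) →
      ∫ q, ((M z)[fun q => F (cell r (row false q)) | sg (gS {true} {r})]) q * mon m (row false q)
        ∂M z = 0 := by
  obtain ⟨Λ, Λ', hΛ, hΛ', A⟩ := T.exists_ah h3
  have : Nonempty C := ⟨r⟩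
  have hFc : MemLp (fun x => (F x : ℂ)) 2 (kc ν false r) := hF2.ofReal
  have hc : ∀ χ₀, TopT Λ (Aop lam ν) ρ (fun j => pull (yi j)) χ₀ →
      inner ℂ (χ₀ r) (hFc.toLp _) = 0 := by
    intro χ₀ ht
    obtain ⟨χ', hrel, hχ'⟩ := T.top_rel hΛ χ₀ ht
    obtain ⟨a, ha, hae⟩ := (hχ' r).2
    have h0 := horth _ hrel.conj
    have e : ∫ x, (starRingEnd ℂ) (χ' r x) * (F x : ℂ) ∂(ν false).map (cell r) =
        (starRingEnd ℂ) a * inner ℂ (χ₀ r) (hFc.toLp _) := by
      rw [L2.inner_def, ← integral_const_mul]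
      refine integral_congr_ae ?_
      filter_upwards [hae, hFc.coeFn_toLp] with x e1 e2
      rw [e1, e2, RCLike.inner_apply, map_mul]; ring
    rw [e] at h0
    exact (mul_eq_zero.1 h0).resolve_left ((map_ne_zero _).2 ha)
  filter_upwards [A.core2 r _ hc, T.grid] with z hz hg m hm
  obtain ⟨G, hcol⟩ := hg
  obtain ⟨w, hw, hw0⟩ := exists_mon_prod m
  have hwr : w r = 0 := hw0 r fun q hq => hm q hq
  have hu : ∀ i, MemLp (fun x => (mon (w i) x : ℂ)) 2 (kc ν false i) :=
    fun i => (memLp_mon _ _ 2).ofReal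
  have h1 := hz fun i => (hu i).toLp _
  rw [hΛ.update, cpl_adjoint, G.aop_eq r (hcol r),
    cpl_map (φ := colm r) ⟨measurable_pull _, hcol r⟩ (G.mp_side r (hcol r) true)
      (G.mp_side r (hcol r) false)] at h1
  have h2 := (G.step1 (b := false) (b' := true) rfl r (fun i => (hu i).toLp _) _).symm.trans h1
  have h4 := cpl_condExp (G.mp_cell true r) (G.mp_cell false r) (hFc.toLp _)
  have h5 : (fun q => (hFc.toLp _ : Lp ℂ 2 _) (Xc false r q)) =ᵐ[M z]
      fun q => (F (cell r (row false q)) : ℂ) :=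
    (G.mp_cell false r).quasiMeasurePreserving.ae hFc.coeFn_toLp
  have hi : Integrable (fun q => F (cell r (row false q))) (M z) :=
    (hF2.comp_measurePreserving (G.mp_cell false r)).integrable one_le_two
  have h6 := Complex.ofRealCLM.comp_condExp_comm (m := sg (gS {true} {r})) hi
  have h7 : ∀ᵐ q ∂M z, ∀ i, ((hu i).toLp _ : Lp ℂ 2 _) (Xc false i q) =
      (mon (w i) (cell i (row false q)) : ℂ) :=
    ae_all_iff.2 fun i => (G.mp_cell false i).quasiMeasurePreserving.ae (hu i).coeFn_toLp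
  rw [← sg_gS_single] at h4
  have h8 := (condExp_congr_ae (m := sg (gS {true} {r})) h5).symm.trans h4
  apply Complex.ofReal_injective
  rw [← integral_complex_ofReal, Complex.ofReal_zero, ← h2]
  refine integral_congr_ae ?_
  filter_upwards [h6, h7, h8] with q e6 e7 e8
  rw [Complex.ofReal_mul, hw, ← Finset.mul_prod_erase _ _ (Finset.mem_univ r), hwr, mon_zero,
    one_mul, Complex.ofReal_prod]
  congr 1
  · exact e6.trans e8
  · exact Finset.prod_congr rfl fun i _ => (e7 i).symm

/-- a relation tuple consists of eigen-characters or is killed by almost every coupling. -/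
theorem f1b (h3 : 3 ≤ Fintype.card C) (T : Two ρ yi lam M ν) (r : C) (χ : C → Om I → ℂ)
    (hχ : RelT (ν false) χ) :
    (∀ j, TopChar (ρ.map (pull (yi j))) lam (χ j)) ∨
      ∀ᵐ η ∂ρ.map (pull (yi r)),
        (lam η)[fun q => χ r (side false q) | sg (sS true univ)] =ᵐ[lam η] 0 := by
  obtain ⟨Λ, Λ', hΛ, hΛ', A⟩ := T.exists_ah h3
  have : Nonempty C := ⟨r⟩
  obtain ⟨z₀, G₀, -⟩ := T.grid.exists
  have hI : IndR (ν false) := G₀.indR false
  have h2 : ∀ j, MemLp (χ j) 2 (kc ν false j) := fun j =>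
    MemLp.of_bound (hχ.meas j).aestronglyMeasurable 1
      (Eventually.of_forall fun x => (hχ.uni j x).le)
  by_cases hc : ∀ χ₀, TopT Λ (Aop lam ν) ρ (fun j => pull (yi j)) χ₀ →
      inner ℂ (χ₀ r) ((h2 r).toLp _) = 0
  · right
    have hW : ∀ w : Lp ℂ 2 (kc ν false r), (∀ v, Λ (Function.update v r w) = 0) →
        inner ℂ w ((h2 r).toLp _) = 0 := by
      intro w hw
      have h1 := hw fun j => (h2 j).toLp _
      rw [hΛ.update] at h1
      rw [inner_eq_zero_symm, ← h1, L2.inner_def, integral_map (measurable_pull _).aemeasurable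
        ((Lp.aestronglyMeasurable _).inner (Lp.aestronglyMeasurable _))]
      refine integral_congr_ae ?_
      have h7 : ∀ᵐ a ∂ν false, ∀ i, ((h2 i).toLp _ : Lp ℂ 2 _) (cell i a) = χ i (cell i a) :=
        ae_all_iff.2 fun i => ae_of_ae_map (measurable_pull _).aemeasurable (h2 i).coeFn_toLp
      filter_upwards [h7, hχ.rel] with a e1 e2
      rw [RCLike.inner_apply, e1 r, Finset.prod_congr rfl fun i _ => e1 i]
      congr 1
      rw [← Finset.mul_prod_erase _ _ (Finset.mem_univ r)] at e2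
      have e : χ r (cell r a) * (starRingEnd ℂ) (χ r (cell r a)) = 1 := by
        rw [Complex.mul_conj, Complex.normSq_eq_norm_sq, hχ.uni]; simp
      calc (starRingEnd ℂ) (χ r (cell r a))
          = (starRingEnd ℂ) (χ r (cell r a)) *
            (χ r (cell r a) * ∏ x ∈ Finset.univ.erase r, χ x (cell x a)) := by rw [e2, mul_one]
        _ = _ := by rw [← mul_assoc, mul_comm (starRingEnd ℂ _), e, one_mul]
    filter_upwards [A.core1 r _ hW hc, T.marg r] with η h1 hmp
    rw [cpl_adjoint] at h1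
    have h4 := cpl_condExp (hmp true) (hmp false) ((h2 r).toLp _)
    have h5 : (fun q => ((h2 r).toLp _ : Lp ℂ 2 _) (side false q)) =ᵐ[lam η]
        fun q => χ r (side false q) :=
      (hmp false).quasiMeasurePreserving.ae (h2 r).coeFn_toLp
    rw [h1, ← sg_sS_univ] at h4
    refine ((condExp_congr_ae h5).symm.trans h4).trans ?_
    exact (hmp true).quasiMeasurePreserving.ae (Lp.coeFn_zero ℂ 2 _)
  · left
    push Not at hc
    obtain ⟨χ₀, ht, hne⟩ := hc
    obtain ⟨χ', hrel, hχ'⟩ := T.top_rel hΛ χ₀ ht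
    intro j
    obtain ⟨a, ha, hae⟩ := (hχ' r).2
    have e : ∫ x, (starRingEnd ℂ) (χ' r x) * χ r x ∂(ν false).map (cell r) =
        (starRingEnd ℂ) a * inner ℂ (χ₀ r) ((h2 r).toLp _) := by
      rw [L2.inner_def, ← integral_const_mul]
      refine integral_congr_ae ?_
      filter_upwards [hae, (h2 r).coeFn_toLp] with x e1 e2
      rw [e1, e2, RCLike.inner_apply, map_mul]; ring
    obtain ⟨c, hc⟩ := hχ.prp h3 hI hrel r
      (e ▸ mul_ne_zero ((map_ne_zero _).2 ha) hne) j
    obtain ⟨⟨h, hm, hh⟩, -⟩ := hχ' j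
    refine ⟨h, hm, ?_⟩
    filter_upwards [hh, T.marg j] with η hη hmp
    obtain ⟨c', hc'⟩ := hη
    refine ⟨c * c', ?_⟩
    filter_upwards [hc', (hmp false).quasiMeasurePreserving.ae hc] with q e1 e2
    rw [e2, e1, mul_assoc]

end Crest.Agent.R69
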