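import Crest.Agent.R69.F1D

/-! # Row 69, fibre theorem: resampling -/

set_option autoImplicit false
set_option linter.unusedVariables false
set_option linter.unusedSectionVars false

open MeasureTheory ProbabilityTheory Filter Topology Set Function
open scoped InnerProductSpace InnerProduct ComplexConjugate

noncomputable section

namespace Crest.Agent.R69

variable {C I Zt Yt : Type} [Fintype C] [DecidableEq C] [Countable I] [Countable Zt] [Countable Yt]
  {ρ : Measure (Om Zt)} [IsProbabilityMeasure ρ] {yi : C → Yt → Zt}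
  {lam : Kernel (Om Yt) (Om (Bool × I))} [IsMarkovKernel lam]
  {M : Kernel (Om Zt) (Om (Bool × C × I))} [IsMarkovKernel M]
  {ν : Bool → Measure (Om (C × I))} [∀ b, IsProbabilityMeasure (ν b)]

theorem Two.indep (h3 : 3 ≤ Fintype.card C) (T : Two ρ yi lam M ν) (i j : C) (hij : i ≠ j) :
    IndepFun (pull (yi i)) (pull (yi j)) ρ := by
  have h := T.ind i {j} (by simpa using hij) (by simpa using h3)
  simp only [Finset.mem_singleton, iUnion_iUnion_eq_left] at h
  exact (indepFun_iff_map_prod_eq_prod_map_map (measurable_pull _).aemeasurable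
    (measurable_pull _).aemeasurable).2 ((ind_iff_map_prod _ _).1 h)

theorem Two.res (T : Two ρ yi lam M ν) (i j : C) (hij : i ≠ j) {p : Om Zt → Prop}
    (hp : ∀ᵐ z ∂ρ, p z) :
    ∃ (π : Measure (Om Zt)) (τ : C → Om Yt), π.map (pull (yi j)) = ρ.map (pull (yi j)) ∧
      ∀ᵐ z ∂π, p z ∧ ∀ k, k ≠ i → k ≠ j → pull (yi k) z = τ k := by
  let b : {k : C // k ≠ i ∧ k ≠ j} × Yt → Zt := fun q => yi q.1.1 q.2
  have hc : (Finset.univ \ {i, j} : Finset C).card + 2 ≤ Fintype.card C := by
    rw [Finset.card_univ_sdiff, Finset.card_pair hij]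
    have := Finset.card_le_univ ({i, j} : Finset C)
    rw [Finset.card_pair hij] at this
    omega
  have hI : Ind ρ (range (yi j)) (range b) := by
    refine (T.ind j (Finset.univ \ {i, j}) (by simp) hc).mono Subset.rfl ?_
    rintro _ ⟨⟨⟨k, hk⟩, a⟩, rfl⟩
    exact mem_iUnion₂.2 ⟨k, by simp [hk.1, hk.2], a, rfl⟩
  have : IsProbabilityMeasure (ρ.map (pull b)) :=
    Measure.isProbabilityMeasure_map (measurable_pull b).aemeasurable
  obtain ⟨β, ⟨h1, h2⟩, h3, h4⟩ :=
    (((ae_cd (M := ρ) id b (Q := fun _ α => p α) hp).and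
      (cd_frozen (M := ρ) id b b id rfl)).and
      ((cd_map (M := ρ) id b (yi j)).and (cd_ind (M := ρ) (yi j) b hI))).exists
  refine ⟨cd ρ id b β, fun k => if h : k ≠ i ∧ k ≠ j then fun a => β (⟨k, h⟩, a)
    else Classical.arbitrary _, h3.trans h4, ?_⟩
  filter_upwards [h1, h2] with z hz hz'
  refine ⟨hz, fun k hi hj => ?_⟩
  rw [dif_pos ⟨hi, hj⟩]
  funext a
  exact congrFun hz' (⟨k, hi, hj⟩, a)

end Crest.Agent.R69
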