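import Crest.Agent.R69.F1M

/-! # Row 69, fibre theorem: top tuples are relation tuples -/

set_option autoImplicit false
set_option linter.unusedVariables false
set_option linter.unusedSectionVars false

open MeasureTheory ProbabilityTheory Filter Topology Set Function
open scoped InnerProductSpace InnerProduct ComplexConjugate

noncomputable section

namespace Crest.Agent.R69

variable {C I Zt Yt : Type} [Fintype C] [DecidableEq C] [Countable I] [Countable Zt] [Countable Yt]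
  {ρ : Measure (Om Zt)} [IsProbabilityMeasure ρ] {yi : C → Yt → Zt}
  {lam : Kernel (Om Yt) (Om (Bool × I))} [IsMarkovKernel lam]
  {M : Kernel (Om Zt) (Om (Bool × C × I))} [IsMarkovKernel M]
  {ν : Bool → Measure (Om (C × I))} [∀ b, IsProbabilityMeasure (ν b)]

theorem Two.top_char (T : Two ρ yi lam M ν) (j : C) (χ : Lp ℂ 2 (kc ν false j))
    (h : Lp ℂ 2 (kc ν true j)) (h1 : ‖χ‖ = 1) (h2 : ‖h‖ = 1)
    (e : ∀ᵐ η ∂ρ.map (pull (yi j)), ∃ c : ℂ, ‖c‖ = 1 ∧ ((Aop lam ν j η)†) χ = c • h) :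
    (∀ᵐ η ∂ρ.map (pull (yi j)), ∃ c : ℂ, ‖c‖ = 1 ∧
      ∀ᵐ q ∂lam η, χ (side false q) = c * h (side true q)) ∧
    ∀ᵐ x ∂kc ν false j, ‖χ x‖ = 1 := by
  have p1 : ∀ᵐ η ∂ρ.map (pull (yi j)), ∃ c : ℂ, ‖c‖ = 1 ∧
      ∀ᵐ q ∂lam η, χ (side false q) = c * h (side true q) := by
    filter_upwards [e, T.marg j] with η ⟨c, hc, he⟩ hm
    rw [Aop, cpl_adjoint] at he
    exact ⟨c, hc, cpl_eq_case (hm true) (hm false) χ h c h1 h2 hc he⟩
  refine ⟨p1, ?_⟩
  have hχm : Measurable fun x => (‖χ x‖ : ℂ) :=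
    Complex.measurable_ofReal.comp (Lp.stronglyMeasurable χ).measurable.norm
  have hhm : Measurable fun x => (‖h x‖ : ℂ) :=
    Complex.measurable_ofReal.comp (Lp.stronglyMeasurable h).measurable.norm
  have hP : IsProbabilityMeasure (ρ.map (pull (yi j))) :=
    Measure.isProbabilityMeasure_map (measurable_pull _).aemeasurable
  have p2 : ∀ᵐ p ∂(ρ.map (pull (yi j))) ⊗ₘ lam,
      (‖χ (side false p.2)‖ : ℂ) = (‖h (side true p.2)‖ : ℂ) := by
    refine Measure.ae_compProd_of_ae_ae ?_ ?_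
    · exact measurableSet_eq_fun (hχm.comp ((measurable_pull _).comp measurable_snd))
        (hhm.comp ((measurable_pull _).comp measurable_snd))
    · filter_upwards [p1] with η ⟨c, hc, hq⟩
      filter_upwards [hq] with q hq
      rw [hq, norm_mul, hc, one_mul]
  obtain ⟨a, ha⟩ := const_of_prod (f := fun p : Om Yt × Om (Bool × I) => side false p.2)
    (g := fun p => side true p.2) (T.mix_prod j) hχm hhm p2
  have hn : a ^ 2 = 1 := by
    have h3 : ⟪χ, χ⟫_ℂ = 1 := by rw [inner_self_eq_norm_sq_to_K, h1]; simp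
    rw [L2.inner_def] at h3
    rw [← h3]
    have : ∀ᵐ x ∂kc ν false j, ⟪χ x, χ x⟫_ℂ = a ^ 2 := by
      filter_upwards [ha] with x hx
      rw [inner_self_eq_norm_sq_to_K, ← hx]; rfl
    rw [integral_congr_ae this]; simp
  filter_upwards [ha] with x hx
  rw [← hx] at hn
  have h4 : ‖χ x‖ ^ 2 = 1 := by exact_mod_cast hn
  exact (pow_eq_one_iff_of_nonneg (norm_nonneg _) two_ne_zero).1 h4

theorem Two.top_const (T : Two ρ yi lam M ν) (χ : C → Om I → ℂ) (h : C → Om I → ℂ)
    (hχ : ∀ j, Measurable (χ j)) (hh : ∀ j, Measurable (h j))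
    (e : ∀ j, ∀ᵐ η ∂ρ.map (pull (yi j)), ∃ c : ℂ,
      ∀ᵐ q ∂lam η, χ j (side false q) = c * h j (side true q))
    (ne : ∫ a, ∏ j, χ j (cell j a) ∂ν false ≠ 0) :
    ∃ a : ℂ, ∀ᵐ x ∂ν false, ∏ j, χ j (cell j x) = a := by
  have hΦ : Measurable fun x : Om (C × I) => ∏ j, χ j (cell j x) :=
    Finset.measurable_prod _ fun j _ => (hχ j).comp (measurable_pull _)
  have hΨ : Measurable fun x : Om (C × I) => ∏ j, h j (cell j x) :=
    Finset.measurable_prod _ fun j _ => (hh j).comp (measurable_pull _)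
  have e' : ∀ᵐ z ∂ρ, ∀ j, ∃ c : ℂ, ∀ᵐ q ∂lam (pull (yi j) z),
      χ j (side false q) = c * h j (side true q) :=
    ae_all_iff.2 fun j => ae_of_ae_map (measurable_pull _).aemeasurable (e j)
  have key : ∀ᵐ z ∂ρ, ∀ᵐ q ∂M z, ∏ j, χ j (cell j (row false q)) =
      (∫ a, ∏ j, χ j (cell j a) ∂ν false) / (∫ a, ∏ j, h j (cell j a) ∂ν true) *
        ∏ j, h j (cell j (row true q)) := by
    filter_upwards [e', T.grid] with z hz ⟨G, hG⟩
    choose c hc using hz
    have h1 : ∀ᵐ q ∂M z, ∀ j, χ j (cell j (row false q)) = c j * h j (cell j (row true q)) := by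
      refine ae_all_iff.2 fun j => ?_
      have := hc j
      rw [← hG j] at this
      exact ae_of_ae_map (measurable_pull _).aemeasurable this
    have h2 : ∀ᵐ q ∂M z, ∏ j, χ j (cell j (row false q)) =
        (∏ j, c j) * ∏ j, h j (cell j (row true q)) := by
      filter_upwards [h1] with q hq
      rw [← Finset.prod_mul_distrib]; exact Finset.prod_congr rfl fun j _ => hq j
    have h3 : ∫ a, ∏ j, χ j (cell j a) ∂ν false =
        (∏ j, c j) * ∫ a, ∏ j, h j (cell j a) ∂ν true := by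
      rw [← G.rows false, ← G.rows true,
        integral_map (measurable_pull _).aemeasurable hΦ.aestronglyMeasurable,
        integral_map (measurable_pull _).aemeasurable hΨ.aestronglyMeasurable,
        ← integral_const_mul]
      exact integral_congr_ae h2
    have hB : ∫ a, ∏ j, h j (cell j a) ∂ν true ≠ 0 := fun h0 => ne (by rw [h3, h0, mul_zero])
    rw [h3, mul_div_cancel_right₀ _ hB]
    exact h2
  have h4 : ∀ᵐ q ∂ρ.bind M, ∏ j, χ j (cell j (row false q)) =
      (∫ a, ∏ j, χ j (cell j a) ∂ν false) / (∫ a, ∏ j, h j (cell j a) ∂ν true) *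
        ∏ j, h j (cell j (row true q)) :=
    Measure.ae_comp_of_ae_ae (measurableSet_eq_fun (hΦ.comp (measurable_pull _))
      ((hΨ.comp (measurable_pull _)).const_mul _)) key
  exact const_of_prod T.mix_rows hΦ (hΨ.const_mul _) h4

theorem Two.top_rel [Nonempty C] (T : Two ρ yi lam M ν) {Λ} (hΛ : IsLam (ν false) Λ)
    (χ : ∀ j, Lp ℂ 2 (kc ν false j))
    (hχ : TopT Λ (Aop lam ν) ρ (fun j => pull (yi j)) χ) :
    ∃ χ' : C → Om I → ℂ, RelT (ν false) χ' ∧ ∀ j, TopChar (ρ.map (pull (yi j))) lam (χ' j) ∧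
      ∃ a : ℂ, a ≠ 0 ∧ ∀ᵐ x ∂kc ν false j, χ' j x = a * χ j x := by
  classical
  obtain ⟨hne, hχ⟩ := hχ
  choose h1 h h2 e using hχ
  have hc := fun j => T.top_char j (χ j) (h j) (h1 j) (h2 j) (e j)
  have mχ : ∀ j, Measurable (χ j : Om I → ℂ) := fun j => (Lp.stronglyMeasurable _).measurable
  have mh : ∀ j, Measurable (h j : Om I → ℂ) := fun j => (Lp.stronglyMeasurable _).measurable
  obtain ⟨a, ha⟩ := T.top_const (fun j => χ j) (fun j => h j) mχ mh
    (fun j => by
      filter_upwards [(hc j).1] with η hη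
      obtain ⟨c, -, hc⟩ := hη
      exact ⟨c, hc⟩)
    (by rw [← hΛ χ]; exact hne)
  have hu : ∀ᵐ x ∂ν false, ∀ j, ‖χ j (cell j x)‖ = 1 :=
    ae_all_iff.2 fun j => ae_of_ae_map (measurable_pull _).aemeasurable (hc j).2
  have ha1 : ‖a‖ = 1 := by
    obtain ⟨x, hx1, hx2⟩ := (ha.and hu).exists
    rw [← hx1, norm_prod]
    exact Finset.prod_eq_one fun j _ => hx2 j
  have ha0 : a ≠ 0 := by
    intro h0; rw [h0, norm_zero] at ha1; exact zero_ne_one ha1
  obtain ⟨r⟩ := ‹Nonempty C›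
  let α : C → ℂ := fun j => if j = r then a⁻¹ else 1
  have hα : ∀ j, ‖α j‖ = 1 := fun j => by
    simp only [α]; split_ifs
    · rw [norm_inv, ha1, inv_one]
    · exact norm_one
  have hαp : ∏ j, α j = a⁻¹ := by simp [α]
  let χ' : C → Om I → ℂ := fun j x => if ‖χ j x‖ = 1 then α j * χ j x else 1
  have hae : ∀ j, ∀ᵐ x ∂kc ν false j, χ' j x = α j * χ j x := fun j => by
    filter_upwards [(hc j).2] with x hx
    simp only [χ', if_pos hx]
  refine ⟨χ', ⟨fun j => ?_, fun j x => ?_, ?_⟩, fun j => ⟨⟨h j, mh j, ?_⟩, α j, ?_, hae j⟩⟩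
  · exact Measurable.ite (measurableSet_eq_fun (mχ j).norm measurable_const)
      ((mχ j).const_mul _) measurable_const
  · simp only [χ']; split_ifs with hx
    · rw [norm_mul, hα, hx, one_mul]
    · exact norm_one
  · filter_upwards [ha, hu] with x hx1 hx2
    have : ∀ j, χ' j (cell j x) = α j * χ j (cell j x) := fun j => by
      simp only [χ', if_pos (hx2 j)]
    simp only [this]
    rw [Finset.prod_mul_distrib, hαp, hx1, inv_mul_cancel₀ ha0]
  · filter_upwards [(hc j).1, T.marg j] with η hη hm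
    obtain ⟨c, -, hc'⟩ := hη
    refine ⟨α j * c, ?_⟩
    filter_upwards [hc', (hm false).quasiMeasurePreserving.ae (hae j)] with q hq1 hq2
    rw [hq2, hq1, mul_assoc]
  · intro h0
    have := hα j
    rw [h0, norm_zero] at this
    exact zero_ne_one this

end Crest.Agent.R69
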