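import Crest.Agent.R69.F1G
import Crest.Agent.R69.F1R
import Crest.Agent.R69.F1T

/-! # Row 69, fibre theorem: the abstract structure -/

set_option autoImplicit false
set_option linter.unusedVariables false
set_option linter.unusedSectionVars false

open MeasureTheory ProbabilityTheory Filter Topology Set Function
open scoped InnerProductSpace InnerProduct ComplexConjugate

noncomputable section

namespace Crest.Agent.R69

variable {C I Zt Yt : Type} [Fintype C] [DecidableEq C] [Countable I] [Countable Zt] [Countable Yt]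
  {ρ : Measure (Om Zt)} [IsProbabilityMeasure ρ] {yi : C → Yt → Zt}
  {lam : Kernel (Om Yt) (Om (Bool × I))} [IsMarkovKernel lam]
  {M : Kernel (Om Zt) (Om (Bool × C × I))} [IsMarkovKernel M]
  {ν : Bool → Measure (Om (C × I))} [∀ b, IsProbabilityMeasure (ν b)]

theorem Grid.mp_side {N : Measure (Om (Bool × C × I))} (G : Grid ν N) (j : C) {η : Om Yt}
    (h : N.map (colm j) = lam η) (b : Bool) : MeasurePreserving (side b) (lam η) (kc ν b j) := by
  refine ⟨measurable_pull _, ?_⟩
  rw [← h, Measure.map_map (measurable_pull _) (measurable_pull _)]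
  exact (G.mp_cell b j).map_eq

theorem Grid.aop_eq {N : Measure (Om (Bool × C × I))} (G : Grid ν N) (j : C) {η : Om Yt}
    (h : N.map (colm j) = lam η) :
    Aop lam ν j η = cpl N (Xc false j) (Xc true j) (kc ν false j) (kc ν true j) :=
  cpl_map (φ := colm j) ⟨measurable_pull _, h⟩ (G.mp_side j h false) (G.mp_side j h true)

theorem Two.exists_ah (h3 : 3 ≤ Fintype.card C) (T : Two ρ yi lam M ν) :
    ∃ Λ Λ', IsLam (ν false) Λ ∧ IsLam (ν true) Λ' ∧
      AH Λ Λ' (Aop lam ν) ρ (fun j => pull (yi j)) := by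
  obtain ⟨z₀, hz₀, -⟩ := T.grid.exists
  have : Nonempty C := Fintype.card_pos_iff.1 (by omega)
  obtain ⟨Λ, hΛ⟩ := exists_Lam (hz₀.indR false)
  obtain ⟨Λ', hΛ'⟩ := exists_Lam (hz₀.indR true)
  have good : ∀ᵐ z ∂ρ, GoodT Λ Λ' fun j => Aop lam ν j (pull (yi j) z) := by
    filter_upwards [T.grid] with z hz
    obtain ⟨G, hc⟩ := hz
    have e : (fun j => Aop lam ν j (pull (yi j) z)) =
        fun j => cpl (M z) (Xc false j) (Xc true j) (kc ν false j) (kc ν true j) :=
      funext fun j => G.aop_eq j (hc j)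
    rw [e]; exact G.goodT hΛ hΛ'
  exact ⟨Λ, Λ', hΛ, hΛ', h3, fun j => measurable_pull _, T.ameas, fun j η => norm_cpl_le, T.cpt, good,
    T.indep h3, fun i j hij => T.res i j hij good⟩

end Crest.Agent.R69
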