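import Crest.Agent.R69.JE

/-! # Row 69: abstract Hilbert space core of the fibre theorem (helper25) -/

set_option autoImplicit false
set_option linter.unusedVariables false
set_option linter.unusedSectionVars false

open MeasureTheory ProbabilityTheory Filter Topology Set Function
open scoped InnerProductSpace InnerProduct

noncomputable section

namespace Crest.Agent.R69

variable {C : Type} [Fintype C] [DecidableEq C] {H Kk : C → Type}
  [∀ j, NormedAddCommGroup (H j)] [∀ j, InnerProductSpace ℂ (H j)] [∀ j, CompleteSpace (H j)]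
  [∀ j, TopologicalSpace.SeparableSpace (H j)]
  [∀ j, NormedAddCommGroup (Kk j)] [∀ j, InnerProductSpace ℂ (Kk j)] [∀ j, CompleteSpace (Kk j)]
  [∀ j, TopologicalSpace.SeparableSpace (Kk j)]
  {Y Z : Type} [MeasurableSpace Y] [MeasurableSpace Z]

/-- the two intertwining identities for a tuple of operators -/
def GoodT (Λ : ContinuousMultilinearMap ℂ H ℂ) (Λ' : ContinuousMultilinearMap ℂ Kk ℂ)
    (B : ∀ j, Kk j →L[ℂ] H j) : Prop :=
  (∀ j (u : ∀ i, H i) (h : Kk j),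
    Λ (update u j (B j h)) = Λ' (update (fun i => ((B i)†) (u i)) j h)) ∧
  ∀ j (v : ∀ i, Kk i) (w : H j),
    Λ' (update v j (((B j)†) w)) = Λ (update (fun i => B i (v i)) j w)

/-- the abstract two-scale structure -/
structure AH (Λ : ContinuousMultilinearMap ℂ H ℂ) (Λ' : ContinuousMultilinearMap ℂ Kk ℂ)
    (A : ∀ j, Y → Kk j →L[ℂ] H j) (ρ : Measure Z) (y : C → Z → Y) : Prop where
  three : 3 ≤ Fintype.card C
  ym : ∀ j, Measurable (y j)
  meas : ∀ j u h, AEStronglyMeasurable (fun η => ⟪u, A j η h⟫_ℂ) (ρ.map (y j))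
  norm : ∀ j η, ‖A j η‖ ≤ 1
  cpt : ∀ j (G : Set Y), MeasurableSet G → ∃ B : Kk j →L[ℂ] H j, IsCompactOperator B ∧
    ∀ u h, ⟪u, B h⟫_ℂ = ∫ η in G, ⟪u, A j η h⟫_ℂ ∂ρ.map (y j)
  good : ∀ᵐ z ∂ρ, GoodT Λ Λ' fun j => A j (y j z)
  ind : ∀ i j, i ≠ j → IndepFun (y i) (y j) ρ
  res : ∀ i j, i ≠ j → ∃ (π : Measure Z) (τ : C → Y), π.map (y j) = ρ.map (y j) ∧
    ∀ᵐ z ∂π, (GoodT Λ Λ' fun k => A k (y k z)) ∧ ∀ k, k ≠ i → k ≠ j → y k z = τ k

/-- a tuple of eigen-characters on which `Λ` does not vanish -/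
def TopT (Λ : ContinuousMultilinearMap ℂ H ℂ) (A : ∀ j, Y → Kk j →L[ℂ] H j) (ρ : Measure Z)
    (y : C → Z → Y) (χ : ∀ j, H j) : Prop :=
  Λ χ ≠ 0 ∧ ∀ j, ‖χ j‖ = 1 ∧ ∃ h : Kk j, ‖h‖ = 1 ∧
    ∀ᵐ η ∂ρ.map (y j), ∃ c : ℂ, ‖c‖ = 1 ∧ ((A j η)†) (χ j) = c • h

variable {Λ : ContinuousMultilinearMap ℂ H ℂ} {Λ' : ContinuousMultilinearMap ℂ Kk ℂ}
  {A : ∀ j, Y → Kk j →L[ℂ] H j} {ρ : Measure Z} [IsProbabilityMeasure ρ] {y : C → Z → Y}

/-! ### general tools -/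

theorem f1h_ae_all {E : Type*} [PseudoMetricSpace E] [TopologicalSpace.SeparableSpace E]
    {m : Measure Y} (S : Set E) (f : Y → E → ℂ) (hc : ∀ η, Continuous (f η))
    (h : ∀ e ∈ S, ∀ᵐ η ∂m, f η e = 0) : ∀ᵐ η ∂m, ∀ e ∈ S, f η e = 0 := by
  obtain ⟨t, hts, htc, hst⟩ :=
    (TopologicalSpace.IsSeparable.of_separableSpace S).exists_countable_dense_subset
  have h1 : ∀ᵐ η ∂m, ∀ e ∈ t, f η e = 0 := (ae_ball_iff htc).2 fun e he => h e (hts he)
  filter_upwards [h1] with η hη e he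
  have h2 : closure t ⊆ {e | f η e = 0} :=
    closure_minimal hη (isClosed_eq (hc η) continuous_const)
  exact h2 (hst he)

theorem f1h_push {π : Measure Z} {p : Z → Y} (hp : Measurable p) {g : Y → ℂ}
    (hg : AEStronglyMeasurable g (π.map p)) (h : ∀ᵐ z ∂π, g (p z) = 0) :
    ∀ᵐ η ∂π.map p, g η = 0 := by
  have h1 : ∀ᵐ z ∂π, g (p z) = hg.mk g (p z) := ae_of_ae_map hp.aemeasurable hg.ae_eq_mk
  have h2 : ∀ᵐ η ∂π.map p, hg.mk g η = 0 := by
    refine (ae_map_iff hp.aemeasurable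
      (hg.stronglyMeasurable_mk.measurable (measurableSet_singleton 0))).2 ?_
    filter_upwards [h, h1] with z h3 h4
    exact h4 ▸ h3
  filter_upwards [h2, hg.ae_eq_mk] with η h3 h4
  rw [h4, h3]

theorem f1h_cs {E : Type*} [NormedAddCommGroup E] [InnerProductSpace ℂ E] {k a : E}
    (hk : ‖k‖ ≤ 1) (ha : ‖a‖ ≤ 1) (h : ‖⟪k, a⟫_ℂ‖ = 1) : ‖k‖ = 1 ∧ a = ⟪k, a⟫_ℂ • k := by
  have h1 := norm_inner_le_norm (𝕜 := ℂ) k a
  rw [h] at h1
  have hk0 := norm_nonneg k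
  have ha0 := norm_nonneg a
  have hk1 : ‖k‖ = 1 := le_antisymm hk (by nlinarith)
  have ha1 : ‖a‖ = 1 := le_antisymm ha (by nlinarith)
  refine ⟨hk1, ?_⟩
  have h2 : ‖a - ⟪k, a⟫_ℂ • k‖ ^ 2 = 0 := by
    rw [@norm_sub_sq ℂ, norm_smul, h, hk1, ha1, inner_smul_right, ← inner_conj_symm a k,
      Complex.mul_conj, Complex.normSq_eq_norm_sq, h]
    norm_num
  exact sub_eq_zero.1 (norm_eq_zero.1 (pow_eq_zero_iff two_ne_zero |>.1 h2))

theorem f1h_num (h3 : 3 ≤ Fintype.card C) (e : C → ℝ) (h0 : ∀ j, 0 ≤ e j) (h1 : ∀ j, e j ≤ 1)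
    (h : ∀ j, e j = ∏ i ∈ Finset.univ.erase j, e i) : (∀ j, e j = 0) ∨ ∀ j, e j = 1 := by
  have hle : ∀ i j, e j ≤ e i := fun i j => by
    by_cases hij : i = j
    · rw [hij]
    · rw [h j, ← Finset.mul_prod_erase _ _ (Finset.mem_erase.2 ⟨hij, Finset.mem_univ i⟩)]
      exact mul_le_of_le_one_right (h0 i) (Finset.prod_le_one (fun k _ => h0 k) fun k _ => h1 k)
  have heq : ∀ i j, e i = e j := fun i j => le_antisymm (hle j i) (hle i j)
  by_cases hz : ∀ j, e j = 0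
  · exact Or.inl hz
  · right
    push Not at hz
    obtain ⟨j, hj⟩ := hz
    have h2 : e j = e j ^ (Fintype.card C - 1) := by
      conv_lhs => rw [h j]
      rw [Finset.prod_congr rfl fun i _ => heq i j, Finset.prod_const,
        Finset.card_erase_of_mem (Finset.mem_univ j), Finset.card_univ]
    have h4 : e j = 1 := by
      by_contra h5
      have := pow_lt_self_of_lt_one₀ (lt_of_le_of_ne (h0 j) hj.symm) (lt_of_le_of_ne (h1 j) h5)
        (show 1 < Fintype.card C - 1 by omega)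
      linarith
    exact fun i => (heq i j).trans h4

theorem f1h_adj_le {E F : Type*} [NormedAddCommGroup E] [InnerProductSpace ℂ E] [CompleteSpace E]
    [NormedAddCommGroup F] [InnerProductSpace ℂ F] [CompleteSpace F] {B : E →L[ℂ] F}
    (hB : ‖B‖ ≤ 1) : (∀ x, ‖B x‖ ≤ ‖x‖) ∧ ∀ w, ‖(B†) w‖ ≤ ‖w‖ := by
  refine ⟨fun x => (B.le_opNorm x).trans (mul_le_of_le_one_left (norm_nonneg _) hB), fun w => ?_⟩
  refine ((B†).le_opNorm w).trans (mul_le_of_le_one_left (norm_nonneg _) ?_)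
  rwa [LinearIsometryEquiv.norm_map]

/-! ### the null space and movable operators -/

/-- vectors that `Λ` does not see at slot `j` -/
def Nul (Λ : ContinuousMultilinearMap ℂ H ℂ) (j : C) : Submodule ℂ (H j) where
  carrier := {w | ∀ u, Λ (update u j w) = 0}
  add_mem' := fun {a b} ha hb u => by rw [Λ.map_update_add, ha u, hb u, add_zero]
  zero_mem' := fun u => Λ.map_update_zero u j
  smul_mem' := fun c a ha u => by rw [Λ.map_update_smul, ha u, smul_zero]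

theorem Nul_closed (Λ : ContinuousMultilinearMap ℂ H ℂ) (j : C) :
    IsClosed (Nul Λ j : Set (H j)) := by
  have : (Nul Λ j : Set (H j)) = ⋂ u, {w | Λ.toContinuousLinearMap u j w = 0} := by
    ext w; simp only [mem_iInter]; rfl
  rw [this]
  exact isClosed_iInter fun u => isClosed_eq (Λ.toContinuousLinearMap u j).continuous continuous_const

instance (Λ : ContinuousMultilinearMap ℂ H ℂ) (j : C) : (Nul Λ j).HasOrthogonalProjection :=
  haveI := (Nul_closed Λ j).completeSpace_coe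
  inferInstance

/-- `P` on slot `j` can be moved to slot `i` -/
def Mov (Λ : ContinuousMultilinearMap ℂ H ℂ) (j i : C) (P : H j →L[ℂ] H j) : Prop :=
  ∃ Q : H i →L[ℂ] H i, ∀ (u : ∀ k, H k) (w : H j),
    Λ (update u j (P w)) = Λ (update (update u i (Q (u i))) j w)

theorem Mov.nul {j i : C} {P : H j →L[ℂ] H j} (h : Mov Λ j i P) {w : H j} (hw : w ∈ Nul Λ j) :
    P w ∈ Nul Λ j := by
  obtain ⟨Q, hQ⟩ := h
  exact fun u => (hQ u w).trans (hw _)

theorem Mov.comm {j i i' : C} {P P' : H j →L[ℂ] H j} (h : Mov Λ j i P) (h' : Mov Λ j i' P')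
    (hii : i ≠ i') (w : H j) : P (P' w) - P' (P w) ∈ Nul Λ j := by
  obtain ⟨Q, hQ⟩ := h
  obtain ⟨Q', hQ'⟩ := h'
  intro u
  rw [Λ.map_update_sub, hQ, hQ', hQ', hQ, update_of_ne hii.symm, update_of_ne hii,
    update_comm hii, sub_self]

theorem GoodT.mov {B B' : ∀ j, Kk j →L[ℂ] H j} (h : GoodT Λ Λ' B) (h' : GoodT Λ Λ' B') {i j : C}
    (hij : i ≠ j) (hB : ∀ k, k ≠ i → k ≠ j → B k = B' k) : Mov Λ j i (B j ∘L (B' j)†) := by
  refine ⟨B' i ∘L (B i)†, fun u w => ?_⟩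
  rw [ContinuousLinearMap.comp_apply, ContinuousLinearMap.comp_apply, h.1, update_comm hij, h'.1]
  congr 1
  funext k
  by_cases hk : k = j
  · subst hk
    rw [update_self, update_of_ne hij.symm, update_self]
  · by_cases hk' : k = i
    · subst hk'
      rw [update_self, update_of_ne hk]
    · rw [update_of_ne hk, update_of_ne hk', update_of_ne hk, hB k hk' hk]

/-! ### averaged operators -/

/-- the average of `A j` over `G` -/
def AH.B (T : AH Λ Λ' A ρ y) (j : C) (G : {G : Set Y // MeasurableSet G}) : Kk j →L[ℂ] H j :=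
  (T.cpt j G G.2).choose

theorem AH.B_cpt (T : AH Λ Λ' A ρ y) (j : C) (G : {G : Set Y // MeasurableSet G}) :
    IsCompactOperator (T.B j G) := (T.cpt j G G.2).choose_spec.1

theorem AH.B_spec (T : AH Λ Λ' A ρ y) (j : C) (G : {G : Set Y // MeasurableSet G}) (u : H j)
    (h : Kk j) : ⟪u, T.B j G h⟫_ℂ = ∫ η in G, ⟪u, A j η h⟫_ℂ ∂ρ.map (y j) :=
  (T.cpt j G G.2).choose_spec.2 u h

theorem AH.prob (T : AH Λ Λ' A ρ y) (j : C) : IsProbabilityMeasure (ρ.map (y j)) :=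
  Measure.isProbabilityMeasure_map (T.ym j).aemeasurable

theorem AH.int (T : AH Λ Λ' A ρ y) (j : C) (u : H j) (h : Kk j) :
    Integrable (fun η => ⟪u, A j η h⟫_ℂ) (ρ.map (y j)) := by
  have := T.prob j
  refine Integrable.of_bound (T.meas j u h) (‖u‖ * ‖h‖) (Eventually.of_forall fun η => ?_)
  exact (norm_inner_le_norm _ _).trans
    (mul_le_mul_of_nonneg_left ((f1h_adj_le (T.norm j η)).1 h) (norm_nonneg _))

theorem AH.ae_zero (T : AH Λ Λ' A ρ y) (j : C) {u : H j} {h : Kk j}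
    (h0 : ∀ G, ⟪u, T.B j G h⟫_ℂ = 0) : ∀ᵐ η ∂ρ.map (y j), ⟪u, A j η h⟫_ℂ = 0 :=
  (T.int j u h).ae_eq_zero_of_forall_setIntegral_eq_zero fun G hG _ => by
    rw [← T.B_spec j ⟨G, hG⟩, h0]

theorem AH.av1 (T : AH Λ Λ' A ρ y) {j : C} {π : Measure Z} (hπ : π.map (y j) = ρ.map (y j))
    (G : {G : Set Y // MeasurableSet G}) {a a' : H j} {b b' : Kk j}
    (h : ∀ᵐ z ∂π, ⟪a, A j (y j z) b⟫_ℂ = ⟪a', A j (y j z) b'⟫_ℂ) :
    ⟪a, T.B j G b⟫_ℂ = ⟪a', T.B j G b'⟫_ℂ := by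
  rw [T.B_spec, T.B_spec]
  have h1 := f1h_push (π := π) (T.ym j) (g := fun η => ⟪a, A j η b⟫_ℂ - ⟪a', A j η b'⟫_ℂ)
    (hπ ▸ (T.meas j a b).sub (T.meas j a' b')) (h.mono fun z hz => sub_eq_zero.2 hz)
  rw [hπ] at h1
  exact integral_congr_ae (ae_restrict_of_ae (h1.mono fun η hη => sub_eq_zero.1 hη))

theorem AH.av3 (T : AH Λ Λ' A ρ y) {j : C} {π : Measure Z} (hπ : π.map (y j) = ρ.map (y j))
    (G G' : {G : Set Y // MeasurableSet G}) {a a' b b' : H j}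
    (h : ∀ᵐ z ∂π, ∀ᵐ z' ∂π, ⟪a, A j (y j z) (((A j (y j z'))†) b)⟫_ℂ =
      ⟪a', A j (y j z) (((A j (y j z'))†) b')⟫_ℂ) :
    ⟪a, T.B j G (((T.B j G')†) b)⟫_ℂ = ⟪a', T.B j G (((T.B j G')†) b')⟫_ℂ := by
  refine T.av1 hπ G (h.mono fun z hz => ?_)
  have key : ∀ (L R : Kk j →L[ℂ] H j) (a b : H j),
      ⟪a, L ((R†) b)⟫_ℂ = (starRingEnd ℂ) ⟪b, R ((L†) a)⟫_ℂ := fun L R a b => by
    rw [inner_conj_symm, ← ContinuousLinearMap.adjoint_inner_left,
      ContinuousLinearMap.adjoint_inner_right]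
  rw [key _ _ a b, key _ _ a' b']
  congr 1
  refine T.av1 hπ G' (hz.mono fun z' hz' => ?_)
  rw [key _ _ a b, key _ _ a' b'] at hz'
  exact (starRingEnd ℂ).injective hz'

/-- products of averaged operators -/
def AH.P (T : AH Λ Λ' A ρ y) (j : C)
    (p : {G : Set Y // MeasurableSet G} × {G : Set Y // MeasurableSet G}) : H j →L[ℂ] H j :=
  T.B j p.1 ∘L (T.B j p.2)†

theorem AH.mov (T : AH Λ Λ' A ρ y) {i j : C} (hij : i ≠ j) : ∃ (π : Measure Z) (S : Z → Prop),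
    π.map (y j) = ρ.map (y j) ∧ (∀ᵐ z ∂π, S z) ∧
      ∀ z z', S z → S z' → Mov Λ j i (A j (y j z) ∘L (A j (y j z'))†) := by
  obtain ⟨π, τ, h1, h2⟩ := T.res i j hij
  exact ⟨π, _, h1, h2, fun z z' hz hz' => hz.1.mov hz'.1 hij fun k hk hk' => by
    rw [hz.2 k hk hk', hz'.2 k hk hk']⟩

theorem f1h_two (h3 : 3 ≤ Fintype.card C) (j : C) : ∃ i i', i ≠ j ∧ i' ≠ j ∧ i ≠ i' := by
  have h : 1 < (Finset.univ.erase j).card := by
    rw [Finset.card_erase_of_mem (Finset.mem_univ j), Finset.card_univ]; omega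
  obtain ⟨i, hi, i', hi', h2⟩ := Finset.one_lt_card.1 h
  exact ⟨i, i', (Finset.mem_erase.1 hi).1, (Finset.mem_erase.1 hi').1, h2⟩

theorem f1h_inv {j i : C} {L R : Kk j →L[ℂ] H j} (h : Mov Λ j i (R ∘L L†)) {w : H j}
    (hw : w ∈ (Nul Λ j)ᗮ) : L ((R†) w) ∈ (Nul Λ j)ᗮ := fun v hv => by
  rw [← ContinuousLinearMap.adjoint_inner_left, ContinuousLinearMap.adjoint_inner_right]
  exact hw _ (h.nul hv)

theorem AH.eig (T : AH Λ Λ' A ρ y) (j : C) : (Nul Λ j)ᗮ ≤ (Submodule.span ℂ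
    {χ | χ ∈ (Nul Λ j)ᗮ ∧ ∀ p, ∃ c : ℂ, T.P j p χ = c • χ}).topologicalClosure := by
  obtain ⟨i, i', hi, hi', hii⟩ := f1h_two T.three j
  obtain ⟨π, S, hπ, hS, hM⟩ := T.mov hi
  obtain ⟨π', S', hπ', hS', hM'⟩ := T.mov hi'
  refine joint_eig (T.P j) _ (Nul Λ j).isClosed_orthogonal (fun p w hw v hv => ?_)
    (fun p => (T.B_cpt j p.1).comp_clm _) (fun p => ⟨(p.2, p.1), fun w _ w' _ => ?_⟩)
    fun p p' w hw => ?_
  · have := T.av3 hπ p.1 p.2 (a := v) (b := w) (a' := 0) (b' := 0) (by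
      filter_upwards [hS] with z hz
      filter_upwards [hS] with z' hz'
      rw [inner_zero_left]
      exact f1h_inv (hM z' z hz' hz) hw v hv)
    rwa [inner_zero_left] at this
  · simp only [AH.P, ContinuousLinearMap.comp_apply]
    rw [← ContinuousLinearMap.adjoint_inner_right, ContinuousLinearMap.adjoint_inner_left]
  · refine ext_inner_left ℂ fun v => ?_
    have h1 : ∀ ζ ζ', S' ζ → S' ζ' → ∀ v, ⟪v, T.P j p (A j (y j ζ) (((A j (y j ζ'))†) w))⟫_ℂ =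
        ⟪v, A j (y j ζ) (((A j (y j ζ'))†) (T.P j p w))⟫_ℂ := fun ζ ζ' hζ hζ' v => by
      have h2 := T.av3 hπ p.1 p.2 (a := v) (b := A j (y j ζ) (((A j (y j ζ'))†) w))
        (a' := ((A j (y j ζ) ∘L (A j (y j ζ'))†)†) v) (b' := w) (by
          filter_upwards [hS] with z hz
          filter_upwards [hS] with z' hz'
          rw [ContinuousLinearMap.adjoint_inner_left]
          congr 1
          have h3 := (hM z z' hz hz').comm (hM' ζ ζ' hζ hζ') hii w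
          have h4 : _ ∈ (Nul Λ j)ᗮ := Submodule.sub_mem _
            (f1h_inv (hM z' z hz' hz) (f1h_inv (hM' ζ' ζ hζ' hζ) hw))
            (f1h_inv (hM' ζ' ζ hζ' hζ) (f1h_inv (hM z' z hz' hz) hw))
          exact sub_eq_zero.1 (inner_self_eq_zero (𝕜 := ℂ) |>.1 (h4 _ h3)))
      rw [ContinuousLinearMap.adjoint_inner_left] at h2
      exact h2
    have h5 := T.av3 hπ' p'.1 p'.2 (a := ((T.P j p)†) v) (b := w) (a' := v) (b' := T.P j p w) (by
      filter_upwards [hS'] with ζ hζ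
      filter_upwards [hS'] with ζ' hζ'
      rw [ContinuousLinearMap.adjoint_inner_left]
      exact h1 ζ ζ' hζ hζ' v)
    rw [ContinuousLinearMap.adjoint_inner_left] at h5
    exact h5

/-! ### eigenvectors -/

/-- pointwise form of a joint eigenvector -/
structure Eig (A : ∀ j, Y → Kk j →L[ℂ] H j) (ρ : Measure Z) (y : C → Z → Y) (j : C) (χ : H j)
    (S : Y → Prop) : Prop where
  ae : ∀ᵐ η ∂ρ.map (y j), S η
  eig : ∀ η η', S η → S η' →
    A j η (((A j η')†) χ) = ⟪χ, A j η (((A j η')†) χ)⟫_ℂ • χ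
  kill : ∀ η', S η' → (∀ᵐ η ∂ρ.map (y j), ⟪χ, A j η (((A j η')†) χ)⟫_ℂ = 0) → ((A j η')†) χ = 0

theorem AH.exists_eig (T : AH Λ Λ' A ρ y) {j : C} {χ : H j} (h1 : ‖χ‖ = 1)
    (h : ∀ p, ∃ c : ℂ, T.P j p χ = c • χ) : ∃ S, Eig A ρ y j χ S := by
  let S0 : Set (Kk j) := {e | ∀ G, ⟪e, ((T.B j G)†) χ⟫_ℂ = 0}
  let K0 : Set (Kk j) := {k | ∀ e ∈ S0, ⟪e, k⟫_ℂ = 0}
  have a1 : ∀ᵐ η ∂ρ.map (y j), ∀ e ∈ S0, ⟪χ, A j η e⟫_ℂ = 0 :=
    f1h_ae_all S0 _ (fun η => by fun_prop) fun e he => T.ae_zero j fun G => by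
      rw [← ContinuousLinearMap.adjoint_inner_left, ← inner_conj_symm, he G, map_zero]
  have a2 : ∀ᵐ η ∂ρ.map (y j), ∀ q ∈ {v : H j | ⟪v, χ⟫_ℂ = 0} ×ˢ K0, ⟪q.1, A j η q.2⟫_ℂ = 0 :=
    f1h_ae_all _ _ (fun η => by fun_prop) fun q hq => T.ae_zero j fun G => by
      rw [← ContinuousLinearMap.adjoint_inner_left]
      refine hq.2 _ fun G' => ?_
      obtain ⟨c, hc⟩ := h (G, G')
      rw [ContinuousLinearMap.adjoint_inner_left]
      change ⟪q.1, T.P j (G, G') χ⟫_ℂ = 0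
      rw [hc, inner_smul_right, hq.1, mul_zero]
  have hK : ∀ η, (∀ e ∈ S0, ⟪χ, A j η e⟫_ℂ = 0) → ((A j η)†) χ ∈ K0 := fun η hη e he => by
    rw [ContinuousLinearMap.adjoint_inner_right, ← inner_conj_symm, hη e he, map_zero]
  refine ⟨_, a1.and a2, fun η η' hη hη' => ?_, fun η' hη' h0 => ?_⟩
  · set x := A j η (((A j η')†) χ) with hx
    have hv : ⟪x - ⟪χ, x⟫_ℂ • χ, χ⟫_ℂ = 0 := by
      rw [inner_sub_left, inner_smul_left, inner_conj_symm, inner_self_eq_norm_sq_to_K, h1]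
      simp
    have h2 := hη.2 (x - ⟪χ, x⟫_ℂ • χ, ((A j η')†) χ) ⟨hv, hK η' hη'.1⟩
    refine sub_eq_zero.1 (inner_self_eq_zero (𝕜 := ℂ) |>.1 ?_)
    rw [inner_sub_right, inner_smul_right, hv, mul_zero, sub_zero]
    exact h2
  · refine inner_self_eq_zero (𝕜 := ℂ) |>.1 (hK η' hη'.1 _ fun G => ?_)
    rw [ContinuousLinearMap.adjoint_inner_right, ← inner_conj_symm, T.B_spec,
      integral_congr_ae (ae_restrict_of_ae h0)]
    simp

theorem GoodT.lam {B B' : ∀ j, Kk j →L[ℂ] H j} (h : GoodT Λ Λ' B) (h' : GoodT Λ Λ' B')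
    {χ : ∀ j, H j} (hΛ : Λ χ ≠ 0) {l l' : C → ℂ} (hl : ∀ j, B j (((B' j)†) (χ j)) = l j • χ j)
    (hl' : ∀ j, B' j (((B j)†) (χ j)) = l' j • χ j) (j : C) :
    l j = ∏ i ∈ Finset.univ.erase j, l' i := by
  have h1 := h.1 j χ (((B' j)†) (χ j))
  rw [h'.2, hl, Λ.map_update_smul, update_eq_self] at h1
  have h2 : update (fun i => B' i (((B i)†) (χ i))) j (χ j) = fun i => update l' j 1 i • χ i := by
    funext i
    by_cases hi : i = j
    · subst hi; rw [update_self, update_self, one_smul]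
    · rw [update_of_ne hi, update_of_ne hi, hl']
  rw [h2, Λ.map_smul_univ, Finset.prod_update_of_mem (Finset.mem_univ j), one_mul,
    Finset.sdiff_singleton_eq_erase] at h1
  exact mul_right_cancel₀ hΛ h1

theorem AH.tuple (T : AH Λ Λ' A ρ y) {χ : ∀ j, H j} (hΛ : Λ χ ≠ 0) (h1 : ∀ j, ‖χ j‖ = 1)
    {S : C → Y → Prop} (hE : ∀ j, Eig A ρ y j (χ j) (S j)) (r : C) :
    TopT Λ A ρ y χ ∨ ∀ᵐ η ∂ρ.map (y r), ((A r η)†) (χ r) = 0 := by
  have hgood : ∀ᵐ z ∂ρ, (GoodT Λ Λ' fun j => A j (y j z)) ∧ ∀ j, S j (y j z) :=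
    T.good.and (ae_all_iff.2 fun j => ae_of_ae_map (T.ym j).aemeasurable (hE j).ae)
  have hle : ∀ j η η', ‖⟪((A j η')†) (χ j), ((A j η)†) (χ j)⟫_ℂ‖ ≤ 1 := fun j η η' =>
    (norm_inner_le_norm _ _).trans (mul_le_one₀ (((f1h_adj_le (T.norm j η')).2 _).trans (h1 j).le)
      (norm_nonneg _) (((f1h_adj_le (T.norm j η)).2 _).trans (h1 j).le))
  rw [or_iff_not_imp_left]
  intro hnt
  have key : ∀ᵐ z ∂ρ, ((A r (y r z))†) (χ r) = 0 := by
    filter_upwards [hgood] with z₀ hz₀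
    let f : C → Y → ℂ := fun j η => ⟪χ j, A j η (((A j (y j z₀))†) (χ j))⟫_ℂ
    have hf : ∀ j η, ‖f j η‖ = ‖⟪((A j (y j z₀))†) (χ j), ((A j η)†) (χ j)⟫_ℂ‖ := fun j η => by
      rw [norm_inner_symm (((A j (y j z₀))†) (χ j)), ContinuousLinearMap.adjoint_inner_left]
    have hfm : ∀ j, AEStronglyMeasurable (f j) (ρ.map (y j)) := fun j => T.meas j _ _
    have hd : ∀ᵐ z ∂ρ, (∀ j, ‖f j (y j z)‖ = 0) ∨ ∀ j, ‖f j (y j z)‖ = 1 := by
      filter_upwards [hgood] with z hz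
      refine f1h_num T.three _ (fun j => norm_nonneg _) (fun j => (hf j _).le.trans (hle j _ _))
        fun j => ?_
      have h2 := hz.1.lam hz₀.1 hΛ (fun j => (hE j).eig _ _ (hz.2 j) (hz₀.2 j))
        (fun j => (hE j).eig _ _ (hz₀.2 j) (hz.2 j)) j
      change f j (y j z) = _ at h2
      rw [h2, norm_prod]
      refine Finset.prod_congr rfl fun i _ => ?_
      rw [hf, ContinuousLinearMap.adjoint_inner_left]
    obtain ⟨i, -, hi, -, -⟩ := f1h_two T.three r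
    let E : C → Set Y := fun j => {η | (hfm j).mk (f j) η ≠ 0}
    have hEm : ∀ j, MeasurableSet (E j) := fun j =>
      ((hfm j).stronglyMeasurable_mk.measurable (measurableSet_singleton 0)).compl
    have hmk : ∀ᵐ z ∂ρ, ∀ j, f j (y j z) = (hfm j).mk (f j) (y j z) :=
      ae_all_iff.2 fun j => ae_of_ae_map (T.ym j).aemeasurable (hfm j).ae_eq_mk
    have hiff : ∀ᵐ z ∂ρ, ∀ j, y j z ∈ E j ↔ ∀ k, ‖f k (y k z)‖ = 1 := by
      filter_upwards [hd, hmk] with z h2 h3 j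
      change (hfm j).mk (f j) (y j z) ≠ 0 ↔ _
      rw [← h3 j]
      refine ⟨fun h4 => h2.resolve_left fun h5 => h4 (norm_eq_zero.1 (h5 j)), fun h4 h5 => ?_⟩
      have := h4 j
      rw [h5, norm_zero] at this
      exact zero_ne_one this
    have e1 : ρ (y i ⁻¹' E i) = ρ (y r ⁻¹' E r) := measure_congr (by
      filter_upwards [hiff] with z hz
      exact propext ((hz i).trans (hz r).symm))
    have e2 : ρ (y i ⁻¹' E i ∩ y r ⁻¹' E r) = ρ (y r ⁻¹' E r) := measure_congr (by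
      filter_upwards [hiff] with z hz
      exact propext ⟨fun h => h.2, fun h => ⟨(hz i).2 ((hz r).1 h), h⟩⟩)
    have e3 := (T.ind i r hi).measure_inter_preimage_eq_mul _ _ (hEm i) (hEm r)
    rw [e2, e1] at e3
    by_cases h0 : ρ (y r ⁻¹' E r) = 0
    · refine (hE r).kill _ (hz₀.2 r) (f1h_push (T.ym r) (hfm r) ?_)
      filter_upwards [measure_eq_zero_iff_ae_notMem.1 h0, hmk] with z h2 h3
      exact (h3 r).trans (not_not.1 h2)
    · have h2 : ρ (y r ⁻¹' E r) = 1 := by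
        have := (ENNReal.mul_right_inj h0 (measure_ne_top _ _)).1 ((mul_one _).trans e3)
        exact this.symm
      have h3 : ∀ᵐ z ∂ρ, z ∈ y r ⁻¹' E r := (mem_ae_iff_prob_eq_one (T.ym r (hEm r))).2 h2
      refine absurd ⟨hΛ, fun j => ⟨h1 j, ?_⟩⟩ hnt
      have h4 : ∀ᵐ η ∂ρ.map (y j), ((‖f j η‖ : ℂ) - 1) = 0 := by
        refine f1h_push (T.ym j) (g := fun η => ((‖f j η‖ : ℂ) - 1))
          ((Complex.continuous_ofReal.comp_aestronglyMeasurable (hfm j).norm).sub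
            aestronglyMeasurable_const) ?_
        filter_upwards [h3, hiff] with z h5 h6
        rw [(h6 r).1 h5 j]; simp
      have h5 : ∀ᵐ η ∂ρ.map (y j), ‖((A j (y j z₀))†) (χ j)‖ = 1 ∧ ∃ c : ℂ, ‖c‖ = 1 ∧
          ((A j η)†) (χ j) = c • ((A j (y j z₀))†) (χ j) := by
        filter_upwards [h4] with η h6
        have h7 : ‖f j η‖ = 1 := by exact_mod_cast sub_eq_zero.1 h6
        rw [hf] at h7
        have h8 := f1h_cs (((f1h_adj_le (T.norm j _)).2 _).trans (h1 j).le)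
          (((f1h_adj_le (T.norm j η)).2 _).trans (h1 j).le) h7
        exact ⟨h8.1, _, h7, h8.2⟩
      have := T.prob j
      exact ⟨_, h5.exists.choose_spec.1, h5.mono fun η h => h.2⟩
  have h6 : ∀ᵐ η ∂ρ.map (y r), ∀ k ∈ (univ : Set (Kk r)), ⟪χ r, A r η k⟫_ℂ = 0 :=
    f1h_ae_all _ _ (fun η => by fun_prop) fun k _ => f1h_push (T.ym r) (T.meas r _ _) (by
      filter_upwards [key] with z hz
      rw [← ContinuousLinearMap.adjoint_inner_left, hz, inner_zero_left])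
  filter_upwards [h6] with η hη
  refine ext_inner_right ℂ fun k => ?_
  rw [ContinuousLinearMap.adjoint_inner_left, hη k trivial, inner_zero_left]

theorem AH.step (T : AH Λ Λ' A ρ y) {u : ∀ j, H j} (hu : Λ u ≠ 0) (i : C) :
    ∃ e : H i, ‖e‖ = 1 ∧ (∀ p, ∃ c : ℂ, T.P i p e = c • e) ∧ Λ (update u i e) ≠ 0 := by
  obtain ⟨n, hn, w, hw, huw⟩ := (Nul Λ i).exists_add_mem_mem_orthogonal (u i)
  have h1 : Λ (update u i w) ≠ 0 := by
    rwa [← update_eq_self i u, huw, Λ.map_update_add, hn u, zero_add] at hu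
  have h2 : ∃ e : H i, (∀ p, ∃ c : ℂ, T.P i p e = c • e) ∧ Λ (update u i e) ≠ 0 := by
    by_contra h3
    push Not at h3
    refine h1 (Submodule.topologicalClosure_minimal _
      (t := (Λ.toContinuousLinearMap u i).ker) (Submodule.span_le.2 fun e he => h3 e he.2)
      (Λ.toContinuousLinearMap u i).isClosed_ker (T.eig i hw))
  obtain ⟨e, he, h3⟩ := h2
  have h0 : e ≠ 0 := fun h => h3 (by rw [h]; exact Λ.map_update_zero u i)
  have h4 : ((‖e‖ : ℂ))⁻¹ ≠ 0 := inv_ne_zero (by exact_mod_cast norm_ne_zero_iff.2 h0)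
  refine ⟨((‖e‖ : ℂ))⁻¹ • e, norm_smul_inv_norm (𝕜 := ℂ) h0, fun p => ?_, ?_⟩
  · obtain ⟨c, hc⟩ := he p
    exact ⟨c, by rw [map_smul, hc, smul_comm]⟩
  · rw [Λ.map_update_smul]
    exact smul_ne_zero h4 h3

theorem AH.complete (T : AH Λ Λ' A ρ y) {r : C} {e : H r} (hW : e ∈ (Nul Λ r)ᗮ) (h1 : ‖e‖ = 1)
    (he : ∀ p, ∃ c : ℂ, T.P r p e = c • e) : ∃ χ : ∀ j, H j, χ r = e ∧ Λ χ ≠ 0 ∧
      ∀ j, ‖χ j‖ = 1 ∧ ∀ p, ∃ c : ℂ, T.P j p (χ j) = c • χ j := by
  have key : ∀ s : Finset C, ∃ χ : ∀ j, H j, χ r = e ∧ Λ χ ≠ 0 ∧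
      ∀ j ∈ s, ‖χ j‖ = 1 ∧ ∀ p, ∃ c : ℂ, T.P j p (χ j) = c • χ j := by
    intro s
    induction s using Finset.induction_on with
    | empty =>
      have : ∃ u, Λ (update u r e) ≠ 0 := by
        by_contra h2
        push Not at h2
        have h3 : e = 0 := inner_self_eq_zero (𝕜 := ℂ) |>.1 (hW e h2)
        rw [h3, norm_zero] at h1
        exact zero_ne_one h1
      obtain ⟨u, hu⟩ := this
      exact ⟨_, update_self .., hu, by simp⟩
    | insert i s hi ih =>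
      obtain ⟨χ, h2, h3, h4⟩ := ih
      by_cases hir : i = r
      · subst hir
        refine ⟨χ, h2, h3, fun j hj => ?_⟩
        rcases Finset.mem_insert.1 hj with rfl | hj
        · rw [h2]; exact ⟨h1, he⟩
        · exact h4 j hj
      · obtain ⟨e', h5, h6, h7⟩ := T.step h3 i
        refine ⟨update χ i e', by rw [update_of_ne (Ne.symm hir), h2], h7, fun j hj => ?_⟩
        rcases Finset.mem_insert.1 hj with rfl | hj
        · rw [update_self]; exact ⟨h5, h6⟩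
        · rw [update_of_ne (ne_of_mem_of_not_mem hj hi)]; exact h4 j hj
  obtain ⟨χ, h2, h3, h4⟩ := key Finset.univ
  exact ⟨χ, h2, h3, fun j => h4 j (Finset.mem_univ j)⟩

theorem AH.core0 (T : AH Λ Λ' A ρ y) (r : C) (F : H r) (hW : F ∈ (Nul Λ r)ᗮ)
    (hF : ∀ χ, TopT Λ A ρ y χ → χ r ∈ (Nul Λ r)ᗮ → ⟪χ r, F⟫_ℂ = 0) :
    ∀ᵐ η ∂ρ.map (y r), ((A r η)†) F = 0 := by
  have := T.prob r
  let V : Submodule ℂ (H r) := ⨅ G, ((T.B r G)†).ker
  have hV : ∀ w, w ∈ V ↔ ∀ᵐ η ∂ρ.map (y r), ((A r η)†) w = 0 := fun w => by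
    simp only [V, Submodule.mem_iInf, LinearMap.mem_ker, ContinuousLinearMap.coe_coe]
    refine ⟨fun h => ?_, fun h G => ext_inner_right ℂ fun k => ?_⟩
    · have h6 : ∀ᵐ η ∂ρ.map (y r), ∀ k ∈ (univ : Set (Kk r)), ⟪w, A r η k⟫_ℂ = 0 :=
        f1h_ae_all _ _ (fun η => by fun_prop) fun k _ => T.ae_zero r fun G => by
          rw [← ContinuousLinearMap.adjoint_inner_left, h G, inner_zero_left]
      filter_upwards [h6] with η hη
      refine ext_inner_right ℂ fun k => ?_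
      rw [ContinuousLinearMap.adjoint_inner_left, hη k trivial, inner_zero_left]
    · rw [ContinuousLinearMap.adjoint_inner_left, T.B_spec, inner_zero_left]
      refine integral_eq_zero_of_ae (ae_restrict_of_ae (h.mono fun η hη => ?_))
      simp only
      rw [← ContinuousLinearMap.adjoint_inner_left, hη, inner_zero_left, Pi.zero_apply]
  have hVc : IsClosed (V : Set (H r)) := by
    rw [Submodule.coe_iInf]
    exact isClosed_iInter fun G => ((T.B r G)†).isClosed_ker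
  have := hVc.completeSpace_coe
  obtain ⟨n, hn, w, hw, hF'⟩ := V.exists_add_mem_mem_orthogonal F
  have h1 : ⟪w, F⟫_ℂ = 0 := by
    refine Submodule.topologicalClosure_minimal _ (t := (innerSL ℂ w).ker)
      (Submodule.span_le.2 fun e he => ?_) (innerSL ℂ w).isClosed_ker (T.eig r hW)
    change ⟪w, e⟫_ℂ = 0
    by_cases h0 : e = 0
    · rw [h0, inner_zero_right]
    have h4 : ((‖e‖ : ℂ))⁻¹ ≠ 0 := inv_ne_zero (by exact_mod_cast norm_ne_zero_iff.2 h0)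
    obtain ⟨χ, h2, h3, h5⟩ := T.complete (e := ((‖e‖ : ℂ))⁻¹ • e) (Submodule.smul_mem _ _ he.1)
      (norm_smul_inv_norm (𝕜 := ℂ) h0) fun p => by
        obtain ⟨c, hc⟩ := he.2 p
        exact ⟨c, by rw [map_smul, hc, smul_comm]⟩
    suffices h : ⟪χ r, w⟫_ℂ = 0 by
      rw [h2, inner_eq_zero_symm, inner_smul_right] at h
      exact (mul_eq_zero.1 h).resolve_left h4
    choose S hS using fun j => T.exists_eig (h5 j).1 (h5 j).2
    rcases T.tuple h3 (fun j => (h5 j).1) hS r with h6 | h6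
    · have h7 := hF χ h6 (h2 ▸ Submodule.smul_mem _ _ he.1)
      rw [hF', inner_add_right] at h7
      obtain ⟨k, hk, h8⟩ := (h6.2 r).2
      obtain ⟨η, ⟨c, hc, h9⟩, h10⟩ := (h8.and ((hV n).1 hn)).exists
      have h11 : ⟪χ r, A r η (((A r η)†) (χ r))⟫_ℂ = 1 := by
        rw [← ContinuousLinearMap.adjoint_inner_left, inner_self_eq_norm_sq_to_K, h9, norm_smul,
          hc, hk]
        simp
      have h12 := (f1h_cs (h5 r).1.le (((f1h_adj_le (T.norm r η)).1 _).trans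
        (((f1h_adj_le (T.norm r η)).2 _).trans (h5 r).1.le)) (by rw [h11, norm_one])).2
      rw [h11, one_smul] at h12
      have h13 : ⟪χ r, n⟫_ℂ = 0 := by
        rw [← h12, ← ContinuousLinearMap.adjoint_inner_right, h10, inner_zero_right]
      rwa [h13, zero_add] at h7
    · exact hw _ ((hV _).2 h6)
  rw [hF', inner_add_right, inner_eq_zero_symm.1 (hw n hn), zero_add, inner_self_eq_zero] at h1
  rw [hF', h1, add_zero]
  exact (hV n).1 hn

/-- a vector of the support of `Λ` that is orthogonal to all top tuples is killed -/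
theorem AH.core1 (T : AH Λ Λ' A ρ y) (r : C) (F : H r)
    (hW : ∀ w : H r, (∀ u, Λ (update u r w) = 0) → ⟪w, F⟫_ℂ = 0)
    (hF : ∀ χ, TopT Λ A ρ y χ → ⟪χ r, F⟫_ℂ = 0) :
    ∀ᵐ η ∂ρ.map (y r), ((A r η)†) F = 0 :=
  T.core0 r F hW fun χ h _ => hF χ h

theorem AH.core2 (T : AH Λ Λ' A ρ y) (r : C) (F : H r)
    (hF : ∀ χ, TopT Λ A ρ y χ → ⟪χ r, F⟫_ℂ = 0) :
    ∀ᵐ z ∂ρ, ∀ u, Λ (update u r (A r (y r z) (((A r (y r z))†) F))) = 0 := by
  obtain ⟨n, hn, w, hw, hF'⟩ := (Nul Λ r).exists_add_mem_mem_orthogonal F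
  have h1 := T.core0 r w hw fun χ h h2 => by
    have h3 := hF χ h
    rwa [hF', inner_add_right, inner_eq_zero_symm.1 (h2 n hn), zero_add] at h3
  filter_upwards [T.good, ae_of_ae_map (T.ym r).aemeasurable h1] with z h2 h3 u
  rw [hF', map_add, h3, add_zero, h2.1, h2.2]
  exact hn _

end Crest.Agent.R69
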