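import Crest.Agent.R69.B8
import Crest.Agent.R69.F1H

/-! # Row 69, fibre theorem: the coupling operators (helper1) -/

set_option autoImplicit false
set_option linter.unusedVariables false
set_option linter.unusedSectionVars false

open MeasureTheory ProbabilityTheory Filter Topology Set Function
open scoped InnerProductSpace InnerProduct ComplexConjugate

noncomputable section

namespace Crest.Agent.R69

section cpl
variable {Ω Ω' X Y : Type} [MeasurableSpace Ω] [MeasurableSpace Ω'] [MeasurableSpace X]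
  [MeasurableSpace Y]

/-- composition with a measure preserving map -/
def Jm {γ : Measure Ω} {κ : Measure X} {f : Ω → X} (h : MeasurePreserving f γ κ) :
    Lp ℂ 2 κ →L[ℂ] Lp ℂ 2 γ :=
  (Lp.compMeasurePreservingₗᵢ ℂ f h).toContinuousLinearMap

open Classical in
/-- the Markov operator of the coupling `(f, g)`: `(cpl h) ∘ f = E[h ∘ g | f]` -/
def cpl (γ : Measure Ω) (f : Ω → X) (g : Ω → Y) (κ : Measure X) (κ' : Measure Y) :
    Lp ℂ 2 κ' →L[ℂ] Lp ℂ 2 κ :=
  if h : MeasurePreserving f γ κ ∧ MeasurePreserving g γ κ' then ((Jm h.1)†) ∘L Jm h.2 else 0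

variable {γ : Measure Ω} {γ' : Measure Ω'} {f : Ω → X} {g : Ω → Y} {κ : Measure X} {κ' : Measure Y}

theorem Jm_coe (h : MeasurePreserving f γ κ) (u : Lp ℂ 2 κ) : Jm h u =ᵐ[γ] fun ω => u (f ω) :=
  Lp.coeFn_compMeasurePreserving u h

theorem norm_Jm (h : MeasurePreserving f γ κ) (u : Lp ℂ 2 κ) : ‖Jm h u‖ = ‖u‖ :=
  (Lp.compMeasurePreservingₗᵢ ℂ f h).norm_map u

theorem cpl_adjoint : (cpl γ f g κ κ')† = cpl γ g f κ' κ := by
  unfold cpl
  by_cases h : MeasurePreserving f γ κ ∧ MeasurePreserving g γ κ'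
  · rw [dif_pos h, dif_pos h.symm, ContinuousLinearMap.adjoint_comp,
      ContinuousLinearMap.adjoint_adjoint]
  · rw [dif_neg h, dif_neg fun h' => h h'.symm, map_zero]

theorem fda_norm_Jm_le (h : MeasurePreserving f γ κ) : ‖Jm h‖ ≤ 1 :=
  ContinuousLinearMap.opNorm_le_bound _ zero_le_one fun u => by rw [norm_Jm, one_mul]

theorem norm_cpl_le : ‖cpl γ f g κ κ'‖ ≤ 1 := by
  unfold cpl
  split_ifs with h
  · refine (ContinuousLinearMap.opNorm_comp_le _ _).trans ?_
    rw [LinearIsometryEquiv.norm_map]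
    exact mul_le_one₀ (fda_norm_Jm_le h.1) (norm_nonneg _) (fda_norm_Jm_le h.2)
  · rw [norm_zero]; exact zero_le_one

theorem inner_cpl (hf : MeasurePreserving f γ κ) (hg : MeasurePreserving g γ κ')
    (u : Lp ℂ 2 κ) (h : Lp ℂ 2 κ') :
    ⟪u, cpl γ f g κ κ' h⟫_ℂ = ∫ ω, conj (u (f ω)) * h (g ω) ∂γ := by
  unfold cpl
  rw [dif_pos ⟨hf, hg⟩, ContinuousLinearMap.comp_apply, ContinuousLinearMap.adjoint_inner_right,
    L2.inner_def]
  refine integral_congr_ae ?_
  filter_upwards [Jm_coe hf u, Jm_coe hg h] with ω h1 h2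
  rw [h1, h2, RCLike.inner_apply, mul_comm]

theorem cpl_condExp [IsProbabilityMeasure γ] (hf : MeasurePreserving f γ κ)
    (hg : MeasurePreserving g γ κ') (h : Lp ℂ 2 κ') :
    γ[fun ω => h (g ω) | MeasurableSpace.comap f inferInstance] =ᵐ[γ]
      fun ω => cpl γ f g κ κ' h (f ω) := by
  have hm : MeasurableSpace.comap f inferInstance ≤ (inferInstance : MeasurableSpace Ω) :=
    hf.measurable.comap_le
  have : IsProbabilityMeasure κ := by
    rw [← hf.map_eq]; exact Measure.isProbabilityMeasure_map hf.measurable.aemeasurable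
  have i1 : Integrable (fun ω => h (g ω)) γ :=
    ((Lp.memLp h).comp_measurePreserving hg).integrable (by norm_num)
  have i2 : Integrable (fun ω => cpl γ f g κ κ' h (f ω)) γ :=
    ((Lp.memLp (cpl γ f g κ κ' h)).comp_measurePreserving hf).integrable (by norm_num)
  symm
  refine ae_eq_condExp_of_forall_setIntegral_eq hm i1 (fun s _ _ => i2.integrableOn) ?_ ?_
  · rintro _ ⟨s, hs, rfl⟩ -
    have e := inner_cpl hf hg (indicatorConstLp 2 hs (measure_ne_top κ s) (1 : ℂ)) h
    rw [L2.inner_indicatorConstLp_one] at e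
    have e1 : ∫ x in s, cpl γ f g κ κ' h x ∂κ = ∫ ω in f ⁻¹' s, cpl γ f g κ κ' h (f ω) ∂γ := by
      have hsm := Lp.aestronglyMeasurable (cpl γ f g κ κ' h)
      generalize (cpl γ f g κ κ' h : X → ℂ) = F at hsm ⊢
      rw [← hf.map_eq] at hsm ⊢
      exact setIntegral_map hs hsm hf.measurable.aemeasurable
    rw [← e1, e, ← integral_indicator (hf.measurable hs)]
    refine integral_congr_ae ?_
    filter_upwards [hf.quasiMeasurePreserving.ae
      (indicatorConstLp_coeFn (p := 2) (hs := hs) (hμs := measure_ne_top κ s) (c := (1 : ℂ)))]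
      with ω hω
    rw [hω]
    by_cases hfs : f ω ∈ s
    · simp [hfs]
    · simp [hfs]
  · exact ((Lp.stronglyMeasurable (cpl γ f g κ κ' h)).comp_measurable
      (comap_measurable f)).aestronglyMeasurable

theorem cpl_map {φ : Ω' → Ω} (hφ : MeasurePreserving φ γ' γ) (hf : MeasurePreserving f γ κ)
    (hg : MeasurePreserving g γ κ') :
    cpl γ f g κ κ' = cpl γ' (fun ω => f (φ ω)) (fun ω => g (φ ω)) κ κ' := by
  ext1 h
  refine ext_inner_left ℂ fun u => ?_
  have hf' : MeasurePreserving (fun ω => f (φ ω)) γ' κ := hf.comp hφ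
  have hg' : MeasurePreserving (fun ω => g (φ ω)) γ' κ' := hg.comp hφ
  rw [inner_cpl hf hg, inner_cpl hf' hg']
  have hm : StronglyMeasurable fun ω => conj (u (f ω)) * h (g ω) :=
    (RCLike.continuous_conj.comp_stronglyMeasurable
      ((Lp.stronglyMeasurable u).comp_measurable hf.measurable)).mul
      ((Lp.stronglyMeasurable h).comp_measurable hg.measurable)
  rw [← hφ.map_eq, integral_map hφ.measurable.aemeasurable hm.aestronglyMeasurable]

/-- the equality case of the contraction -/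
theorem cpl_eq_case (hf : MeasurePreserving f γ κ) (hg : MeasurePreserving g γ κ')
    (h : Lp ℂ 2 κ') (u : Lp ℂ 2 κ) (c : ℂ) (h1 : ‖h‖ = 1) (u1 : ‖u‖ = 1) (c1 : ‖c‖ = 1)
    (e : cpl γ f g κ κ' h = c • u) : ∀ᵐ ω ∂γ, h (g ω) = c * u (f ω) := by
  have n1 : ‖c • u‖ = 1 := by rw [norm_smul, c1, u1, one_mul]
  have e1 : ⟪Jm hf (c • u), Jm hg h⟫_ℂ = 1 := by
    have : ⟪c • u, cpl γ f g κ κ' h⟫_ℂ = 1 := by
      rw [e, inner_self_eq_norm_sq_to_K, n1]; simp
    unfold cpl at this
    rwa [dif_pos ⟨hf, hg⟩, ContinuousLinearMap.comp_apply,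
      ContinuousLinearMap.adjoint_inner_right] at this
  have e2 : Jm hf (c • u) = Jm hg h :=
    (inner_eq_one_iff_of_norm_eq_one (by rw [norm_Jm, n1]) (by rw [norm_Jm, h1])).1 e1
  filter_upwards [Jm_coe hf (c • u), Jm_coe hg h,
    hf.quasiMeasurePreserving.ae (Lp.coeFn_smul c u)] with ω a1 a2 a3
  rw [← a2, ← e2, a1, a3, Pi.smul_apply, smul_eq_mul]

/-- functions of independent variables that agree are constant -/
theorem const_of_prod {μ : Measure X} {μ' : Measure Y} [IsProbabilityMeasure μ]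
    [IsProbabilityMeasure μ'] (hp : MeasurePreserving (fun ω => (f ω, g ω)) γ (μ.prod μ'))
    {Φ : X → ℂ} {Ψ : Y → ℂ} (hΦ : Measurable Φ) (hΨ : Measurable Ψ)
    (h : ∀ᵐ ω ∂γ, Φ (f ω) = Ψ (g ω)) : ∃ a, ∀ᵐ x ∂μ, Φ x = a := by
  have hms : MeasurableSet {p : X × Y | Φ p.1 = Ψ p.2} :=
    measurableSet_eq_fun (hΦ.comp measurable_fst) (hΨ.comp measurable_snd)
  have h1 : ∀ᵐ p ∂μ.prod μ', Φ p.1 = Ψ p.2 := by
    rw [← hp.map_eq]
    exact (ae_map_iff hp.measurable.aemeasurable hms).2 h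
  have h2 : ∀ᵐ p ∂μ'.prod μ, Φ p.2 = Ψ p.1 :=
    (Measure.measurePreserving_swap (μ := μ') (ν := μ)).quasiMeasurePreserving.ae h1
  obtain ⟨y, hy⟩ := (Measure.ae_ae_of_ae_prod h2).exists
  exact ⟨Ψ y, hy⟩

end cpl

variable {C I : Type}

/-- the cell `(b, j)` of the grid -/
abbrev Xc (b : Bool) (j : C) : Om (Bool × C × I) → Om I := pull fun a => (b, j, a)
/-- the law of a cell -/
abbrev kc (ν : Bool → Measure (Om (C × I))) (b : Bool) (j : C) : Measure (Om I) :=
  (ν b).map (cell j)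

instance (ν : Measure (Om (C × I))) [IsProbabilityMeasure ν] (j : C) :
    IsProbabilityMeasure (ν.map (cell j)) :=
  Measure.isProbabilityMeasure_map (measurable_pull _).aemeasurable

/-- `Λ` is the multilinear form of the row -/
def IsLam [Fintype C] [DecidableEq C] (ν : Measure (Om (C × I)))
    (Λ : ContinuousMultilinearMap ℂ (fun j : C => Lp ℂ 2 (ν.map (cell j))) ℂ) : Prop :=
  ∀ u, Λ u = ∫ a, ∏ j, u j (cell j a) ∂ν

/-- the operator of the coupling `lam η` in the column `j` -/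
abbrev Aop {Yt : Type} (lam : Kernel (Om Yt) (Om (Bool × I))) (ν : Bool → Measure (Om (C × I)))
    (j : C) (η : Om Yt) : Lp ℂ 2 (kc ν true j) →L[ℂ] Lp ℂ 2 (kc ν false j) :=
  cpl (lam η) (side false) (side true) (kc ν false j) (kc ν true j)

theorem sg_gS_single (b : Bool) (j : C) :
    sg (gS {b} {j} : Set (Bool × C × I)) = MeasurableSpace.comap (Xc b j) inferInstance := by
  rw [← sg_range]; congr 1
  ext ⟨b', j', a⟩
  simp only [gS, mem_singleton_iff, mem_ofPred_eq, mem_range, Prod.mk.injEq]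
  exact ⟨fun ⟨h1, h2⟩ => ⟨a, h1.symm, h2.symm, rfl⟩, fun ⟨_, h1, h2, _⟩ => ⟨h1.symm, h2.symm⟩⟩

theorem sg_rS_single (j : C) :
    sg (rS {j} : Set (C × I)) = MeasurableSpace.comap (cell j) inferInstance := by
  rw [← sg_range]; congr 1
  ext ⟨j', a⟩
  simp only [rS, mem_singleton_iff, mem_ofPred_eq, mem_range, Prod.mk.injEq]
  exact ⟨fun h => ⟨a, h.symm, rfl⟩, fun ⟨_, h, _⟩ => h.symm⟩

theorem sg_sS_univ (b : Bool) :
    sg (sS b univ : Set (Bool × I)) = MeasurableSpace.comap (side b) inferInstance := by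
  rw [← sg_range]; congr 1
  ext ⟨b', a⟩
  simp only [sS, mem_univ, and_true, mem_ofPred_eq, mem_range, Prod.mk.injEq]
  exact ⟨fun h => ⟨a, h.symm, rfl⟩, fun ⟨_, h, _⟩ => h.symm⟩

theorem Grid.mp_row [Fintype C] {ν : Bool → Measure (Om (C × I))} {M : Measure (Om (Bool × C × I))}
    (G : Grid ν M) (b : Bool) : MeasurePreserving (row b) M (ν b) :=
  ⟨measurable_pull _, G.rows b⟩

theorem Grid.mp_cell [Fintype C] {ν : Bool → Measure (Om (C × I))} {M : Measure (Om (Bool × C × I))}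
    (G : Grid ν M) (b : Bool) (j : C) : MeasurePreserving (Xc b j) M (kc ν b j) :=
  (⟨measurable_pull _, rfl⟩ : MeasurePreserving (cell j) (ν b) (kc ν b j)).comp (G.mp_row b)

end Crest.Agent.R69
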