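import Crest.Agent.R69.F1I

/-! # Row 69, fibre theorem: the intertwining identities on a grid -/

set_option autoImplicit false
set_option linter.unusedVariables false
set_option linter.unusedSectionVars false

open MeasureTheory ProbabilityTheory Filter Topology Set Function
open scoped InnerProductSpace InnerProduct ComplexConjugate

noncomputable section

namespace Crest.Agent.R69

variable {C I : Type} [Fintype C] [DecidableEq C] [Countable I]
  {ν : Bool → Measure (Om (C × I))} [∀ b, IsProbabilityMeasure (ν b)]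
  {M : Measure (Om (Bool × C × I))} [IsProbabilityMeasure M]

theorem fga_aesm (b : Bool) (i : C) (v : Lp ℂ 2 (kc ν b i)) {S : Set (Bool × C × I)}
    (hS : ∀ a, (b, i, a) ∈ S) : AEStronglyMeasurable[sg S] (fun q => v (Xc b i q)) M :=
  ((Lp.stronglyMeasurable v).comp_measurable
    (measurable_pull_range (fun a => (b, i, a)) (by rintro _ ⟨a, rfl⟩; exact hS a))).aestronglyMeasurable

theorem fga_aesm_prod (b : Bool) (j : C) (u : ∀ i, Lp ℂ 2 (kc ν b i)) {S : Set (Bool × C × I)}
    (hS : ∀ i a, i ≠ j → (b, i, a) ∈ S) :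
    AEStronglyMeasurable[sg S] (fun q => ∏ i ∈ Finset.univ.erase j, u i (Xc b i q)) M :=
  integral_prod_of_ind_meas _ fun i hi =>
    fga_aesm b i (u i) fun a => hS i a (Finset.ne_of_mem_erase hi)

theorem fga_cell (G : Grid ν M) (b : Bool) (i : C) (v : Lp ℂ 2 (kc ν b i)) :
    MemLp (fun q => v (Xc b i q)) 2 M :=
  (Lp.memLp v).comp_measurePreserving (G.mp_cell b i)

theorem fga_prod (G : Grid ν M) (b : Bool) (j : C) (u : ∀ i, Lp ℂ 2 (kc ν b i)) :
    MemLp (fun q => ∏ i ∈ Finset.univ.erase j, u i (Xc b i q)) 2 M :=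
  ((G.indR b).memLp j u).comp_measurePreserving (G.mp_row b)

theorem fga_map (G : Grid ν M) (b : Bool) {F : Om (C × I) → ℂ} (hF : Measurable F) :
    ∫ a, F a ∂ν b = ∫ q, F (row b q) ∂M := by
  rw [← G.rows b, integral_map (measurable_pull _).aemeasurable hF.aestronglyMeasurable]

theorem fga_row (G : Grid ν M) (b : Bool) (j : C) (w : Lp ℂ 2 (kc ν b j))
    (u : ∀ i, Lp ℂ 2 (kc ν b i)) :
    ∫ a, w (cell j a) * ∏ i ∈ Finset.univ.erase j, u i (cell i a) ∂ν b =
      ∫ q, w (Xc b j q) * ∏ i ∈ Finset.univ.erase j, u i (Xc b i q) ∂M :=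
  fga_map G b (F := fun a => w (cell j a) * ∏ i ∈ Finset.univ.erase j, u i (cell i a))
    (((Lp.stronglyMeasurable w).measurable.comp (measurable_pull _)).mul
      (Finset.measurable_prod _ fun i _ =>
        (Lp.stronglyMeasurable (u i)).measurable.comp (measurable_pull _)))

theorem fga_adj {J : Type} {N : Measure (Om J)} [IsProbabilityMeasure N] (S : Set J)
    {F G : Om J → ℂ} (hF : MemLp F 2 N) (hG : MemLp G 2 N) :
    ∫ x, (N[F | sg S]) x * G x ∂N = ∫ x, F x * (N[G | sg S]) x ∂N := by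
  have h1 : N[N[F | sg S] * G | sg S] =ᵐ[N] fun x => (N[F | sg S]) x * (N[G | sg S]) x :=
    condExp_bilin_of_aestronglyMeasurable_left (ContinuousLinearMap.mul ℝ ℂ)
      stronglyMeasurable_condExp.aestronglyMeasurable
      ((hF.condExp one_le_two).integrable_mul hG) (hG.integrable one_le_two)
  have h2 : N[F * N[G | sg S] | sg S] =ᵐ[N] fun x => (N[F | sg S]) x * (N[G | sg S]) x :=
    condExp_bilin_of_aestronglyMeasurable_right (ContinuousLinearMap.mul ℝ ℂ)
      stronglyMeasurable_condExp.aestronglyMeasurable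
      (hF.integrable_mul (hG.condExp one_le_two)) (hF.integrable one_le_two)
  have e := integral_congr_ae (h1.trans h2.symm)
  rw [integral_condExp (sg_le _), integral_condExp (sg_le _)] at e
  exact e

/-- the principle (h2) -/
theorem Grid.step1 (G : Grid ν M) {b b' : Bool} (hb : b' = !b) (j : C)
    (u : ∀ i, Lp ℂ 2 (kc ν b i)) (h : Lp ℂ 2 (kc ν b' j)) :
    ∫ a, cpl M (Xc b j) (Xc b' j) (kc ν b j) (kc ν b' j) h (cell j a) *
        ∏ i ∈ Finset.univ.erase j, u i (cell i a) ∂ν b =
      ∫ q, h (Xc b' j q) * ∏ i ∈ Finset.univ.erase j, u i (Xc b i q) ∂M := by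
  have hb' : (!b') = b := by rw [hb, Bool.not_not]
  have ci := G.h2 b' j
  rw [hb'] at ci
  rw [fga_row G b j, ci.integral_mul (fga_cell G b' j h) (fga_prod G b j u)
    (fga_aesm b' j h fun a => Or.inl ⟨rfl, rfl⟩)
    (fga_aesm_prod b j u fun i a _ => Or.inl ⟨rfl, mem_univ _⟩), sg_gS_single]
  refine integral_congr_ae ?_
  filter_upwards [cpl_condExp (G.mp_cell b j) (G.mp_cell b' j) h] with q hq
  rw [hq]

theorem fgb_meas (c : Bool) (i : C) (v : Lp ℂ 2 (kc ν c i)) {S : Set (Bool × C × I)}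
    (h : range (fun a : I => (c, i, a)) ⊆ S) :
    StronglyMeasurable[sg S] fun q => v (Xc c i q) :=
  (Lp.stronglyMeasurable v).comp_measurable (measurable_pull_range _ h)

/-- independence of the columns (h3) -/
theorem Grid.step2 (G : Grid ν M) (b b' : Bool) (j : C) (u : ∀ i, Lp ℂ 2 (kc ν b i)) :
    M[fun q => ∏ i ∈ Finset.univ.erase j, u i (Xc b i q) | sg (gS {b'} {j}ᶜ)] =ᵐ[M]
      fun q => ∏ i ∈ Finset.univ.erase j,
        cpl M (Xc b' i) (Xc b i) (kc ν b' i) (kc ν b i) (u i) (Xc b' i q) := by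
  have hind : ∀ i ∈ Finset.univ.erase j, ∀ t' ⊆ Finset.univ.erase j, i ∉ t' →
      Ind M (gS univ {i}) (⋃ k ∈ t', (gS univ {k} : Set (Bool × C × I))) := by
    intro i hi t' ht' hit
    have e : (⋃ k ∈ t', (gS univ {k} : Set (Bool × C × I))) = gS univ (t' : Set C) := by
      ext q; simp [gS]
    rw [e]
    refine G.h3 i t' hit ?_
    have hj : j ∉ insert i t' := by
      rw [Finset.mem_insert, not_or]
      exact ⟨(Finset.ne_of_mem_erase hi).symm, fun h => Finset.notMem_erase j _ (ht' h)⟩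
    have := Finset.card_le_univ (insert j (insert i t'))
    rw [Finset.card_insert_of_notMem hj, Finset.card_insert_of_notMem hit] at this
    omega
  have hL : ∀ (c : Bool) (v : ∀ i, Lp ℂ 2 (kc ν c i)),
      Integrable (fun q => ∏ i ∈ Finset.univ.erase j, v i (Xc c i q)) M := fun c v =>
    (((G.indR c).memLp j v).comp_measurePreserving (G.mp_row c)).integrable one_le_two
  refine condExp_of_test (hL b u)
    (hL b' fun i => cpl M (Xc b' i) (Xc b i) (kc ν b' i) (kc ν b i) (u i)) ?_ ?_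
  · refine integral_prod_of_ind_meas _ fun i hi => (fgb_meas b' i _ ?_).aestronglyMeasurable
    rintro _ ⟨a, rfl⟩
    exact ⟨rfl, Finset.ne_of_mem_erase hi⟩
  · intro m hm
    have e : (gS {b'} {j}ᶜ : Set (Bool × C × I)) = (fun q => (b', q)) '' rS {j}ᶜ := by
      ext ⟨c, q⟩
      simp only [gS, rS, mem_singleton_iff, mem_ofPred_eq, mem_image, Prod.mk.injEq]
      exact ⟨fun ⟨h1, h2⟩ => ⟨q, h2, h1.symm, rfl⟩,
        fun ⟨_, h1, h2, h3⟩ => ⟨h2.symm, h3 ▸ h1⟩⟩
    rw [e] at hm
    obtain ⟨m', hm', rfl⟩ := hm.of_image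
    obtain ⟨w, hw, hw0⟩ := exists_mon_prod m'
    have hwj : w j = 0 := hw0 j fun q hq => hm' q hq
    have hmon : ∀ q : Om (Bool × C × I), mon (m'.map fun q => (b', q)) q =
        ∏ i ∈ Finset.univ.erase j, mon (w i) (Xc b' i q) := by
      intro q
      rw [mon_map, hw, ← Finset.mul_prod_erase _ _ (Finset.mem_univ j), hwj, mon_zero, one_mul]
      rfl
    have fac : ∀ (c : Bool) (v : ∀ i, Lp ℂ 2 (kc ν c i)),
        ∫ q, mon (m'.map fun q => (b', q)) q • ∏ i ∈ Finset.univ.erase j, v i (Xc c i q) ∂M =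
          ∏ i ∈ Finset.univ.erase j, ∫ q, mon (w i) (Xc b' i q) • v i (Xc c i q) ∂M := by
      intro c v
      rw [← integral_prod_of_ind (Finset.univ.erase j) (fun i => gS univ {i}) hind
        (fun i q => mon (w i) (Xc b' i q) • v i (Xc c i q)) ?_]
      · refine integral_congr_ae (Filter.Eventually.of_forall fun q => ?_)
        simp only [hmon, Complex.real_smul, Finset.prod_mul_distrib, Complex.ofReal_prod]
      · intro i hi
        have h1 : Measurable[sg (gS univ {i} : Set (Bool × C × I))]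
            fun q => mon (w i) (Xc b' i q) :=
          (measurable_mon (w i)).comp (measurable_pull_range _ (by
            rintro _ ⟨a, rfl⟩; exact ⟨mem_univ _, rfl⟩))
        exact (h1.stronglyMeasurable.smul (fgb_meas c i (v i) (by
            rintro _ ⟨a, rfl⟩; exact ⟨mem_univ _, rfl⟩))).aestronglyMeasurable
    rw [fac b u, fac b' fun i => cpl M (Xc b' i) (Xc b i) (kc ν b' i) (kc ν b i) (u i)]
    refine Finset.prod_congr rfl fun i hi => ?_
    have hi1 : Integrable (fun q => u i (Xc b i q)) M :=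
      ((Lp.memLp (u i)).comp_measurePreserving (G.mp_cell b i)).integrable one_le_two
    have hin : InB ((w i).map fun a => (b', i, a)) (gS {b'} {i} : Set (Bool × C × I)) := by
      intro q hq
      obtain ⟨a, -, rfl⟩ := Multiset.mem_map.1 hq
      exact ⟨rfl, rfl⟩
    have h1 := integral_mon_smul_condExp hi1 hin
    have h2 := cpl_condExp (G.mp_cell b' i) (G.mp_cell b i) (u i)
    rw [← sg_gS_single] at h2
    simp only [mon_map] at h1
    rw [← h1]
    refine integral_congr_ae ?_
    filter_upwards [h2] with q hq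
    rw [hq]

/-- saturation (h4) -/
theorem Grid.step3 (G : Grid ν M) (b b' : Bool) (j : C)
    (u : ∀ i, Lp ℂ 2 (kc ν b i)) (h : Lp ℂ 2 (kc ν b' j)) :
    ∫ q, h (Xc b' j q) * ∏ i ∈ Finset.univ.erase j, u i (Xc b i q) ∂M =
      ∫ a, h (cell j a) * ∏ i ∈ Finset.univ.erase j,
        cpl M (Xc b' i) (Xc b i) (kc ν b' i) (kc ν b i) (u i) (cell i a) ∂ν b' := by
  rw [fga_row G b' j h fun i => cpl M (Xc b' i) (Xc b i) (kc ν b' i) (kc ν b i) (u i),
    (G.h4 b' j).integral_mul (fga_cell G b' j h) (fga_prod G b j u)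
    (fga_aesm b' j h fun a => Or.inl ⟨rfl, rfl⟩)
    (fga_aesm_prod b j u fun i a hi => Or.inl ⟨mem_univ _, hi⟩),
    fga_adj _ (fga_cell G b' j h) (fga_prod G b j u)]
  refine integral_congr_ae ?_
  filter_upwards [G.step2 b b' j u] with q hq
  rw [hq]

theorem Grid.goodT (G : Grid ν M) {Λ Λ'} (hΛ : IsLam (ν false) Λ) (hΛ' : IsLam (ν true) Λ') :
    GoodT Λ Λ' fun j => cpl M (Xc false j) (Xc true j) (kc ν false j) (kc ν true j) := by
  refine ⟨fun j u h => ?_, fun j v w => ?_⟩
  · simp only [cpl_adjoint]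
    rw [hΛ.update, hΛ'.update]
    exact (G.step1 (b := false) (b' := true) rfl j u h).trans (G.step3 false true j u h)
  · simp only [cpl_adjoint]
    rw [hΛ.update, hΛ'.update]
    exact (G.step1 (b := true) (b' := false) rfl j v w).trans (G.step3 true false j v w)

end Crest.Agent.R69
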