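import Crest.Agent.R69.F1D

/-! # Row 69, fibre theorem: products of independent functions; the form of a row -/

set_option autoImplicit false
set_option linter.unusedVariables false
set_option linter.unusedSectionVars false

open MeasureTheory ProbabilityTheory Filter Topology Set Function
open scoped InnerProductSpace InnerProduct ComplexConjugate

noncomputable section

namespace Crest.Agent.R69

section
variable {I : Type} [Countable I] {M : Measure (Om I)} [IsProbabilityMeasure M]

theorem fia_memLp_mul {S T : Set I} (h : Ind M S T) {F G : Om I → ℂ}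
    (hFm : AEStronglyMeasurable[sg S] F M) (hGm : AEStronglyMeasurable[sg T] G M)
    (hF : MemLp F 2 M) (hG : MemLp G 2 M) : MemLp (fun x => F x * G x) 2 M := by
  have i0 : IndepFun (hFm.mk F) (hGm.mk G) M :=
    (IndepFun_iff_Indep _ _ _).2 (indep_of_indep_of_le_right (indep_of_indep_of_le_left
      (ind_iff_indep.1 h) hFm.stronglyMeasurable_mk.measurable.comap_le)
      hGm.stronglyMeasurable_mk.measurable.comap_le)
  have i1 : IndepFun F G M := i0.congr hFm.ae_eq_mk.symm hGm.ae_eq_mk.symm
  have mφ : Measurable fun z : ℂ => ‖z‖ ^ 2 := by fun_prop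
  have i2 := (i1.comp mφ mφ).integrable_mul
    ((memLp_two_iff_integrable_sq_norm hF.1).1 hF) ((memLp_two_iff_integrable_sq_norm hG.1).1 hG)
  refine (memLp_two_iff_integrable_sq_norm (hF.1.mul hG.1)).2 (i2.congr ?_)
  exact Eventually.of_forall fun x => by simp [mul_pow]

theorem memLp_prod_of_ind {J : Type} [DecidableEq J] (t : Finset J) (V : J → Set I)
    (h : ∀ j ∈ t, ∀ t' ⊆ t, j ∉ t' → Ind M (V j) (⋃ i ∈ t', V i)) (F : J → Om I → ℂ)
    (hF : ∀ j ∈ t, AEStronglyMeasurable[sg (V j)] (F j) M) (h2 : ∀ j ∈ t, MemLp (F j) 2 M) :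
    MemLp (fun x => ∏ j ∈ t, F j x) 2 M := by
  induction t using Finset.induction_on with
  | empty => simpa only [Finset.prod_empty] using memLp_const (1 : ℂ)
  | insert a t ha ih =>
    simp only [Finset.prod_insert ha]
    exact fia_memLp_mul (h a (Finset.mem_insert_self _ _) t (Finset.subset_insert _ _) ha)
      (hF a (Finset.mem_insert_self _ _)) (integral_prod_of_ind_meas t fun j hj =>
        (hF j (Finset.mem_insert_of_mem hj)).mono (sg_mono (subset_biUnion_of_mem (u := V) hj)))
      (h2 a (Finset.mem_insert_self _ _))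
      (ih (fun j hj t' ht' => h j (Finset.mem_insert_of_mem hj) t'
        (ht'.trans (Finset.subset_insert _ _))) (fun j hj => hF j (Finset.mem_insert_of_mem hj))
        fun j hj => h2 j (Finset.mem_insert_of_mem hj))

end

variable {C I : Type} [Fintype C] [DecidableEq C] [Countable I]

theorem Grid.indR {ν : Bool → Measure (Om (C × I))} [∀ b, IsProbabilityMeasure (ν b)]
    {M : Measure (Om (Bool × C × I))} [IsProbabilityMeasure M] (G : Grid ν M) (b : Bool) :
    IndR (ν b) := by
  intro j J hj hc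
  rw [← G.rows b]
  refine (ind_pull (fun q : C × I => (b, q)) _ _).1 ((G.h3 j J hj hc).mono ?_ ?_)
  · rintro _ ⟨q, hq, rfl⟩
    exact ⟨mem_univ _, hq⟩
  · rintro _ ⟨q, hq, rfl⟩
    exact ⟨mem_univ _, hq⟩

/-- the product over the cells other than `r` is square integrable -/
theorem IndR.memLp {ν : Measure (Om (C × I))} [IsProbabilityMeasure ν] (h : IndR ν) (r : C)
    (u : ∀ j : C, Lp ℂ 2 (ν.map (cell j))) :
    MemLp (fun a => ∏ j ∈ Finset.univ.erase r, u j (cell j a)) 2 ν := by
  refine memLp_prod_of_ind (Finset.univ.erase r) (fun j => rS {j}) (fun j hj t' ht' hjt => ?_)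
    (fun j a => u j (cell j a)) (fun j _ => ?_) fun j _ => ?_
  · have hr : r ∉ insert j t' := by
      rw [Finset.mem_insert, not_or]
      exact ⟨(Finset.ne_of_mem_erase hj).symm, fun hh => Finset.notMem_erase r _ (ht' hh)⟩
    have hc := Finset.card_le_univ (insert r (insert j t'))
    rw [Finset.card_insert_of_notMem hr, Finset.card_insert_of_notMem hjt] at hc
    refine (h j t' hjt hc).mono Subset.rfl ?_
    intro q hq
    simp only [mem_iUnion] at hq
    obtain ⟨i, hi, hq⟩ := hq
    have : q.1 = i := hq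
    show q.1 ∈ (t' : Set C)
    rw [this]
    exact hi
  · rw [sg_rS_single]
    exact ((Lp.stronglyMeasurable (u j)).comp_measurable
      (comap_measurable (cell j))).aestronglyMeasurable
  · exact (Lp.memLp (u j)).comp_measurePreserving ⟨measurable_pull _, rfl⟩

theorem fib_lam_cs {X : Type} [MeasurableSpace X] {μ : Measure X} {f g : X → ℂ} (hf : MemLp f 2 μ)
    (hg : MemLp g 2 μ) :
    ‖∫ x, f x * g x ∂μ‖ ≤ √(∫ x, ‖f x‖ ^ 2 ∂μ) * √(∫ x, ‖g x‖ ^ 2 ∂μ) := by
  have h := integral_mul_norm_le_Lp_mul_Lq (μ := μ) (f := f) (g := g) Real.HolderConjugate.two_two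
    (by simpa using hf) (by simpa using hg)
  simp only [Real.rpow_two] at h
  rw [Real.sqrt_eq_rpow, Real.sqrt_eq_rpow]
  refine (norm_integral_le_integral_norm _).trans ?_
  simpa only [norm_mul] using h

theorem fib_lam_norm_sq {X : Type} [MeasurableSpace X] {μ : Measure X} (u : Lp ℂ 2 μ) :
    ∫ x, ((‖u x‖ ^ 2 : ℝ) : ℂ) ∂μ = ((‖u‖ ^ 2 : ℝ) : ℂ) := by
  have h := inner_self_eq_norm_sq_to_K (𝕜 := ℂ) u
  rw [L2.inner_def] at h
  simp only [inner_self_eq_norm_sq_to_K] at h
  simpa using h

theorem fib_lam_mp_cell (ν : Measure (Om (C × I))) (j : C) :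
    MeasurePreserving (cell j) ν (ν.map (cell j)) := ⟨measurable_pull _, rfl⟩

theorem fib_lam_cell_norm_sq {ν : Measure (Om (C × I))} (j : C) (u : Lp ℂ 2 (ν.map (cell j))) :
    ∫ a, ((‖u (cell j a)‖ ^ 2 : ℝ) : ℂ) ∂ν = ((‖u‖ ^ 2 : ℝ) : ℂ) := by
  rw [← fib_lam_norm_sq u, integral_map (measurable_pull _).aemeasurable]
  exact Complex.continuous_ofReal.comp_aestronglyMeasurable
    ((Lp.aestronglyMeasurable u).norm.pow 2)

theorem fib_lam_prod_norm_sq {ν : Measure (Om (C × I))} [IsProbabilityMeasure ν] (h : IndR ν) (r : C)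
    (u : ∀ j : C, Lp ℂ 2 (ν.map (cell j))) :
    ∫ a, ‖∏ j ∈ Finset.univ.erase r, u j (cell j a)‖ ^ 2 ∂ν =
      (∏ j ∈ Finset.univ.erase r, ‖u j‖) ^ 2 := by
  have key := integral_prod_of_ind (M := ν) (Finset.univ.erase r) (fun j => rS {j})
    (fun j hj t' ht' hjt => by
      have e : (⋃ i ∈ t', (rS {i} : Set (C × I))) = rS (t' : Set C) := by
        ext q; simp [rS]
      rw [e]
      refine h j t' hjt ?_
      have h1 : t' ⊆ (Finset.univ.erase r).erase j := fun i hi =>
        Finset.mem_erase.2 ⟨fun hij => hjt (hij ▸ hi), ht' hi⟩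
      have h2 := Finset.card_le_card h1
      rw [Finset.card_erase_of_mem hj, Finset.card_erase_of_mem (Finset.mem_univ r),
        Finset.card_univ] at h2
      have h3 := Finset.card_pos.2 ⟨j, hj⟩
      rw [Finset.card_erase_of_mem (Finset.mem_univ r), Finset.card_univ] at h3
      omega)
    (fun j a => ((‖u j (cell j a)‖ ^ 2 : ℝ) : ℂ))
    (fun j _ => by
      rw [sg_rS_single]
      refine StronglyMeasurable.aestronglyMeasurable ?_
      exact (Complex.continuous_ofReal.comp_stronglyMeasurable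
        ((Lp.stronglyMeasurable (u j)).norm.pow 2)).comp_measurable (comap_measurable _))
  simp only [fib_lam_cell_norm_sq] at key
  apply Complex.ofReal_injective
  rw [← integral_complex_ofReal]
  simp only [norm_prod, ← Finset.prod_pow, Complex.ofReal_prod]
  exact key

theorem fib_lam_split {ν : Measure (Om (C × I))} (u : ∀ j : C, Lp ℂ 2 (ν.map (cell j))) (r : C)
    (w : Lp ℂ 2 (ν.map (cell r))) (a : Om (C × I)) :
    ∏ j, (update u r w j) (cell j a) =
      w (cell r a) * ∏ j ∈ Finset.univ.erase r, u j (cell j a) := by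
  rw [← Finset.mul_prod_erase Finset.univ _ (Finset.mem_univ r), update_self]
  congr 1
  exact Finset.prod_congr rfl fun j hj => by rw [update_of_ne (Finset.ne_of_mem_erase hj)]

theorem exists_Lam {ν : Measure (Om (C × I))} [IsProbabilityMeasure ν] [Nonempty C] (h : IndR ν) :
    ∃ Λ, IsLam ν Λ := by
  have hm : ∀ (r : C) (w : Lp ℂ 2 (ν.map (cell r))), MemLp (fun a => w (cell r a)) 2 ν :=
    fun r w => (Lp.memLp w).comp_measurePreserving (fib_lam_mp_cell ν r)
  let L : MultilinearMap ℂ (fun j : C => Lp ℂ 2 (ν.map (cell j))) ℂ :=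
    { toFun := fun u => ∫ a, ∏ j, u j (cell j a) ∂ν
      map_update_add' := by
        intro dec u r x y
        simp only [fib_lam_split]
        refine Eq.trans (integral_congr_ae ?_) (integral_add
          ((hm r x).integrable_mul (h.memLp r u)) ((hm r y).integrable_mul (h.memLp r u)))
        filter_upwards [(fib_lam_mp_cell ν r).quasiMeasurePreserving.ae (Lp.coeFn_add x y)] with a ha
        simp only [ha, Pi.add_apply, add_mul]
      map_update_smul' := by
        intro dec u r c x
        simp only [fib_lam_split]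
        rw [smul_eq_mul, ← integral_const_mul]
        refine integral_congr_ae ?_
        filter_upwards [(fib_lam_mp_cell ν r).quasiMeasurePreserving.ae (Lp.coeFn_smul c x)] with a ha
        simp only [ha, Pi.smul_apply, smul_eq_mul, mul_assoc] }
  refine ⟨L.mkContinuous 1 fun u => ?_, fun u => rfl⟩
  obtain ⟨r⟩ := ‹Nonempty C›
  have e : L u = ∫ a, u r (cell r a) * ∏ j ∈ Finset.univ.erase r, u j (cell j a) ∂ν := by
    change ∫ a, ∏ j, u j (cell j a) ∂ν = _
    simp only [← fib_lam_split, update_eq_self]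
  have e1 : ∫ a, ‖u r (cell r a)‖ ^ 2 ∂ν = ‖u r‖ ^ 2 := by
    apply Complex.ofReal_injective
    rw [← integral_complex_ofReal]
    exact fib_lam_cell_norm_sq r (u r)
  rw [e]
  refine (fib_lam_cs (hm r (u r)) (h.memLp r u)).trans (le_of_eq ?_)
  rw [e1, fib_lam_prod_norm_sq h, Real.sqrt_sq (norm_nonneg _),
    Real.sqrt_sq (Finset.prod_nonneg fun _ _ => norm_nonneg _), one_mul,
    Finset.mul_prod_erase Finset.univ (fun j => ‖u j‖) (Finset.mem_univ r)]

theorem IsLam.update {ν : Measure (Om (C × I))} [IsProbabilityMeasure ν] {Λ} (h : IsLam ν Λ)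
    (u : ∀ j : C, Lp ℂ 2 (ν.map (cell j))) (r : C) (w : Lp ℂ 2 (ν.map (cell r))) :
    Λ (update u r w) = ∫ a, w (cell r a) * ∏ j ∈ Finset.univ.erase r, u j (cell j a) ∂ν := by
  rw [h]
  refine integral_congr_ae (Eventually.of_forall fun a => ?_)
  simp only
  rw [← Finset.mul_prod_erase _ _ (Finset.mem_univ r), update_self]
  congr 1
  exact Finset.prod_congr rfl fun j hj => by rw [update_of_ne (Finset.ne_of_mem_erase hj)]

end Crest.Agent.R69
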