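import Mathlib

/-! Hilbert-Schmidt operators are compact (helper72). -/

set_option autoImplicit false
open scoped InnerProductSpace ComplexConjugate
open MeasureTheory Filter Topology

namespace Crest.Agent.R69

section abstract
variable {E F : Type*} [NormedAddCommGroup E] [InnerProductSpace ℂ E] [CompleteSpace E]
  [NormedAddCommGroup F] [InnerProductSpace ℂ F] [CompleteSpace F]

theorem compact_rankOne (x : F) (y : E) :
    IsCompactOperator ((innerSL ℂ y).smulRight x : E →L[ℂ] F) := by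
  have h1 : IsCompactOperator (ContinuousLinearMap.id ℂ ℂ) :=
    (isCompactOperator_id_iff_finiteDimensional (𝕜 := ℂ)).2 inferInstance
  have h2 := (h1.comp_clm (innerSL ℂ y)).clm_comp (ContinuousLinearMap.toSpanSingleton ℂ x)
  exact h2

theorem compact_of_basis {ι : Type*} (b : HilbertBasis ι ℂ E) (A : E →L[ℂ] F) (M : ℝ)
    (h : ∀ s : Finset ι, ∑ i ∈ s, ‖A (b i)‖ ^ 2 ≤ M) : IsCompactOperator A := by
  classical
  have hsum : Summable fun i => ‖A (b i)‖ ^ 2 :=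
    summable_of_sum_le (fun i => by positivity) h
  let As : Finset ι → E →L[ℂ] F := fun s => ∑ i ∈ s, (innerSL ℂ (b i)).smulRight (A (b i))
  have hc : ∀ s, IsCompactOperator (As s) := by
    intro s
    induction s using Finset.induction_on with
    | empty => simpa [As] using isCompactOperator_zero
    | insert i s hi ih =>
      simp only [As, Finset.sum_insert hi]
      exact (compact_rankOne _ _).add ih
  refine isCompactOperator_of_tendsto (l := (atTop : Filter (Finset ι))) (F := As) ?_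
    (Eventually.of_forall hc)
  rw [Metric.tendsto_atTop]
  intro ε hε
  obtain ⟨s0, hs0⟩ := (summable_iff_vanishing_norm.1 hsum) ((ε / 2) ^ 2) (by positivity)
  refine ⟨s0, fun s hs => ?_⟩
  rw [dist_eq_norm]
  refine lt_of_le_of_lt (ContinuousLinearMap.opNorm_le_bound _ (M := ε / 2) (by positivity)
    fun x => ?_) (by linarith)
  have hx : Tendsto (fun t : Finset ι => As t x) atTop (𝓝 (A x)) := by
    have := (b.hasSum_repr x).mapL A
    refine Tendsto.congr (fun t => ?_) this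
    simp [As, b.repr_apply_apply]
  have hlim : Tendsto (fun t : Finset ι => ‖As s x - As t x‖) atTop (𝓝 ‖As s x - A x‖) :=
    (tendsto_const_nhds.sub hx).norm
  rw [sub_apply]
  refine le_of_tendsto hlim ?_
  filter_upwards [eventually_ge_atTop s] with t ht
  have e1 : As t x - As s x = ∑ i ∈ t \ s, ⟪b i, x⟫_ℂ • A (b i) := by
    simp only [As, sum_apply, ContinuousLinearMap.smulRight_apply,
      innerSL_apply_apply]
    rw [← Finset.sum_sdiff ht, add_sub_cancel_right]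
  rw [norm_sub_rev, e1]
  have h1 : ∑ i ∈ t \ s, ‖⟪b i, x⟫_ℂ‖ ^ 2 ≤ ‖x‖ ^ 2 := b.orthonormal.sum_inner_products_le x
  have h2 : ∑ i ∈ t \ s, ‖A (b i)‖ ^ 2 ≤ (ε / 2) ^ 2 := by
    have := hs0 (t \ s) (Finset.disjoint_left.2 fun i hi hi0 => (Finset.mem_sdiff.1 hi).2 (hs hi0))
    exact ((le_abs_self _).trans this.le)
  refine (norm_sum_le _ _).trans ?_
  simp only [norm_smul]
  apply le_of_sq_le_sq' ?_ (by positivity)
  refine (Finset.sum_mul_sq_le_sq_mul_sq _ _ _).trans ?_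
  rw [mul_pow, mul_comm ((ε / 2) ^ 2)]
  gcongr
where
  le_of_sq_le_sq' {a c : ℝ} (h : a ^ 2 ≤ c ^ 2) (hc : 0 ≤ c) : a ≤ c := by
    exact (abs_le_of_sq_le_sq' h hc).2

/-- An operator whose sesquilinear form is bounded on the Hilbert tensor product is compact. -/
theorem compact_of_tensor_bound (A : E →L[ℂ] F) (M : ℝ)
    (h : ∀ (s : Finset E) (u : E → F),
      ‖∑ e ∈ s, ⟪u e, A e⟫_ℂ‖ ^ 2 ≤ M * (∑ e ∈ s, ∑ e' ∈ s, ⟪u e, u e'⟫_ℂ * ⟪e', e⟫_ℂ).re) :
    IsCompactOperator A := by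
  classical
  obtain ⟨w, b, hb⟩ := exists_hilbertBasis ℂ E
  refine compact_of_basis b A (max M 0) fun s => ?_
  have h1 := h (s.map ⟨Subtype.val, Subtype.val_injective⟩) A
  simp only [Finset.sum_map, Function.Embedding.coeFn_mk] at h1
  have hon : ∀ i j : w, ⟪(i : E), (j : E)⟫_ℂ = if i = j then 1 else 0 := by
    intro i j
    have := orthonormal_iff_ite.1 b.orthonormal i j
    rwa [hb] at this
  have e1 : ∀ i ∈ s, ∑ j ∈ s, ⟪A (i : E), A (j : E)⟫_ℂ * ⟪(j : E), (i : E)⟫_ℂ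
      = ⟪A (i : E), A (i : E)⟫_ℂ := by
    intro i hi
    simp only [hon, mul_ite, mul_one, mul_zero]
    rw [Finset.sum_ite_eq' s i, if_pos hi]
  rw [Finset.sum_congr rfl e1] at h1
  have e2 : ∑ i ∈ s, ⟪A (i : E), A (i : E)⟫_ℂ = ((∑ i ∈ s, ‖A (b i)‖ ^ 2 : ℝ) : ℂ) := by
    push_cast
    refine Finset.sum_congr rfl fun i _ => ?_
    rw [inner_self_eq_norm_sq_to_K, hb]; rfl
  rw [e2, Complex.ofReal_re, Complex.norm_real, Real.norm_eq_abs, sq_abs] at h1
  have h0 : 0 ≤ ∑ i ∈ s, ‖A (b i)‖ ^ 2 := Finset.sum_nonneg fun i _ => by positivity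
  rcases h0.eq_or_lt with h0 | h0
  · rw [← h0]; exact le_max_right _ _
  · refine le_trans ?_ (le_max_left _ _)
    rw [sq] at h1
    exact le_of_mul_le_mul_right h1 h0

end abstract

section kernel
variable {X Y Ω : Type*} [MeasurableSpace X] [MeasurableSpace Y] [MeasurableSpace Ω]
  {ρ : Measure X} {σ : Measure Y} [SFinite ρ] [SFinite σ]

omit [SFinite ρ] [SFinite σ] in
theorem memLp_tens (u : Lp ℂ 2 ρ) (v : Lp ℂ 2 σ) :
    MemLp (fun p : X × Y => u p.1 * conj (v p.2)) 2 (ρ.prod σ) := by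
  have hm : AEStronglyMeasurable (fun p : X × Y => u p.1 * conj (v p.2)) (ρ.prod σ) :=
    (Lp.aestronglyMeasurable u).comp_fst.mul
      (Complex.continuous_conj.comp_aestronglyMeasurable (Lp.aestronglyMeasurable v).comp_snd)
  rw [memLp_two_iff_integrable_sq_norm hm]
  have h1 := (memLp_two_iff_integrable_sq_norm (Lp.aestronglyMeasurable u)).1 (Lp.memLp u)
  have h2 := (memLp_two_iff_integrable_sq_norm (Lp.aestronglyMeasurable v)).1 (Lp.memLp v)
  refine (h1.mul_prod h2).congr (Eventually.of_forall fun p => ?_)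
  simp [mul_pow]

/-- If `(r, s)` has the product law and `⟪u, A h⟫ = E[conj (u ∘ r) * (h ∘ s) * g]` with `g ∈ L²`,
then `A` is compact. -/
theorem compact_of_kernel (P : Measure Ω) (r : Ω → X) (s : Ω → Y)
    (hrs : MeasurePreserving (fun ω => (r ω, s ω)) P (ρ.prod σ)) (g : Ω → ℂ) (hg : MemLp g 2 P)
    (A : Lp ℂ 2 σ →L[ℂ] Lp ℂ 2 ρ)
    (hA : ∀ u h, ⟪u, A h⟫_ℂ = ∫ ω, conj (u (r ω)) * h (s ω) * g ω ∂P) :
    IsCompactOperator A := by
  classical
  have hm : ∀ (u : Lp ℂ 2 ρ) (v : Lp ℂ 2 σ), MemLp (fun ω => u (r ω) * conj (v (s ω))) 2 P :=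
    fun u v => (memLp_tens u v).comp_measurePreserving hrs
  let t : Lp ℂ 2 ρ → Lp ℂ 2 σ → Lp ℂ 2 P := fun u v => (hm u v).toLp _
  have ht1 : ∀ u v, ⟪t u v, hg.toLp g⟫_ℂ = ⟪u, A v⟫_ℂ := by
    intro u v
    rw [hA, L2.inner_def]
    refine integral_congr_ae ?_
    filter_upwards [(hm u v).coeFn_toLp, hg.coeFn_toLp] with ω h1 h2
    simp only [t]
    rw [h1, h2]
    simp [mul_comm]
  have ht2 : ∀ u v u' v', ⟪t u v, t u' v'⟫_ℂ = ⟪u, u'⟫_ℂ * ⟪v', v⟫_ℂ := by
    intro u v u' v'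
    rw [L2.inner_def, L2.inner_def, L2.inner_def, ← integral_prod_mul]
    have hmm : AEStronglyMeasurable
        (fun p : X × Y => ⟪u p.1, u' p.1⟫_ℂ * ⟪v' p.2, v p.2⟫_ℂ) (ρ.prod σ) :=
      ((Lp.aestronglyMeasurable u).inner (Lp.aestronglyMeasurable u')).comp_fst.mul
        ((Lp.aestronglyMeasurable v').inner (Lp.aestronglyMeasurable v)).comp_snd
    rw [← hrs.map_eq] at hmm ⊢
    rw [integral_map hrs.measurable.aemeasurable hmm]
    refine integral_congr_ae ?_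
    filter_upwards [(hm u v).coeFn_toLp, (hm u' v').coeFn_toLp] with ω h1 h2
    simp only [t]
    rw [h1, h2]
    simp only [RCLike.inner_apply, map_mul, Complex.conj_conj]
    ring
  refine compact_of_tensor_bound A (‖hg.toLp g‖ ^ 2) fun S u => ?_
  have e1 : ∑ e ∈ S, ⟪u e, A e⟫_ℂ = ⟪∑ e ∈ S, t (u e) e, hg.toLp g⟫_ℂ := by
    rw [sum_inner]; simp only [ht1]
  have e2 : ∑ e ∈ S, ∑ e' ∈ S, ⟪u e, u e'⟫_ℂ * ⟪e', e⟫_ℂ
      = ⟪∑ e ∈ S, t (u e) e, ∑ e ∈ S, t (u e) e⟫_ℂ := by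
    rw [sum_inner]
    refine Finset.sum_congr rfl fun e _ => ?_
    rw [inner_sum]; simp only [ht2]
  rw [e1, e2, inner_self_eq_norm_sq_to_K]
  have e3 : ((‖∑ e ∈ S, t (u e) e‖ : ℂ) ^ 2).re = ‖∑ e ∈ S, t (u e) e‖ ^ 2 := by
    rw [← Complex.ofReal_pow, Complex.ofReal_re]
  refine le_trans ?_ (le_of_eq (congrArg (‖hg.toLp g‖ ^ 2 * ·) e3.symm))
  rw [← mul_pow, mul_comm]
  gcongr
  exact norm_inner_le_norm _ _

end kernel

end Crest.Agent.R69
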