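import Crest.Agent.R69.F1D
import Crest.Agent.R69.HS

/-! # Row 69, fibre theorem: measurability and compactness -/

set_option autoImplicit false
set_option linter.unusedVariables false
set_option linter.unusedSectionVars false

open MeasureTheory ProbabilityTheory Filter Topology Set Function
open scoped InnerProductSpace InnerProduct ComplexConjugate

noncomputable section

namespace Crest.Agent.R69

variable {C I Zt Yt : Type} [Fintype C] [DecidableEq C] [Countable I] [Countable Zt] [Countable Yt]
  {ρ : Measure (Om Zt)} [IsProbabilityMeasure ρ] {yi : C → Yt → Zt}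
  {lam : Kernel (Om Yt) (Om (Bool × I))} [IsMarkovKernel lam]
  {M : Kernel (Om Zt) (Om (Bool × C × I))} [IsMarkovKernel M]
  {ν : Bool → Measure (Om (C × I))} [∀ b, IsProbabilityMeasure (ν b)]

theorem Two.marg (T : Two ρ yi lam M ν) (j : C) :
    ∀ᵐ η ∂ρ.map (pull (yi j)), ∀ b, MeasurePreserving (side b) (lam η) (kc ν b j) := by
  refine ae_map_pull (Q := fun η => ∀ b, MeasurePreserving (side b) (lam η) (kc ν b j)) (yi j) ?_
  filter_upwards [T.grid] with z hz b
  refine ⟨measurable_pull _, ?_⟩
  rw [← hz.2 j, Measure.map_map (measurable_pull _) (measurable_pull _)]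
  exact (hz.1.mp_cell b j).map_eq

theorem fma_bind_apply {X : Type} [MeasurableSpace X] {f : Om (Bool × C × I) → X}
    (hf : Measurable f) {s : Set X} (hs : MeasurableSet s) :
    (ρ.bind M).map f s = ∫⁻ z, (M z).map f s ∂ρ := by
  rw [Measure.map_apply hf hs, Measure.bind_apply (hf hs) M.aemeasurable]
  exact lintegral_congr fun z => (Measure.map_apply hf hs).symm

theorem fma_mix_rows (T : Two ρ yi lam M ν) :
    MeasurePreserving (fun q : Om (Bool × C × I) => (row false q, row true q))
      (ρ.bind M) ((ν false).prod (ν true)) := by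
  have hr : ∀ b, (ρ.bind M).map (row b) = ν b := fun b => Measure.ext fun s hs => by
    rw [fma_bind_apply (measurable_pull _) hs,
      lintegral_congr_ae (g := fun _ => ν b s) (T.grid.mono fun z hz => by rw [hz.1.rows b])]
    simp
  have hg : ∀ b : Bool, (gS {b} univ : Set (Bool × C × I)) = range fun q : C × I => (b, q) :=
    fun b => by
      ext ⟨b', q⟩
      simp only [gS, mem_singleton_iff, mem_univ, and_true, mem_ofPred_eq, mem_range,
        Prod.mk.injEq]
      exact ⟨fun h => ⟨q, h.symm, rfl⟩, fun ⟨_, h, _⟩ => h.symm⟩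
  have hp := T.prod
  rw [hg, hg, ind_iff_map_prod] at hp
  refine ⟨(measurable_pull _).prodMk (measurable_pull _), ?_⟩
  rw [← hr false, ← hr true]
  exact hp
/-- under the mixture the two sides are independent -/
theorem Two.mix_prod (T : Two ρ yi lam M ν) (j : C) :
    MeasurePreserving (fun p : Om Yt × Om (Bool × I) => (side false p.2, side true p.2))
      ((ρ.map (pull (yi j))) ⊗ₘ lam) ((kc ν false j).prod (kc ν true j)) := by
  have h1 : MeasurePreserving Prod.snd ((ρ.map (pull (yi j))) ⊗ₘ lam)
      ((ρ.bind M).map (colm j)) := by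
    refine ⟨measurable_snd, Measure.ext fun s hs => ?_⟩
    change ((ρ.map (pull (yi j))) ⊗ₘ lam).snd s = _
    rw [Measure.snd_compProd, Measure.bind_apply hs lam.aemeasurable,
      fma_bind_apply (measurable_pull _) hs, lintegral_map (lam.measurable_coe hs)
        (measurable_pull _)]
    refine lintegral_congr_ae ?_
    filter_upwards [T.grid] with z hz
    rw [hz.2 j]
  have hm : Measurable fun q : Om (Bool × I) => (side false q, side true q) :=
    (measurable_pull _).prodMk (measurable_pull _)
  have h2 : MeasurePreserving (fun q : Om (Bool × I) => (side false q, side true q))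
      ((ρ.bind M).map (colm j)) ((kc ν false j).prod (kc ν true j)) := by
    refine ⟨hm, ?_⟩
    rw [Measure.map_map hm (measurable_pull _)]
    exact (((⟨measurable_pull _, rfl⟩ : MeasurePreserving (cell j) (ν false) (kc ν false j)).prod
      (⟨measurable_pull _, rfl⟩ : MeasurePreserving (cell j) (ν true) (kc ν true j))).comp
      (fma_mix_rows T)).map_eq
  exact h2.comp h1

/-- under the mixture the two rows are independent -/
theorem Two.mix_rows (T : Two ρ yi lam M ν) :
    MeasurePreserving (fun q : Om (Bool × C × I) => (row false q, row true q))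
      (ρ.bind M) ((ν false).prod (ν true)) := by
  exact fma_mix_rows T

theorem Two.ameas (T : Two ρ yi lam M ν) (j : C) (u : Lp ℂ 2 (kc ν false j))
    (h : Lp ℂ 2 (kc ν true j)) :
    AEStronglyMeasurable (fun η => ⟪u, Aop lam ν j η h⟫_ℂ) (ρ.map (pull (yi j))) := by
  have hs : StronglyMeasurable fun q : Om (Bool × I) => conj (u (side false q)) * h (side true q) :=
    (Complex.continuous_conj.comp_stronglyMeasurable
      ((Lp.stronglyMeasurable u).comp_measurable (measurable_pull _))).mul
      ((Lp.stronglyMeasurable h).comp_measurable (measurable_pull _))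
  refine (hs.integral_kernel (κ := lam)).aestronglyMeasurable.congr ?_
  filter_upwards [T.marg j] with η hη
  exact (inner_cpl (hη false) (hη true) u h).symm

theorem fmb_cpt {Ω X Y : Type} [MeasurableSpace Ω] [MeasurableSpace X] [MeasurableSpace Y]
    {P : Measure Ω} [IsFiniteMeasure P] {κ : Measure X} {κ' : Measure Y} [IsProbabilityMeasure κ]
    [IsProbabilityMeasure κ'] {r : Ω → X} {s : Ω → Y}
    (hrs : MeasurePreserving (fun ω => (r ω, s ω)) P (κ.prod κ')) {S : Set Ω}
    (hS : MeasurableSet S) :
    ∃ B : Lp ℂ 2 κ' →L[ℂ] Lp ℂ 2 κ, IsCompactOperator B ∧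
      (∀ (u : Lp ℂ 2 κ) (h : Lp ℂ 2 κ'), Integrable (fun ω => conj (u (r ω)) * h (s ω)) P) ∧
      ∀ u h, ⟪u, B h⟫_ℂ = ∫ ω in S, conj (u (r ω)) * h (s ω) ∂P := by
  have hr : MeasurePreserving r P κ := measurePreserving_fst.comp hrs
  have hs : MeasurePreserving s P κ' := measurePreserving_snd.comp hrs
  let R := LpToLpRestrictCLM Ω ℂ ℂ P 2 S
  have key : ∀ u h, ⟪u, (((R ∘L Jm hr)†) ∘L (R ∘L Jm hs)) h⟫_ℂ =
      ∫ ω in S, conj (u (r ω)) * h (s ω) ∂P := fun u h => by
    rw [ContinuousLinearMap.comp_apply, ContinuousLinearMap.adjoint_inner_right, L2.inner_def]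
    refine integral_congr_ae ?_
    filter_upwards [LpToLpRestrictCLM_coeFn ℂ S (Jm hr u), LpToLpRestrictCLM_coeFn ℂ S (Jm hs h),
      ae_restrict_of_ae (Jm_coe hr u), ae_restrict_of_ae (Jm_coe hs h)] with ω h1 h2 h3 h4
    simp only [ContinuousLinearMap.comp_apply, R]
    rw [h1, h2, h3, h4, RCLike.inner_apply, mul_comm]
  refine ⟨_, compact_of_kernel P r s hrs (S.indicator 1)
    ((memLp_const (1 : ℂ)).indicator hS) _ fun u h => ?_, fun u h => ?_, key⟩
  · rw [key, ← integral_indicator hS]
    refine integral_congr_ae (Eventually.of_forall fun ω => ?_)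
    by_cases hω : ω ∈ S <;> simp [hω]
  · refine (L2.integrable_inner (𝕜 := ℂ) (Jm hr u) (Jm hs h)).congr ?_
    filter_upwards [Jm_coe hr u, Jm_coe hs h] with ω h3 h4
    rw [h3, h4, RCLike.inner_apply, mul_comm]

theorem Two.cpt (T : Two ρ yi lam M ν) (j : C) (G : Set (Om Yt)) (hG : MeasurableSet G) :
    ∃ B : Lp ℂ 2 (kc ν true j) →L[ℂ] Lp ℂ 2 (kc ν false j), IsCompactOperator B ∧
      ∀ u h, ⟪u, B h⟫_ℂ = ∫ η in G, ⟪u, Aop lam ν j η h⟫_ℂ ∂ρ.map (pull (yi j)) := by
  obtain ⟨B, hB, hi, h1⟩ := fmb_cpt (T.mix_prod j) (hG.prod MeasurableSet.univ)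
  refine ⟨B, hB, fun u h => ?_⟩
  rw [h1, Measure.setIntegral_compProd hG MeasurableSet.univ (hi u h).integrableOn]
  refine integral_congr_ae (ae_restrict_of_ae ?_)
  filter_upwards [T.marg j] with η hη
  rw [Measure.restrict_univ, inner_cpl (hη false) (hη true)]

end Crest.Agent.R69
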