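import Crest.Agent.R69.B8
import Crest.Agent.R69.F1X

/-! # Row 69: relation tuples and labels -/

set_option autoImplicit false
set_option linter.unusedVariables false
set_option linter.unusedSectionVars false

open MeasureTheory ProbabilityTheory Filter Topology Set

noncomputable section

namespace Crest.Agent.R69

variable {C I Yt : Type} [Fintype C] [DecidableEq C] [Countable I]
  {ν : Measure (Om (C × I))} [IsProbabilityMeasure ν] {χ χ' : C → Om I → ℂ} {X : Set I}
  {ψ ψ' : Om X → ℂ} {r : C} {N N' : ℕ}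

/-- products over at most `l - 1` cells -/
theorem IndR.integral_prod (hν : IndR ν) (t : Finset C) (ht : t.card + 1 ≤ Fintype.card C)
    (u : C → Om I → ℂ) (hu : ∀ j, AEStronglyMeasurable (u j) (ν.map (cell j))) :
    ∫ a, ∏ j ∈ t, u j (cell j a) ∂ν = ∏ j ∈ t, ∫ x, u j x ∂ν.map (cell j) := by
  rw [Finset.prod_congr rfl fun j _ => integral_map (measurable_pull _).aemeasurable (hu j)]
  refine integral_prod_of_ind t (fun i => rS {i}) (fun j hj t' ht' hjt => ?_) _ fun j _ => ?_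
  · have hc : (insert j t').card ≤ t.card :=
      Finset.card_le_card (Finset.insert_subset hj ht')
    rw [Finset.card_insert_of_notMem hjt] at hc
    refine (hν j t' hjt (by omega)).mono Subset.rfl fun q hq => ?_
    simp only [mem_iUnion] at hq
    obtain ⟨i, hi, hq⟩ := hq
    obtain rfl : q.1 = i := hq
    exact hi
  · rw [sg_rS_single]
    refine ((hu j).stronglyMeasurable_mk.comp_measurable
      (comap_measurable (cell j))).aestronglyMeasurable.congr ?_
    exact ae_eq_comp (measurable_pull _).aemeasurable (hu j).ae_eq_mk.symm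

-- `RelT.conj`, `RelT.mul`, `RelT.const`, `RelT.prp` are in F1X

theorem relT_mean (h3 : 3 ≤ Fintype.card C) (hν : IndR ν) (hχ : RelT ν χ) :
    (∀ j, ∫ x, χ j x ∂ν.map (cell j) = 0) ∨ ∀ j, ∃ c : ℂ, ∀ᵐ x ∂ν.map (cell j), χ j x = c := by
  by_cases h : ∀ j, ∫ x, χ j x ∂ν.map (cell j) = 0
  · exact Or.inl h
  · obtain ⟨j, hj⟩ := not_forall.1 h
    exact Or.inr (hχ.const h3 hν j hj)

theorem relT_dich (h3 : 3 ≤ Fintype.card C) (hν : IndR ν) (hχ : RelT ν χ) (hχ' : RelT ν χ') :
    (∀ j, ∫ x, χ j x * (starRingEnd ℂ) (χ' j x) ∂ν.map (cell j) = 0) ∨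
      ∀ j, Prp (ν.map (cell j)) (χ j) (χ' j) := by
  by_cases h : ∀ j, ∫ x, χ j x * (starRingEnd ℂ) (χ' j x) ∂ν.map (cell j) = 0
  · exact Or.inl h
  · obtain ⟨j, hj⟩ := not_forall.1 h
    refine Or.inr (hχ.prp h3 hν hχ' j ?_)
    simpa only [mul_comm] using hj

theorem exists_lab_int {κ : Measure (Om I)} [IsProbabilityMeasure κ] {f : Om I → ℂ} (hf : Lbl f) :
    Integrable f κ := Integrable.of_bound hf.1.aestronglyMeasurable 1 (ae_of_all _ hf.2)

theorem exists_lab_sm {g : Om X → ℂ} (hg : Measurable g) :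
    StronglyMeasurable[sg X] fun x : Om I => g (res X x) :=
  (hg.comp (comap_measurable (res X))).stronglyMeasurable

theorem exists_lab_res {g : Om X → ℂ} (hg : Lbl g) : Lbl fun x : Om I => g (res X x) :=
  ⟨hg.1.comp (measurable_pull _), fun x => hg.2 _⟩

/-- pull-out -/
theorem exists_lab_pull {κ : Measure (Om I)} [IsProbabilityMeasure κ] {f : Om I → ℂ} (hf : Lbl f)
    {g : Om X → ℂ} (hg : Measurable g) (hi : Integrable (fun x => g (res X x)) κ) :
    ∫ x, f x * g (res X x) ∂κ = ∫ x, (κ[f | sg X]) x * g (res X x) ∂κ := by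
  have hfg : Integrable (fun x => f x * g (res X x)) κ :=
    hi.bdd_mul hf.1.aestronglyMeasurable (ae_of_all _ hf.2)
  have h1 := condExp_bilin_of_aestronglyMeasurable_right (m := sg X) (μ := κ)
    (ContinuousLinearMap.mul ℝ ℂ) (f := f) (g := fun x => g (res X x))
    (exists_lab_sm hg).aestronglyMeasurable hfg (exists_lab_int hf)
  rw [← integral_condExp (sg_le X) (f := fun x => f x * g (res X x))]
  exact integral_congr_ae h1

theorem exists_lab (κ : Measure (Om I)) [IsProbabilityMeasure κ] (X : Set I) {f : Om I → ℂ}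
    (hf : Lbl f) : ∃ ψ, Lbl ψ ∧ Lab κ X f ψ := by
  have hb : ∀ᵐ x ∂κ, ‖(κ[f | sg X]) x‖ ≤ 1 :=
    ae_bdd_norm_condExp_of_ae_bdd_norm (m := sg X) (ae_of_all _ hf.2)
  have hsm : StronglyMeasurable[sg X] (κ[f | sg X]) := stronglyMeasurable_condExp
  obtain ⟨g, hg, hfac⟩ := StronglyMeasurable.exists_eq_measurable_comp (f := res X) hsm
  have hgm : Measurable g := hg.measurable
  refine ⟨fun y => if ‖g y‖ ≤ 1 then g y else 0, ⟨?_, fun y => ?_⟩, fun u hu => ?_⟩
  · exact Measurable.ite (measurableSet_le hgm.norm measurable_const) hgm measurable_const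
  · show ‖if ‖g y‖ ≤ 1 then g y else 0‖ ≤ 1
    split_ifs with h
    · exact h
    · simp
  · rw [exists_lab_pull hf hu.1 (exists_lab_int (exists_lab_res hu))]
    refine integral_congr_ae ?_
    filter_upwards [hb] with x hx
    have e : (κ[f | sg X]) x = g (res X x) := congrFun hfac x
    rw [e] at hx ⊢
    rw [if_pos hx]

theorem Lab.condExp {κ : Measure (Om I)} [IsProbabilityMeasure κ] {f : Om I → ℂ} (hf : Lbl f)
    (hψ : Lbl ψ) (h : Lab κ X f ψ) : κ[f | sg X] =ᵐ[κ] fun x => ψ (res X x) := by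
  refine (ae_eq_condExp_of_forall_setIntegral_eq (sg_le X) (exists_lab_int hf)
    (fun s _ _ => (exists_lab_int (exists_lab_res hψ)).integrableOn) ?_
    (exists_lab_sm hψ.1).aestronglyMeasurable).symm
  rintro s ⟨t, ht, rfl⟩ -
  have hs : MeasurableSet (res X ⁻¹' t : Set (Om I)) := measurable_pull _ ht
  have hl : Lbl (t.indicator fun _ => (1 : ℂ)) := by
    refine ⟨measurable_const.indicator ht, fun y => ?_⟩
    by_cases hy : y ∈ t <;> simp [hy]
  have key : ∀ F : Om I → ℂ, ∫ x in res X ⁻¹' t, F x ∂κ =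
      ∫ x, F x * t.indicator (fun _ => (1 : ℂ)) (res X x) ∂κ := by
    intro F
    rw [← integral_indicator hs]
    refine integral_congr_ae (ae_of_all _ fun x => ?_)
    by_cases hx : res X x ∈ t
    · have hx' : x ∈ res X ⁻¹' t := hx
      simp only [indicator_of_mem hx, indicator_of_mem hx', mul_one]
    · have hx' : x ∉ res X ⁻¹' t := hx
      simp only [indicator_of_notMem hx, indicator_of_notMem hx', mul_zero]
  rw [key, key]
  exact (h _ hl).symm

/-- a bounded function orthogonal to itself vanishes -/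
theorem Lab.unique_aux {κ : Measure (Om I)} [IsProbabilityMeasure κ] {φ : Om X → ℂ}
    (hm : Measurable φ) {D : ℝ} (hb : ∀ x, ‖φ x‖ ≤ D)
    (h : ∫ x, φ (res X x) * (starRingEnd ℂ) (φ (res X x)) ∂κ = 0) : φ =ᵐ[κ.map (res X)] 0 := by
  have hr : Measurable (res X) := measurable_pull _
  have : IsProbabilityMeasure (κ.map (res X)) := Measure.isProbabilityMeasure_map hr.aemeasurable
  have hm2 : Measurable fun y => ‖φ y‖ ^ 2 := hm.norm.pow_const 2
  have e : ∀ y, φ y * (starRingEnd ℂ) (φ y) = ((‖φ y‖ ^ 2 : ℝ) : ℂ) := fun y => by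
    rw [Complex.mul_conj, Complex.normSq_eq_norm_sq]
  simp only [e, integral_complex_ofReal, Complex.ofReal_eq_zero] at h
  rw [← integral_map hr.aemeasurable hm2.aestronglyMeasurable] at h
  have hi : Integrable (fun y => ‖φ y‖ ^ 2) (κ.map (res X)) :=
    Integrable.of_bound hm2.aestronglyMeasurable (D ^ 2) (ae_of_all _ fun y => by
      rw [Real.norm_of_nonneg (sq_nonneg _)]
      exact pow_le_pow_left₀ (norm_nonneg _) (hb y) 2)
  filter_upwards [(integral_eq_zero_iff_of_nonneg (fun y => sq_nonneg _) hi).1 h] with y hy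
  simpa using hy

theorem Lab.unique_int {κ : Measure (Om I)} [IsProbabilityMeasure κ] {g : Om X → ℂ} (hψ : Lbl ψ)
    (hg : Lbl g) : Integrable (fun x => ψ (res X x) * g (res X x)) κ :=
  Integrable.of_bound ((hψ.1.mul hg.1).comp (measurable_pull _)).aestronglyMeasurable 1
    (ae_of_all _ fun x => by
      rw [norm_mul]
      exact mul_le_one₀ (hψ.2 _) (norm_nonneg _) (hg.2 _))

theorem Lab.unique {κ : Measure (Om I)} [IsProbabilityMeasure κ] {f : Om I → ℂ} (hψ : Lbl ψ)
    (hψ' : Lbl ψ') (h : Lab κ X f ψ) (h' : Lab κ X f ψ') : ψ =ᵐ[κ.map (res X)] ψ' := by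
  have hb : ∀ y, ‖ψ y - ψ' y‖ ≤ 2 := fun y =>
    (norm_sub_le _ _).trans (by linarith [hψ.2 y, hψ'.2 y])
  have hg : Lbl fun y => (starRingEnd ℂ) (ψ y - ψ' y) / 2 :=
    ⟨(Complex.continuous_conj.measurable.comp (hψ.1.sub hψ'.1)).div_const 2, fun y => by
      rw [norm_div, Complex.norm_conj, Complex.norm_two]
      linarith [hb y]⟩
  have e := (h _ hg).symm.trans (h' _ hg)
  rw [← sub_eq_zero, ← integral_sub (Lab.unique_int hψ hg) (Lab.unique_int hψ' hg)] at e
  have e2 : ∫ x, (ψ (res X x) - ψ' (res X x)) *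
      (starRingEnd ℂ) (ψ (res X x) - ψ' (res X x)) ∂κ = 0 := by
    rw [← mul_zero (2 : ℂ), ← e, ← integral_const_mul]
    refine integral_congr_ae (ae_of_all _ fun x => ?_)
    ring
  filter_upwards [Lab.unique_aux (φ := fun y => ψ y - ψ' y) (hψ.1.sub hψ'.1) hb e2] with y hy
  exact sub_eq_zero.1 hy

theorem Lab.congr {κ : Measure (Om I)} {f f' : Om I → ℂ} (h : Lab κ X f ψ) (hf : f =ᵐ[κ] f') :
    Lab κ X f' ψ := by
  intro g hg
  rw [← h g hg]
  refine integral_congr_ae ?_
  filter_upwards [hf] with x hx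
  rw [hx]

theorem Lab.integral {κ : Measure (Om I)} [IsProbabilityMeasure κ] {f : Om I → ℂ} (hf : Lbl f)
    (hψ : Lbl ψ) (h : Lab κ X f ψ) {g : Om X → ℂ} (hg : Measurable g)
    (hi : Integrable g (κ.map (res X))) :
    ∫ x, f x * g (res X x) ∂κ = ∫ x, ψ x * g x ∂κ.map (res X) := by
  have hr : Measurable (res X : Om I → Om X) := measurable_pull _
  have hi' : Integrable (fun x => g (res X x)) κ :=
    (integrable_map_measure hg.aestronglyMeasurable hr.aemeasurable).1 hi
  rw [exists_lab_pull hf hg hi',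
    integral_map (f := fun x => ψ x * g x) hr.aemeasurable (hψ.1.mul hg).aestronglyMeasurable]
  refine integral_congr_ae ?_
  filter_upwards [h.condExp hf hψ] with x hx
  rw [hx]

/-- proportional unimodular functions with the same non-zero label are equal -/
theorem Lab.eq_of_prp {κ : Measure (Om I)} [IsProbabilityMeasure κ] {f f' : Om I → ℂ} (hψ : Lbl ψ)
    (hne : ¬ ψ =ᵐ[κ.map (res X)] 0) (h : Lab κ X f ψ) (h' : Lab κ X f' ψ) (hp : Prp κ f f') :
    f =ᵐ[κ] f' := by
  obtain ⟨c, hc⟩ := hp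
  have hg : Lbl fun y => (starRingEnd ℂ) (ψ y) :=
    ⟨Complex.continuous_conj.measurable.comp hψ.1, fun y => by
      rw [Complex.norm_conj]
      exact hψ.2 y⟩
  have h0 : ∫ x, ψ (res X x) * (starRingEnd ℂ) (ψ (res X x)) ∂κ ≠ 0 := fun e =>
    hne (Lab.unique_aux hψ.1 hψ.2 e)
  have e1 : ∫ x, f x * (starRingEnd ℂ) (ψ (res X x)) ∂κ =
      c * ∫ x, f' x * (starRingEnd ℂ) (ψ (res X x)) ∂κ := by
    rw [← integral_const_mul]
    refine integral_congr_ae ?_
    filter_upwards [hc] with x hx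
    rw [hx, mul_assoc]
  rw [h _ hg, h' _ hg] at e1
  have hc1 : c = 1 := mul_right_cancel₀ h0 (by rw [one_mul]; exact e1.symm)
  filter_upwards [hc] with x hx
  rw [hx, hc1, one_mul]

theorem enum_inner {α : Type} [MeasurableSpace α] {κ : Measure α} {f g : α → ℂ}
    (hf : MemLp f 2 κ) (hg : MemLp g 2 κ) :
    inner ℂ (hf.toLp f) (hg.toLp g) = ∫ x, g x * (starRingEnd ℂ) (f x) ∂κ := by
  rw [L2.inner_def]
  refine integral_congr_ae ?_
  filter_upwards [hf.coeFn_toLp, hg.coeFn_toLp] with x h1 h2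
  rw [h1, h2, RCLike.inner_apply]

theorem enum_self {α : Type} [MeasurableSpace α] {κ : Measure α} [IsProbabilityMeasure κ]
    {f : α → ℂ} (hf : ∀ x, ‖f x‖ = 1) : ∫ x, f x * (starRingEnd ℂ) (f x) ∂κ = 1 := by
  have : ∀ x, f x * (starRingEnd ℂ) (f x) = 1 := fun x => by
    rw [Complex.mul_conj, Complex.normSq_eq_norm_sq, hf x]; simp
  simp [this]

theorem enum_bound (hψ : Lbl ψ) (hne : ¬ ψ =ᵐ[(ν.map (cell r)).map (res X)] 0) :
    ∃ B : ℕ, ∀ (N : ℕ) (e : Fin N → C → Om I → ℂ), (∀ k, RelT ν (e k)) →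
      (∀ k, Lab (ν.map (cell r)) X (e k r) ψ) →
      (∀ k k', k ≠ k' → ∀ j, ∫ x, e k j x * (starRingEnd ℂ) (e k' j x) ∂ν.map (cell j) = 0) →
      N ≤ B := by
  classical
  have hm : Measurable fun x : Om I => ψ (res X x) := hψ.1.comp (measurable_pull _)
  have hP : MemLp (fun x : Om I => ψ (res X x)) 2 (ν.map (cell r)) :=
    MemLp.of_bound hm.aestronglyMeasurable 1 (Eventually.of_forall fun x => hψ.2 _)
  set P := hP.toLp _ with hPdef
  have hP0 : P ≠ 0 := by
    intro h0
    apply hne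
    have h1 : (fun x : Om I => ψ (res X x)) =ᵐ[ν.map (cell r)] 0 := by
      have h2 := hP.coeFn_toLp
      rw [← hPdef, h0] at h2
      exact h2.symm.trans (Lp.coeFn_zero _ _ _)
    exact (ae_map_iff (measurable_pull _).aemeasurable
      (measurableSet_eq_fun hψ.1 measurable_const)).2 h1
  have hpos : 0 < ‖P‖ ^ 2 := pow_pos (norm_pos_iff.2 hP0) 2
  obtain ⟨B, hB⟩ := exists_nat_ge (1 / ‖P‖ ^ 2)
  refine ⟨B, fun N e hr hl ho => ?_⟩
  have he : ∀ k, MemLp (e k r) 2 (ν.map (cell r)) := fun k =>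
    MemLp.of_bound ((hr k).meas r).aestronglyMeasurable 1
      (Eventually.of_forall fun x => ((hr k).uni r x).le)
  have hon : Orthonormal ℂ fun k => (he k).toLp _ := by
    rw [orthonormal_iff_ite]
    intro i j
    rw [enum_inner]
    split_ifs with hij
    · subst hij; exact enum_self ((hr i).uni r)
    · exact ho j i (Ne.symm hij) r
  have hb := hon.sum_inner_products_le P (s := Finset.univ)
  have hc : Lbl fun y : Om X => (starRingEnd ℂ) (ψ y) :=
    ⟨Complex.continuous_conj.measurable.comp hψ.1, fun y => by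
      rw [RCLike.norm_conj]; exact hψ.2 y⟩
  have hi : ∀ k, ‖inner ℂ ((he k).toLp _) P‖ = ‖P‖ ^ 2 := fun k => by
    rw [norm_inner_symm, hPdef, enum_inner, hl k _ hc, ← enum_inner hP hP, inner_self_eq_norm_sq_to_K]
    simp
  simp only [hi, Finset.sum_const, Finset.card_univ, Fintype.card_fin, nsmul_eq_mul] at hb
  have h1 : (N : ℝ) * ‖P‖ ^ 2 ≤ 1 := by
    have : (N : ℝ) * ‖P‖ ^ 2 * ‖P‖ ^ 2 ≤ 1 * ‖P‖ ^ 2 := by nlinarith
    exact le_of_mul_le_mul_right this hpos
  have h2 : (N : ℝ) ≤ B := ((le_div_iff₀ hpos).2 h1).trans hB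
  exact_mod_cast h2

theorem exists_enum (h3 : 3 ≤ Fintype.card C) (hν : IndR ν) (hψ : Lbl ψ)
    (hne : ¬ ψ =ᵐ[(ν.map (cell r)).map (res X)] 0) : ∃ N e, Enum ν X r ψ N e := by
  by_contra hno
  obtain ⟨B, hB⟩ := enum_bound hψ hne
  have key : ∀ N : ℕ, ∃ e : Fin N → C → Om I → ℂ, (∀ k, RelT ν (e k)) ∧
      (∀ k, Lab (ν.map (cell r)) X (e k r) ψ) ∧
      ∀ k k', k ≠ k' → ∀ j, ∫ x, e k j x * (starRingEnd ℂ) (e k' j x) ∂ν.map (cell j) = 0 := by
    intro N
    induction N with
    | zero => exact ⟨Fin.elim0, fun k => k.elim0, fun k => k.elim0, fun k => k.elim0⟩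
    | succ N ih =>
      obtain ⟨e, hr, hl, ho⟩ := ih
      have h1 : ∃ χ, RelT ν χ ∧ Lab (ν.map (cell r)) X (χ r) ψ ∧
          ∀ k, ¬ (χ r =ᵐ[ν.map (cell r)] e k r ∧ ∀ j, Prp (ν.map (cell j)) (χ j) (e k j)) := by
        by_contra h2
        refine hno ⟨N, e, hr, hl, ho, fun χ h3 h4 => ?_⟩
        by_contra h5
        exact h2 ⟨χ, h3, h4, fun k hk => h5 ⟨k, hk⟩⟩
      obtain ⟨χ, hχ, hχl, hχn⟩ := h1
      have h2 : ∀ k j, ∫ x, χ j x * (starRingEnd ℂ) (e k j x) ∂ν.map (cell j) = 0 := fun k => by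
        rcases relT_dich h3 hν hχ (hr k) with h | h
        · exact h
        · exact absurd ⟨Lab.eq_of_prp hψ hne hχl (hl k) (h r), h⟩ (hχn k)
      have h4 : ∀ k j, ∫ x, e k j x * (starRingEnd ℂ) (χ j x) ∂ν.map (cell j) = 0 := fun k j => by
        have h5 := congrArg (starRingEnd ℂ) (h2 k j)
        rw [← integral_conj, map_zero] at h5
        rw [← h5]
        refine integral_congr_ae (Eventually.of_forall fun x => ?_)
        simp [mul_comm]
      refine ⟨Fin.cons χ e, fun k => ?_, fun k => ?_, fun k k' hk j => ?_⟩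
      · refine Fin.cases ?_ (fun k => ?_) k
        · exact hχ
        · exact hr k
      · refine Fin.cases ?_ (fun k => ?_) k
        · exact hχl
        · exact hl k
      · revert hk
        refine Fin.cases ?_ (fun k => ?_) k <;> refine Fin.cases ?_ (fun k' => ?_) k' <;> intro hk
        · exact absurd rfl hk
        · exact h2 k' j
        · exact h4 k j
        · exact ho k k' (fun h => hk (by rw [h])) j
  obtain ⟨e, hr, hl, ho⟩ := key (B + 1)
  have := hB _ e hr hl ho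
  omega

theorem Enum.comp_perm {e : Fin N → C → Om I → ℂ} (he : Enum ν X r ψ N e)
    (π : Equiv.Perm (Fin N)) : Enum ν X r ψ N fun k => e (π k) := by
  refine ⟨fun k => he.rel _, fun k => he.lab _,
    fun k k' hk => he.orth _ _ (π.injective.ne hk), fun χ h1 h2 => ?_⟩
  obtain ⟨k, hk⟩ := he.all χ h1 h2
  exact ⟨π.symm k, by simpa using hk⟩

theorem EnumS.comp_perm {e : Fin N → C → Om I → ℂ} (he : EnumS ν X r ψ N e)
    (π : Equiv.Perm (Fin N)) : EnumS ν X r ψ N fun k => e (π k) := by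
  refine ⟨he.1.comp_perm π, ?_⟩
  filter_upwards [he.2] with x hx
  rw [← hx]
  exact Equiv.sum_comp π fun k => e k r x

theorem Enum.enum_inj {e : Fin N → C → Om I → ℂ} {e' : Fin N' → C → Om I → ℂ}
    (he : Enum ν X r ψ N e) (he' : Enum ν X r ψ N' e') :
    ∃ f : Fin N → Fin N', Function.Injective f ∧ ∀ k, e k r =ᵐ[ν.map (cell r)] e' (f k) r ∧
      ∀ j, Prp (ν.map (cell j)) (e k j) (e' (f k) j) := by
  choose f hf using fun k => he'.all (e k) (he.rel k) (he.lab k)
  refine ⟨f, fun k k' hk => ?_, hf⟩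
  by_contra hne
  have h1 := he.orth k k' hne r
  have h2 : ∫ x, e k r x * (starRingEnd ℂ) (e k' r x) ∂ν.map (cell r) =
      ∫ x, e k r x * (starRingEnd ℂ) (e k r x) ∂ν.map (cell r) := by
    refine integral_congr_ae ?_
    filter_upwards [(hf k).1, (hf k').1] with x h3 h4
    rw [h4, h3, hk]
  rw [h2, enum_self ((he.rel k).uni r)] at h1
  exact one_ne_zero h1

theorem Enum.card_eq {e : Fin N → C → Om I → ℂ} {e' : Fin N' → C → Om I → ℂ}
    (he : Enum ν X r ψ N e) (he' : Enum ν X r ψ N' e') : N = N' := by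
  obtain ⟨f, hf, -⟩ := he.enum_inj he'
  obtain ⟨g, hg, -⟩ := he'.enum_inj he
  have h1 := Fintype.card_le_of_injective f hf
  have h2 := Fintype.card_le_of_injective g hg
  simp only [Fintype.card_fin] at h1 h2
  omega

theorem Enum.perm {e e' : Fin N → C → Om I → ℂ} (he : Enum ν X r ψ N e) (he' : Enum ν X r ψ N e') :
    ∃ π : Equiv.Perm (Fin N), ∀ k, e k r =ᵐ[ν.map (cell r)] e' (π k) r ∧
      ∀ j, Prp (ν.map (cell j)) (e k j) (e' (π k) j) := by
  obtain ⟨f, hf, h⟩ := he.enum_inj he'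
  exact ⟨Equiv.ofBijective f (Finite.injective_iff_bijective.1 hf), h⟩

end Crest.Agent.R69
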