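import Crest.Agent.R69.F1G
import Crest.Agent.R69.F1X

/-! # Row 69: the dichotomy on one grid (helper87) -/

set_option autoImplicit false
set_option linter.unusedVariables false
set_option linter.unusedSectionVars false

open MeasureTheory ProbabilityTheory Filter Topology Set
open scoped InnerProductSpace InnerProduct ComplexConjugate

noncomputable section

namespace Crest.Agent.R69

variable {C I : Type} [Fintype C] [DecidableEq C] [Countable I]
  {ν : Bool → Measure (Om (C × I))} [∀ b, IsProbabilityMeasure (ν b)]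
  {M : Measure (Om (Bool × C × I))} [IsProbabilityMeasure M] {χ : C → Om I → ℂ}

theorem gd_norm_sq {X : Type} [MeasurableSpace X] {κ : Measure X} (v : Lp ℂ 2 κ) :
    ∫ x, ((‖v x‖ ^ 2 : ℝ) : ℂ) ∂κ = ((‖v‖ ^ 2 : ℝ) : ℂ) := by
  have h := L2.inner_def (𝕜 := ℂ) v v
  simp only [inner_self_eq_norm_sq_to_K] at h
  push_cast
  exact h.symm

/-- the multilinear form of a row is bounded by an arithmetic mean -/
theorem gd_bound {ν : Measure (Om (C × I))} [IsProbabilityMeasure ν] (hν : IndR ν) (j : C)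
    (v : ∀ i, Lp ℂ 2 (ν.map (cell i))) :
    ‖∫ a, v j (cell j a) * ∏ i ∈ Finset.univ.erase j, v i (cell i a) ∂ν‖ ≤
      (‖v j‖ ^ 2 + ∏ i ∈ Finset.univ.erase j, ‖v i‖ ^ 2) / 2 := by
  have mp : ∀ i, MeasurePreserving (cell i) ν (ν.map (cell i)) := fun i => ⟨measurable_pull _, rfl⟩
  have hm : ∀ i, Measurable fun x => ((‖v i x‖ ^ 2 : ℝ) : ℂ) := fun i =>
    Complex.measurable_ofReal.comp ((Lp.stronglyMeasurable (v i)).measurable.norm.pow_const 2)
  have h1 : ∀ i, ∫ a, ((‖v i (cell i a)‖ ^ 2 : ℝ) : ℂ) ∂ν = ((‖v i‖ ^ 2 : ℝ) : ℂ) := fun i => by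
    rw [← gd_norm_sq, integral_map (measurable_pull _).aemeasurable (hm i).aestronglyMeasurable]
  have h2 : ∫ a, ‖v j (cell j a)‖ ^ 2 ∂ν = ‖v j‖ ^ 2 := by
    have := h1 j
    rw [integral_complex_ofReal] at this
    exact_mod_cast this
  have h3 : ∫ a, ‖∏ i ∈ Finset.univ.erase j, v i (cell i a)‖ ^ 2 ∂ν =
      ∏ i ∈ Finset.univ.erase j, ‖v i‖ ^ 2 := by
    have := fxa_prod hν hm j
    simp only [h1, ← Complex.ofReal_prod] at this
    rw [integral_complex_ofReal] at this
    simp only [norm_prod, ← Finset.prod_pow]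
    exact_mod_cast this
  have i1 : Integrable (fun a => ‖v j (cell j a)‖ ^ 2) ν :=
    ((Lp.memLp (v j)).comp_measurePreserving (mp j)).norm.integrable_sq
  have i2 : Integrable (fun a => ‖∏ i ∈ Finset.univ.erase j, v i (cell i a)‖ ^ 2) ν :=
    (hν.memLp j v).norm.integrable_sq
  rw [← h2, ← h3, ← integral_add i1 i2, ← integral_div]
  refine norm_integral_le_of_norm_le ((i1.add i2).div_const 2) (Eventually.of_forall fun a => ?_)
  rw [norm_mul]
  nlinarith [sq_nonneg (‖v j (cell j a)‖ - ‖∏ i ∈ Finset.univ.erase j, v i (cell i a)‖)]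

theorem gd_main (h3 : 3 ≤ Fintype.card C) (G : Grid ν M) (b b' : Bool) (hχ : RelT (ν b) χ) :
    (∀ j, M[fun q => χ j (cell j (row b q)) | sg (gS {b'} {j})] =ᵐ[M] 0) ∨
      ∃ χ', RelT (ν b') χ' ∧
        ∀ᵐ q ∂M, ∀ j, χ j (cell j (row b q)) = χ' j (cell j (row b' q)) := by
  have hL : ∀ i, MemLp (χ i) 2 (kc ν b i) := fun i =>
    MemLp.of_bound (hχ.meas i).aestronglyMeasurable 1 (Eventually.of_forall fun x => (hχ.uni i x).le)
  set u : ∀ i, Lp ℂ 2 (kc ν b i) := fun i => (hL i).toLp (χ i) with hu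
  set v : ∀ i, Lp ℂ 2 (kc ν b' i) := fun i =>
    cpl M (Xc b' i) (Xc b i) (kc ν b' i) (kc ν b i) (u i) with hv
  have huq : ∀ᵐ q ∂M, ∀ i, u i (Xc b i q) = χ i (Xc b i q) :=
    ae_all_iff.2 fun i => (G.mp_cell b i).quasiMeasurePreserving.ae (hL i).coeFn_toLp
  have hrel : ∀ᵐ q ∂M, ∏ j, χ j (Xc b j q) = 1 := (G.mp_row b).quasiMeasurePreserving.ae hχ.rel
  have hu1 : ∀ i, ‖u i‖ = 1 := fun i => by
    have h1 := gd_norm_sq (u i)
    have h2 : ∀ᵐ x ∂kc ν b i, ((‖u i x‖ ^ 2 : ℝ) : ℂ) = 1 := by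
      filter_upwards [(hL i).coeFn_toLp] with x hx
      rw [hu]; simp only; rw [hx, hχ.uni]; simp
    rw [integral_congr_ae h2] at h1
    simp only [integral_const, probReal_univ, one_smul] at h1
    have h4 : ‖u i‖ ^ 2 = 1 := by exact_mod_cast h1.symm
    exact (pow_eq_one_iff_of_nonneg (norm_nonneg _) two_ne_zero).1 h4
  have hv1 : ∀ i, ‖v i‖ ≤ 1 := fun i => by
    refine (ContinuousLinearMap.le_opNorm _ _).trans ?_
    rw [hu1, mul_one]; exact norm_cpl_le
  have key : ∀ j, ((‖v j‖ ^ 2 : ℝ) : ℂ) =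
      ∫ a, v j (cell j a) * ∏ i ∈ Finset.univ.erase j, v i (cell i a) ∂ν b' := fun j => by
    rw [← G.step3 b b' j u (v j)]
    have h1 := inner_cpl (G.mp_cell b j) (G.mp_cell b' j) (u j) (v j)
    rw [← ContinuousLinearMap.adjoint_inner_left, cpl_adjoint] at h1
    have h2 : ⟪v j, v j⟫_ℂ = ((‖v j‖ ^ 2 : ℝ) : ℂ) := by
      rw [inner_self_eq_norm_sq_to_K]; push_cast; rfl
    rw [← h2]
    refine h1.trans (integral_congr_ae ?_)
    filter_upwards [huq, hrel] with q h4 h5
    simp only [h4]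
    rw [← Finset.mul_prod_erase _ _ (Finset.mem_univ j)] at h5
    have e : conj (χ j (Xc b j q)) * χ j (Xc b j q) = 1 := by
      rw [Complex.conj_mul', hχ.uni]; simp
    rw [mul_comm]; congr 1
    calc conj (χ j (Xc b j q)) = conj (χ j (Xc b j q)) *
          (χ j (Xc b j q) * ∏ i ∈ Finset.univ.erase j, χ i (Xc b i q)) := by rw [h5, mul_one]
      _ = _ := by rw [← mul_assoc, e, one_mul]
  have heq : ∀ i j, ‖v i‖ ^ 2 = ‖v j‖ ^ 2 := fun i j => by
    have e : ∀ k, ∫ a, v k (cell k a) * ∏ i ∈ Finset.univ.erase k, v i (cell i a) ∂ν b' =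
        ∫ a, ∏ i, v i (cell i a) ∂ν b' := fun k =>
      integral_congr_ae (Eventually.of_forall fun a =>
        Finset.mul_prod_erase _ (fun i => v i (cell i a)) (Finset.mem_univ k))
    have h1 := ((key i).trans (e i)).trans ((key j).trans (e j)).symm
    exact_mod_cast h1
  have hdich : ∀ j, ‖v j‖ ^ 2 = 0 ∨ ‖v j‖ ^ 2 = 1 := fun j => by
    have h1 := gd_bound (G.indR b') j v
    rw [← key j, Complex.norm_real, Real.norm_of_nonneg (sq_nonneg _),
      Finset.prod_congr rfl fun i _ => heq i j, Finset.prod_const,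
      Finset.card_erase_of_mem (Finset.mem_univ j), Finset.card_univ] at h1
    have h0 : 0 ≤ ‖v j‖ ^ 2 := sq_nonneg _
    have h2 : ‖v j‖ ^ 2 ≤ 1 := pow_le_one₀ (norm_nonneg _) (hv1 j)
    have h4 : (‖v j‖ ^ 2) ^ (Fintype.card C - 1) ≤ (‖v j‖ ^ 2) ^ 2 :=
      pow_le_pow_of_le_one h0 h2 (by omega)
    rcases h0.eq_or_lt with h5 | h5
    · exact Or.inl h5.symm
    · exact Or.inr (le_antisymm h2 (by nlinarith))
  by_cases hz : ∀ j, ‖v j‖ ^ 2 = 0
  · refine Or.inl fun j => ?_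
    have h0 : v j = 0 := norm_eq_zero.1 (pow_eq_zero_iff two_ne_zero |>.1 (hz j))
    have h1 := cpl_condExp (G.mp_cell b' j) (G.mp_cell b j) (u j)
    rw [sg_gS_single]
    refine (condExp_congr_ae (huq.mono fun q hq => (hq j).symm)).trans (h1.trans ?_)
    change (fun q => v j (Xc b' j q)) =ᵐ[M] 0
    rw [h0]
    exact (G.mp_cell b' j).quasiMeasurePreserving.ae (Lp.coeFn_zero ℂ 2 (kc ν b' j))
  · right
    obtain ⟨j₀, hj₀⟩ := not_forall.1 hz
    have h1 : ∀ j, ‖v j‖ = 1 := fun j =>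
      (pow_eq_one_iff_of_nonneg (norm_nonneg _) two_ne_zero).1
        ((heq j j₀).trans ((hdich j₀).resolve_left hj₀))
    have h2 : ∀ᵐ q ∂M, ∀ j, u j (Xc b j q) = 1 * v j (Xc b' j q) := ae_all_iff.2 fun j =>
      cpl_eq_case (G.mp_cell b' j) (G.mp_cell b j) (u j) (v j) 1 (hu1 j) (h1 j) norm_one
        (one_smul _ _).symm
    have hm : ∀ j, Measurable fun x => if ‖v j x‖ = 1 then v j x else 1 := fun j =>
      Measurable.ite ((Lp.stronglyMeasurable (v j)).measurable.norm (measurableSet_singleton 1))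
        (Lp.stronglyMeasurable (v j)).measurable measurable_const
    have h4 : ∀ᵐ q ∂M, ∀ j, χ j (cell j (row b q)) =
        (fun x => if ‖v j x‖ = 1 then v j x else 1) (cell j (row b' q)) := by
      filter_upwards [h2, huq] with q hq hq' j
      have e : χ j (Xc b j q) = v j (Xc b' j q) := by rw [← hq' j, hq j, one_mul]
      have e' : ‖v j (Xc b' j q)‖ = 1 := by rw [← e, hχ.uni]
      exact e.trans (if_pos e').symm
    refine ⟨fun j x => if ‖v j x‖ = 1 then v j x else 1, ⟨hm, fun j x => ?_, ?_⟩, h4⟩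
    · split_ifs with h
      · exact h
      · exact norm_one
    · rw [← G.rows b']
      refine (ae_map_iff (measurable_pull _).aemeasurable (measurableSet_eq_fun
        (Finset.measurable_prod _ fun j _ => (hm j).comp (measurable_pull _))
        measurable_const)).2 ?_
      filter_upwards [h4, hrel] with q hq hq'
      exact (Finset.prod_congr rfl fun j _ => (hq j).symm).trans hq'

end Crest.Agent.R69
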