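import Crest.Agent.R69.F2a
import Crest.Agent.R69.F2bD

/-! # Row 69: one grid -/

set_option autoImplicit false
set_option linter.unusedVariables false
set_option linter.unusedSectionVars false

open MeasureTheory ProbabilityTheory Filter Topology Set

noncomputable section

namespace Crest.Agent.R69

variable {C I Yt : Type} [Fintype C] [DecidableEq C] [Countable I]
  {ν : Bool → Measure (Om (C × I))} [∀ b, IsProbabilityMeasure (ν b)]
  {M : Measure (Om (Bool × C × I))} [IsProbabilityMeasure M] {χ : C → Om I → ℂ} {X : Set I}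
  {ψ : Om X → ℂ} {r : C} {N : ℕ}

-- `Grid.indR` is in F1I

theorem grid_dich (h3 : 3 ≤ Fintype.card C) (G : Grid ν M) (b : Bool) (hχ : RelT (ν b) χ) :
    (∀ j, M[fun q => χ j (cell j (row b q)) | sg (gS {!b} {j})] =ᵐ[M] 0) ∨
      ∃ χ', RelT (ν (!b)) χ' ∧
        ∀ᵐ q ∂M, ∀ j, χ j (cell j (row b q)) = χ' j (cell j (row (!b) q)) :=
  gd_main h3 G b (!b) hχ

theorem f2x_int (G : Grid ν M) (b : Bool) (j : C) {F : Om I → ℂ} (hF : Measurable F) :
    ∫ x, F x ∂(ν b).map (cell j) = ∫ q, F (cell j (row b q)) ∂M := by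
  have e : (ν b).map (cell j) = M.map (Xc b j) := (G.mp_cell b j).map_eq.symm
  rw [e, integral_map (measurable_pull _).aemeasurable hF.aestronglyMeasurable]
  rfl

theorem f2x_ae (G : Grid ν M) (b : Bool) (j : C) {Q : Om I → Prop}
    (h : ∀ᵐ q ∂M, Q (cell j (row b q))) : ∀ᵐ x ∂(ν b).map (cell j), Q x := by
  have e : (ν b).map (cell j) = M.map (Xc b j) := (G.mp_cell b j).map_eq.symm
  rw [e]
  exact ae_map_pull _ h

theorem f2x_ea (G : Grid ν M) (b : Bool) (j : C) {Q : Om I → Prop}
    (h : ∀ᵐ x ∂(ν b).map (cell j), Q x) : ∀ᵐ q ∂M, Q (cell j (row b q)) :=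
  (G.mp_cell b j).quasiMeasurePreserving.ae h

theorem f2 (h3 : 3 ≤ Fintype.card C) (G : Grid ν M)
    (hd : ∀ᵐ q ∂M, res X (cell r (row false q)) = res X (cell r (row true q))) (b : Bool)
    (hχ : RelT (ν b) χ) (hψ : Lbl ψ) (hne : ¬ ψ =ᵐ[((ν b).map (cell r)).map (res X)] 0)
    (hl : Lab ((ν b).map (cell r)) X (χ r) ψ) :
    ∃ χ', RelT (ν (!b)) χ' ∧ Lab ((ν (!b)).map (cell r)) X (χ' r) ψ ∧
      ∀ᵐ q ∂M, ∀ j, χ j (cell j (row b q)) = χ' j (cell j (row (!b) q)) := by
  have hd' : ∀ᵐ q ∂M, res X (cell r (row b q)) = res X (cell r (row (!b) q)) := by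
    cases b
    · exact hd
    · exact hd.mono fun q h => h.symm
  have mr : Measurable (res X : Om I → Om X) := measurable_pull _
  rcases grid_dich h3 G b hχ with h0 | ⟨χ', hχ', he⟩
  · refine absurd (Lab.unique (ψ' := 0) hψ ⟨measurable_const, fun x => by simp⟩ hl fun g hg => ?_) hne
    have hF : MemLp (fun q => χ r (cell r (row b q))) 2 M :=
      MemLp.of_bound (((hχ.meas r).comp ((measurable_pull _).comp
        (measurable_pull _))).aestronglyMeasurable) 1
        (Eventually.of_forall fun q => (hχ.uni r _).le)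
    have hgm : Measurable[sg (gS {!b} {r})] fun q : Om (Bool × C × I) =>
        g (res X (cell r (row (!b) q))) := by
      rw [sg_gS_single]
      exact (hg.1.comp mr).comp (comap_measurable (Xc (!b) r))
    have hG : MemLp (fun q => g (res X (cell r (row (!b) q)))) 2 M :=
      MemLp.of_bound (hgm.mono (sg_le _) le_rfl).aestronglyMeasurable 1
        (Eventually.of_forall fun q => hg.2 _)
    have h1 := condExp_bilin_of_aestronglyMeasurable_right (m := sg (gS {!b} {r}))
      (ContinuousLinearMap.mul ℝ ℂ) hgm.aestronglyMeasurable (hF.integrable_mul hG)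
      (hF.integrable one_le_two)
    have h2 := integral_congr_ae h1
    rw [integral_condExp (sg_le _)] at h2
    rw [f2x_int G b r ((hχ.meas r).fun_mul (hg.1.fun_comp mr))]
    simp only [Pi.zero_apply, zero_mul, integral_zero]
    calc _ = ∫ q, χ r (cell r (row b q)) * g (res X (cell r (row (!b) q))) ∂M :=
          integral_congr_ae (hd'.mono fun q hq => by simp only [hq])
      _ = _ := h2
      _ = ∫ q, (0 : ℂ) ∂M := integral_congr_ae ((h0 r).mono fun q hq => by simp [hq])
      _ = 0 := integral_zero _ _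
  · refine ⟨χ', hχ', fun g hg => ?_, he⟩
    have h1 := hl g hg
    rw [f2x_int G b r ((hχ.meas r).fun_mul (hg.1.fun_comp mr)),
      f2x_int G b r ((hψ.1.fun_comp mr).fun_mul (hg.1.fun_comp mr))] at h1
    rw [f2x_int G (!b) r ((hχ'.meas r).fun_mul (hg.1.fun_comp mr)),
      f2x_int G (!b) r ((hψ.1.fun_comp mr).fun_mul (hg.1.fun_comp mr))]
    refine Eq.trans (integral_congr_ae ?_) (h1.trans (integral_congr_ae ?_))
    · filter_upwards [he, hd'] with q e1 e2
      rw [e1, e2]
    · filter_upwards [hd'] with q e2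
      rw [e2]

theorem f2enum (h3 : 3 ≤ Fintype.card C) (G : Grid ν M)
    (hd : ∀ᵐ q ∂M, res X (cell r (row false q)) = res X (cell r (row true q)))
    (hψ : Lbl ψ) (hne : ¬ ψ =ᵐ[((ν false).map (cell r)).map (res X)] 0)
    {e : Fin N → C → Om I → ℂ} (he : Enum (ν false) X r ψ N e) :
    ∃ e', Enum (ν true) X r ψ N e' ∧
      ∀ᵐ q ∂M, ∀ k j, e k j (cell j (row false q)) = e' k j (cell j (row true q)) := by
  choose e' h1 h2 h4 using fun k => f2 h3 G hd false (he.rel k) hψ hne (he.lab k)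
  have mr : Measurable (res X : Om I → Om X) := measurable_pull _
  have hne' : ¬ ψ =ᵐ[((ν true).map (cell r)).map (res X)] 0 := by
    intro h
    refine hne (ae_map_pull _ (f2x_ae G false r ?_))
    filter_upwards [f2x_ea G true r (ae_of_ae_map mr.aemeasurable h), hd] with q e1 e2
    show ψ (res X (cell r (row false q))) = 0
    rw [e2]; exact e1
  refine ⟨e', ⟨h1, h2, fun k k' hk j => ?_, fun χ' hχ' hl => ?_⟩, ae_all_iff.2 h4⟩
  · have := he.orth k k' hk j
    rw [f2x_int G false j (((he.rel k).meas j).fun_mul ((he.rel k').conj.meas j))] at this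
    rw [f2x_int G true j (((h1 k).meas j).fun_mul ((h1 k').conj.meas j)), ← this]
    refine integral_congr_ae ?_
    filter_upwards [h4 k, h4 k'] with q e1 e2
    rw [e1, e2]; rfl
  · obtain ⟨χ₀, a1, a2, a3⟩ := f2 h3 G hd true hχ' hψ hne' hl
    obtain ⟨k, b1, b2⟩ := he.all χ₀ a1 a2
    refine ⟨k, f2x_ae G true r ?_, fun j => ?_⟩
    · filter_upwards [a3, f2x_ea G false r b1, h4 k] with q e1 e2 e3
      exact (e1 r).trans (e2.trans (e3 r))
    · obtain ⟨c, hc⟩ := b2 j
      refine ⟨c, f2x_ae G true j ?_⟩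
      filter_upwards [a3, f2x_ea G false j hc, h4 k] with q e1 e2 e3
      exact (e1 j).trans (e2.trans (congrArg (c * ·) (e3 j)))

/-- any two enumerations on the two rows are linked -/
theorem f2link (h3 : 3 ≤ Fintype.card C) (G : Grid ν M)
    (hd : ∀ᵐ q ∂M, res X (cell r (row false q)) = res X (cell r (row true q)))
    (hψ : Lbl ψ) (hne : ¬ ψ =ᵐ[((ν false).map (cell r)).map (res X)] 0)
    {e e' : Fin N → C → Om I → ℂ} (he : Enum (ν false) X r ψ N e) (he' : Enum (ν true) X r ψ N e') :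
    ∃ π : Equiv.Perm (Fin N), ∀ i k, ∃ c : ℂ, (i = r → c = 1) ∧
      ∀ᵐ q ∂M.map (colm i), e k i (side false q) = c * e' (π k) i (side true q) := by
  obtain ⟨e₁, h1, h2⟩ := f2enum h3 G hd hψ hne he
  obtain ⟨π, hπ⟩ := h1.perm he'
  refine ⟨π, fun i k => ?_⟩
  by_cases hi : i = r
  · subst hi
    refine ⟨1, fun _ => rfl, ae_map_pull _ ?_⟩
    filter_upwards [h2, f2x_ea G true i (hπ k).1] with q e1 e2
    rw [one_mul]
    exact (e1 k i).trans e2
  · obtain ⟨c, hc⟩ := (hπ k).2 i
    refine ⟨c, fun h => absurd h hi, ae_map_pull _ ?_⟩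
    filter_upwards [h2, f2x_ea G true i hc] with q e1 e2
    exact (e1 k i).trans e2

end Crest.Agent.R69
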