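import Crest.Agent.R69.GbOrthA

/-! # Row 69: fibres of the limit of the saturated system -/

set_option autoImplicit false
set_option linter.unusedVariables false
set_option linter.unusedSectionVars false

open MeasureTheory ProbabilityTheory Filter Topology Set

noncomputable section

namespace Crest.Agent.R69

namespace Ctx
variable (c : Ctx)

theorem map_wj (j : c.P.Col) : c.mW.map (c.wj j) = c.mY := c.gb_map_wj j

theorem map_wj' (j : c.P.Col) : (Lim c.S).μ.map (pull (Subtype.val ∘ c.wi j)) = c.mY := by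
  rw [← c.gb_map_wj j, gb_map_pull_pull]

theorem col_ci (j : c.P.Col) (J : Finset c.P.Col) (hj : j ∉ J)
    (hJ : J.card + 2 ≤ Fintype.card c.P.Col) :
    CI (Lim c.S).μ (colS c.S {j} univ) (colS c.S J univ ∪ c.W) (colS c.S {j} c.Y) := by
  have h1 := c.min c.P c.s c.X c.Y c.S j J c.sat.invX c.sat.invY c.mix c.sat.ind hj hJ
  have h2 := c.sat.max (Lim c.S) (col c.S j) (colS c.S J univ ∪ c.W)
    ⟨(colS_inv _ _ c.s.inv_univ).union (up_inv _ c.sat.invY), by
      rw [← colS_single]
      exact subset_union_of_subset_right (colS_subset_up _ _ c.sat.invY) _, by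
      rwa [← colS_single]⟩
  rwa [← image_univ, ← colS_single, ← colS_single] at h2

theorem nu_cell : ∀ᵐ v ∂c.mW, ∀ j, (c.nu v).map (cell j) = c.fb (c.wj j v) :=
  ae_all_iff.2 c.gb_cell

theorem nu_indR : ∀ᵐ v ∂c.mW, IndR (c.nu v) := by
  refine ae_all_iff.2 fun j => ae_all_iff.2 fun J => ?_
  by_cases hj : j ∉ J ∧ J.card + 2 ≤ Fintype.card c.P.Col
  · refine (fib_ind (M := (Lim c.S).μ) Sum.inl (Subtype.val : c.W → _) ?_).mono
      fun z hz _ _ => hz
    rw [Subtype.range_coe, gb_image_rS, gb_image_rS]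
    exact (c.col_ci j J hj.1 hj.2).base' (colS_subset_up _ _ c.sat.invY)
      (subset_union_of_subset_left subset_union_right _) subset_union_left
      (subset_union_of_subset_left subset_union_left _)
  · exact Eventually.of_forall fun z h1 h2 => absurd ⟨h1, h2⟩ hj

theorem nu_X : ∀ᵐ v ∂c.mW, ∀ j, ((c.nu v).map (cell j)).map (res c.X) = c.mX :=
  ae_all_iff.2 c.gb_cell_res

theorem ae_kap (j : c.P.Col) {Q : Om c.W → Prop} (h : ∀ᵐ v ∂c.mW, Q v) :
    ∀ᵐ w ∂c.mY, ∀ᵐ v ∂c.kap j w, Q v ∧ c.wj j v = w := by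
  rw [← c.map_wj' j]
  exact ae_cd (M := (Lim c.S).μ) (Subtype.val : c.W → _) (Subtype.val ∘ c.wi j)
    (Q := fun w v => Q v ∧ c.wj j v = w)
    ((ae_of_ae_map (measurable_pull _).aemeasurable h).mono fun x hx => ⟨hx, rfl⟩)

end Ctx

end Crest.Agent.R69
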