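import Crest.Agent.R69.G0

/-! # Row 69: fibres of a good pair -/

set_option autoImplicit false
set_option linter.unusedVariables false
set_option linter.unusedSectionVars false

open MeasureTheory ProbabilityTheory Filter Topology Set

noncomputable section

namespace Crest.Agent.R69

variable {c : Ctx} {E : Sys} {h : Bool → Hom c.s E} {y : Set E.I}

theorem Good.map_wb (g : Good c h y) (b : Bool) : (mZ h y).map (g.wb b) = c.mW := g.gb_map_wb b

theorem Good.map_yj (g : Good c h y) (j : c.P.Col) : (mZ h y).map (g.yj j) = my E y :=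
  g.gb_map_yj j

theorem Good.map_wy (g : Good c h y) (b : Bool) : (my E y).map (g.wy b) = c.mY := g.gb_map_wy b

theorem Good.wj_wb (g : Good c h y) (b : Bool) (j : c.P.Col) (z : Om (ZZ h y)) :
    c.wj j (g.wb b z) = g.wy b (g.yj j z) := rfl

theorem Good.wy_sh (g : Good c h y) (b : Bool) (t : ℤ) (η : Om y) :
    g.wy b (E.shB (g.adm false).1 t η) = c.s.shB c.sat.invY t (g.wy b η) := g.gb_wy_sh b t η

theorem Good.lam_side (g : Good c h y) :
    ∀ᵐ η ∂my E y, ∀ b, (lam h y η).map (side b) = c.fb (g.wy b η) := ae_all_iff.2 g.gb_side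

theorem Good.lam_sh (g : Good c h y) : ∀ᵐ η ∂my E y, ∀ t : ℤ,
    lam h y (E.shB (g.adm false).1 t η) =
      (lam h y η).map (pull (Prod.map id (c.s.τ ^ t : Equiv.Perm c.s.I))) :=
  ae_all_iff.2 fun t => cd_equiv (M := E.μ) (E.τ ^ t : Equiv.Perm _) (E.map_sh t)
    (pi2 h) (Subtype.val : y → _) _ (E.gbI (g.adm false).1 t)
    (funext fun q => ((h q.1).comm_zpow t q.2).symm) rfl (E.gbI_surj _ t)

theorem Good.gr_row (g : Good c h y) :
    ∀ᵐ z ∂mZ h y, ∀ b, (gr h y z).map (row b) = c.nu (g.wb b z) := ae_all_iff.2 g.gb_rows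

theorem Good.gr_colm (g : Good c h y) :
    ∀ᵐ z ∂mZ h y, ∀ j, (gr h y z).map (colm j) = lam h y (g.yj j z) := ae_all_iff.2 g.gb_colm

theorem Good.gr_h2 (g : Good c h y) : ∀ᵐ z ∂mZ h y, ∀ b j,
    CI (gr h y z) (gS {b} {j}) (gS {!b} univ) (gS {!b} {j}) := (gb_grid_ae g).mono fun z hz => hz.1.h2

theorem Good.gr_h3 (g : Good c h y) : ∀ᵐ z ∂mZ h y, ∀ (j : c.P.Col) (J : Finset c.P.Col), j ∉ J →
    J.card + 2 ≤ Fintype.card c.P.Col → Ind (gr h y z) (gS univ {j}) (gS univ J) :=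
  (gb_grid_ae g).mono fun z hz => hz.1.h3

theorem Good.gr_h4 (g : Good c h y) : ∀ᵐ z ∂mZ h y, ∀ b j,
    CI (gr h y z) (gS {b} {j}) (gS univ {j}ᶜ) (gS {b} {j}ᶜ) := (gb_grid_ae g).mono fun z hz => hz.1.h4

theorem Good.grid_ae (g : Good c h y) : ∀ᵐ z ∂mZ h y,
    Grid (fun b => c.nu (g.wb b z)) (gr h y z) ∧
      ∀ j, (gr h y z).map (colm j) = lam h y (g.yj j z) := by
  filter_upwards [g.gr_row, g.gr_colm, g.gr_h2, g.gr_h3, g.gr_h4] with z h1 h2 h3 h4 h5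
  exact ⟨⟨h1, h3, h4, h5⟩, h2⟩

theorem Good.ci_w (g : Good c h y) (b : Bool) (j : c.P.Col) :
    CI (GG h).μ (range (Subtype.val ∘ g.wI b)) (range (Subtype.val ∘ g.yI j))
      (range ((Subtype.val ∘ g.yI j) ∘ g.vI b)) := by
  have h1 := (principle_ci (c.S.two h) j (c.sat.invY.image (h b)) le_rfl
    (ci_of_subset (T := univ) le_rfl).symm).symm
  have e : range ((Subtype.val ∘ g.yI j) ∘ g.vI b) = colS (c.S.two h) {j} ((h b).ι '' c.Y) := by
    ext i
    constructor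
    · rintro ⟨a, rfl⟩
      exact ⟨j, rfl, _, ⟨a, a.2, rfl⟩, rfl⟩
    · rintro ⟨k, rfl, _, ⟨a, ha, rfl⟩, rfl⟩
      exact ⟨⟨a, ha⟩, rfl⟩
  rw [e]
  refine h1.mono ?_ ?_
  · rintro _ ⟨i, rfl⟩
    exact Or.inl ((c.S.lf2 h b).mem_up le_rfl i.2)
  · rintro _ ⟨a, rfl⟩
    exact Or.inl ⟨j, rfl, _, trivial, rfl⟩

/-- conditional law of the base of a row given the base of a column -/
theorem Good.cd_w (g : Good c h y) (b : Bool) (j : c.P.Col) : ∀ᵐ η ∂my E y,
    cd (GG h).μ (Subtype.val ∘ g.wI b) (Subtype.val ∘ g.yI j) η = c.kap j (g.wy b η) :=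
  g.gb_kap b j

theorem Good.ae_kap1 (g : Good c h y) (b : Bool) (j : c.P.Col) {Q : Om y → Om c.W → Prop}
    (hQ : ∀ᵐ z ∂mZ h y, Q (g.yj j z) (g.wb b z)) :
    ∀ᵐ η ∂my E y, ∀ᵐ v ∂c.kap j (g.wy b η), Q η v := by
  have h1 := ae_cd (M := (GG h).μ) (Subtype.val ∘ g.wI b) (Subtype.val ∘ g.yI j) (Q := Q)
    (ae_of_ae_map (measurable_pull _).aemeasurable hQ)
  rw [← gb_map_pull_pull, g.gb_map_yj] at h1
  filter_upwards [h1, g.cd_w b j] with η a1 a2
  rwa [a2] at a1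

end Crest.Agent.R69
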