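import Crest.Agent.R69.B7

/-! # Row 69: the relative square (helper99) -/

set_option autoImplicit false
set_option linter.unusedVariables false
set_option linter.unusedSectionVars false

open MeasureTheory ProbabilityTheory Filter Topology Set

noncomputable section

namespace Crest.Agent.R69

namespace RSq

variable (s : Sys) (X : Set s.I)

def el (p : Om s.I × Om s.I) : Om (s.I ⊕ s.I) := Sum.elim p.1 p.2

theorem measurable_el : Measurable (el s) :=
  measurable_pi_lambda _ fun i => by
    cases i with
    | inl i => exact (measurable_pi_apply i).comp measurable_fst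
    | inr i => exact (measurable_pi_apply i).comp measurable_snd

def ker : Kernel (Om s.I) (Om s.I) := (fib s.μ X).comap (res X) (measurable_pull _)

instance : IsMarkovKernel (ker s X) := by unfold ker; infer_instance

def ρ : Measure (Om (s.I ⊕ s.I)) := (s.μ ⊗ₘ ker s X).map (el s)

instance : IsProbabilityMeasure (ρ s X) :=
  Measure.isProbabilityMeasure_map (measurable_el s).aemeasurable

theorem key (m m' : Multiset s.I) :
    ∫ z, mon (m.map Sum.inl + m'.map Sum.inr : Multiset (s.I ⊕ s.I)) z ∂ρ s X =
      ∫ x, mon m x * (s.μ[mon m' | sg X]) x ∂s.μ := by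
  rw [ρ, integral_map (measurable_el s).aemeasurable (measurable_mon _).aestronglyMeasurable]
  have e : ∀ p : Om s.I × Om s.I,
      mon (m.map Sum.inl + m'.map Sum.inr : Multiset (s.I ⊕ s.I)) (el s p) =
        mon m p.1 * mon m' p.2 := fun p => by
    rw [mon_add, mon_map, mon_map]; rfl
  simp only [e]
  have hi : Integrable (fun p : Om s.I × Om s.I => mon m p.1 * mon m' p.2) (s.μ ⊗ₘ ker s X) :=
    Integrable.of_bound (((measurable_mon m).comp measurable_fst).mul
      ((measurable_mon m').comp measurable_snd)).aestronglyMeasurable 1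
      (Eventually.of_forall fun p => by
        rw [Real.norm_eq_abs, abs_mul]
        exact mul_le_one₀ (abs_mon_le _ _) (abs_nonneg _) (abs_mon_le _ _))
  rw [Measure.integral_compProd hi]
  have h := cd_condExp (M := s.μ) (id : s.I → s.I) (Subtype.val : X → s.I)
    (F := fun p => mon m' p.2) ((measurable_mon m').comp measurable_snd).stronglyMeasurable
    (integrable_mon s.μ m')
  rw [Subtype.range_coe] at h
  refine integral_congr_ae ?_
  filter_upwards [h] with x hx
  rw [integral_const_mul]
  congr 1
  exact hx.symm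

theorem split (m : Multiset (s.I ⊕ s.I)) :
    ∃ u u' : Multiset s.I, m = u.map Sum.inl + u'.map Sum.inr := by
  have h : InB m (range Sum.inl ∪ range Sum.inr) := fun a _ => by
    rw [range_inl_union_range_inr]; trivial
  obtain ⟨m₁, m₂, h₁, h₂, rfl⟩ := h.of_union
  obtain ⟨u, rfl⟩ := h₁.of_range
  obtain ⟨u', rfl⟩ := h₂.of_range
  exact ⟨u, u', rfl⟩

theorem integral_pull {I A : Type} (M : Measure (Om I)) (a : A → I) (m : Multiset A) :
    ∫ x, mon m x ∂M.map (pull a) = ∫ x, mon (m.map a) x ∂M := by
  rw [integral_map (measurable_pull _).aemeasurable (measurable_mon _).aestronglyMeasurable]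
  simp only [mon_map]

variable {X}

def sys (hX : s.Inv X) : Sys where
  I := s.I ⊕ s.I
  cnt := inferInstance
  τ := Equiv.sumCongr s.τ s.τ
  μ := ρ s X
  prob := inferInstance
  inv := by
    have : IsProbabilityMeasure ((ρ s X).map (pull (Equiv.sumCongr s.τ s.τ))) :=
      Measure.isProbabilityMeasure_map (measurable_pull _).aemeasurable
    refine ext_mon fun m => ?_
    obtain ⟨u, u', rfl⟩ := split s m
    rw [integral_pull, Multiset.map_add, Multiset.map_map, Multiset.map_map]
    have e1 : u.map ((Equiv.sumCongr s.τ s.τ) ∘ Sum.inl) = (u.map s.τ).map Sum.inl := by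
      rw [Multiset.map_map]; rfl
    have e2 : u'.map ((Equiv.sumCongr s.τ s.τ) ∘ Sum.inr) = (u'.map s.τ).map Sum.inr := by
      rw [Multiset.map_map]; rfl
    rw [e1, e2, key, key]
    have e3 : mon (u'.map s.τ) = mon u' ∘ s.sh 1 := by
      funext x; rw [mon_map, s.sh_one]; rfl
    have h := Sys.condExp_sh hX 1 (F := mon u') (measurable_mon u').aestronglyMeasurable
    have h2 : ∫ x, mon u x * (s.μ[mon u' | sg X]) x ∂s.μ.map (s.sh 1) =
        ∫ x, mon u (s.sh 1 x) * (s.μ[mon u' | sg X]) (s.sh 1 x) ∂s.μ :=
      integral_map (measurable_sh s 1).aemeasurable ((measurable_mon u).mul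
        (stronglyMeasurable_condExp.measurable.mono (sg_le X) le_rfl)).aestronglyMeasurable
    rw [s.map_sh] at h2
    rw [h2, e3]
    refine integral_congr_ae ?_
    filter_upwards [h] with x hx
    rw [hx, mon_map, s.sh_one]
    rfl

theorem key_in {u : Multiset s.I} (hu : InB u X) (u' : Multiset s.I) :
    ∫ z, mon (u.map Sum.inl + u'.map Sum.inr : Multiset (s.I ⊕ s.I)) z ∂ρ s X =
      ∫ x, mon (u + u') x ∂s.μ := by
  rw [key]
  simp only [mon_add]
  exact integral_mon_smul_condExp (integrable_mon s.μ u') hu

theorem law_inl : (ρ s X).map (pull Sum.inl) = s.μ := by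
  have : IsProbabilityMeasure ((ρ s X).map (pull (Sum.inl : s.I → s.I ⊕ s.I))) :=
    Measure.isProbabilityMeasure_map (measurable_pull _).aemeasurable
  refine ext_mon fun m => ?_
  have h := key s X m 0
  rw [Multiset.map_zero, add_zero] at h
  rw [integral_pull, h]
  have e : mon (0 : Multiset s.I) = fun _ => (1 : ℝ) := funext mon_zero
  rw [e, condExp_const (sg_le X)]
  simp

def hT (hX : s.Inv X) : Hom s (sys s hX) where
  ι := Sum.inl
  comm _ := rfl
  law := law_inl s

open Classical in
def φ (X : Set s.I) (a : s.I) : s.I ⊕ s.I := if a ∈ X then .inl a else .inr a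

def hF (hX : s.Inv X) : Hom s (sys s hX) where
  ι := φ s X
  comm a := by
    unfold φ
    by_cases h : a ∈ X
    · rw [if_pos h, if_pos ((hX a).2 h)]; rfl
    · rw [if_neg h, if_neg fun h' => h ((hX a).1 h')]; rfl
  law := by
    show (ρ s X).map (pull (φ s X)) = s.μ
    have : IsProbabilityMeasure ((ρ s X).map (pull (φ s X))) :=
      Measure.isProbabilityMeasure_map (measurable_pull _).aemeasurable
    refine ext_mon fun m => ?_
    have h : InB m (X ∪ Xᶜ) := fun a _ => by rw [union_compl_self]; trivial
    obtain ⟨u, u', hu, hu', rfl⟩ := h.of_union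
    rw [integral_pull, Multiset.map_add, ← key_in s hu,
      Multiset.map_congr rfl (f := φ s X) (g := Sum.inl) fun a ha => if_pos (hu a ha),
      Multiset.map_congr rfl (f := φ s X) (g := Sum.inr) fun a ha => if_neg (hu' a ha)]

theorem ci : CI (ρ s X) (range Sum.inr) (range Sum.inl) (Sum.inl '' X) := by
  refine ci_of_meas (U' := range Sum.inl) (union_subset Subset.rfl (image_subset_range _ _))
    fun m hm => ?_
  obtain ⟨u', rfl⟩ := hm.of_range
  have hmp : MeasurePreserving (pull (Sum.inl : s.I → s.I ⊕ s.I)) (ρ s X) s.μ :=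
    ⟨measurable_pull _, law_inl s⟩
  have hG : StronglyMeasurable[sg (Sum.inl '' X : Set (s.I ⊕ s.I))]
      (s.μ[mon u' | sg X] ∘ pull Sum.inl) :=
    stronglyMeasurable_condExp.comp_measurable (measurable_pull_sg _ Subset.rfl)
  refine hG.aestronglyMeasurable.congr (EventuallyEq.symm ?_)
  refine condExp_of_test (integrable_mon _ _) (hmp.integrable_comp_of_integrable integrable_condExp)
    (hG.mono (sg_mono (image_subset_range _ _))).aestronglyMeasurable fun m hm => ?_
  obtain ⟨u, rfl⟩ := hm.of_range
  simp only [smul_eq_mul, ← mon_add]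
  rw [key]
  have h2 : ∫ x, mon u x * (s.μ[mon u' | sg X]) x ∂(ρ s X).map (pull Sum.inl) =
      ∫ x, mon u (pull Sum.inl x) * (s.μ[mon u' | sg X]) (pull Sum.inl x) ∂ρ s X :=
    integral_map (measurable_pull _).aemeasurable ((measurable_mon u).mul
      (stronglyMeasurable_condExp.measurable.mono (sg_le X) le_rfl)).aestronglyMeasurable
  rw [law_inl] at h2
  rw [h2]
  simp only [mon_map]
  rfl

end RSq

/-- the relative square over an invariant factor -/
theorem exists_relSq (s : Sys) {X : Set s.I} (hX : s.Inv X) : ∃ (E : Sys) (h : Bool → Hom s E),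
    (∀ a ∈ X, (h false).ι a = (h true).ι a) ∧
      CI E.μ (range (h true).ι) (range (h false).ι) ((h true).ι '' X) := by
  refine ⟨RSq.sys s hX, fun b => cond b (RSq.hT s hX) (RSq.hF s hX), fun a ha => if_pos ha, ?_⟩
  refine (RSq.ci s (X := X)).symm.mono subset_union_left ?_
  rintro _ ⟨a, rfl⟩
  show RSq.φ s X a ∈ _
  unfold RSq.φ
  split_ifs with h
  · exact Or.inr ⟨a, h, rfl⟩
  · exact Or.inl ⟨a, rfl⟩

end Crest.Agent.R69
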