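import Crest.Agent.R69.B8
import Crest.Agent.R69.MaxR

/-! # Row 69: the relatively independent square -/

set_option autoImplicit false
set_option linter.unusedVariables false
set_option linter.unusedSectionVars false

open MeasureTheory ProbabilityTheory Filter Topology Set

noncomputable section

namespace Crest.Agent.R69

theorem exists_relsq (s : Sys) (X : Set s.I) (hX : s.Inv X) :
    ∃ (E : Sys) (h : Bool → Hom s E), (∀ a ∈ X, (h false).ι a = (h true).ι a) ∧
      CI E.μ (range (h true).ι) (range (h false).ι) ((h true).ι '' X) := exists_relSq s hX

end Crest.Agent.R69
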