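import Crest.Agent.R69.MaxP
import Crest.Agent.R69.RelSq

/-! # Row 69: the two pairs -/

set_option autoImplicit false
set_option linter.unusedVariables false
set_option linter.unusedSectionVars false

open MeasureTheory ProbabilityTheory Filter Topology Set

noncomputable section

namespace Crest.Agent.R69

theorem PairD.indY' {s E : Sys} {X Y : Set s.I} (hi : Ind s.μ X Y) (h : Bool → Hom s E)
    (diag : ∀ a ∈ X, (h false).ι a = (h true).ι a)
    (ci : CI E.μ (range (h true).ι) (range (h false).ι) ((h true).ι '' X)) :
    Ind E.μ ((h false).ι '' Y) ((h true).ι '' Y) ∧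
      Ind E.μ ((h true).ι '' X) ((h false).ι '' Y ∪ (h true).ι '' Y) := by
  have hX : (h false).ι '' X = (h true).ι '' X := image_congr diag
  have hi' : ∀ b, Ind E.μ ((h b).ι '' X) ((h b).ι '' Y) := fun b => ((h b).ind_iff _ _).2 hi
  have a1 : CI E.μ ((h false).ι '' Y) (range (h true).ι) ((h true).ι '' X) :=
    ci.symm.mono ((image_subset_range _ _).trans subset_union_left) subset_union_left
  have a2 : Ind E.μ ((h false).ι '' Y) ((h true).ι '' X ∪ (h true).ι '' Y) :=
    (a1.ind (hX ▸ (hi' false).symm)).mono Subset.rfl
      (union_subset subset_union_right ((image_subset_range _ _).trans subset_union_left))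
  exact ⟨a2.mono Subset.rfl subset_union_right, a2.ci.symm.ind (hi' true)⟩

theorem exists_D (c : Ctx) : Nonempty (PairD c) := exists_D' c

theorem exists_E (c : Ctx) : Nonempty (PairE c) := exists_E' c

end Crest.Agent.R69
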