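import Crest.Agent.R69.G1
import Crest.Agent.R69.MaxD

/-! # Row 69: fibres of the diagonal pair -/

set_option autoImplicit false
set_option linter.unusedVariables false
set_option linter.unusedSectionVars false

open MeasureTheory ProbabilityTheory Filter Topology Set

noncomputable section

namespace Crest.Agent.R69

/-- functions linked by all couplings of `L` come from a common function of `X` -/
def Common {I : Type} (X : Set I) (κ κ' : Measure (Om I)) (L : Set (Measure (Om (Bool × I)))) :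
    Prop :=
  ∀ F F' : Om I → ℂ, Measurable F → Measurable F' → (∃ D : ℝ, ∀ x, ‖F x‖ ≤ D ∧ ‖F' x‖ ≤ D) →
    (∀ γ ∈ L, ∀ᵐ q ∂γ, F (side false q) = F' (side true q)) →
    ∃ h : Om X → ℂ, Measurable h ∧ (∀ᵐ x ∂κ, F x = h (res X x)) ∧ ∀ᵐ x ∂κ', F' x = h (res X x)

/-- mixtures: the abstract form of `pair_sum`, `pair_lk` on one fibre -/
theorem common_of_bind {I Z : Type} [Countable I] [MeasurableSpace Z] {X : Set I} {ρ : Measure Z}
    [IsProbabilityMeasure ρ] {Λ : Kernel Z (Om (Bool × I))} [IsMarkovKernel Λ]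
    {κ κ' : Measure (Om I)} (hci : CI (ρ.bind Λ) (sS false univ) (sS true univ) (sS true X))
    (hd : ∀ᵐ q ∂ρ.bind Λ, res X (side false q) = res X (side true q))
    (hm : ∀ᵐ z ∂ρ, (Λ z).map (side false) = κ ∧ (Λ z).map (side true) = κ')
    {Q : Measure (Om (Bool × I)) → Prop} (hQ : ∀ᵐ z ∂ρ, Q (Λ z)) :
    ∃ L : Set (Measure (Om (Bool × I))), L.Nonempty ∧
      (∀ γ ∈ L, γ.map (side false) = κ ∧ γ.map (side true) = κ' ∧ Q γ) ∧ Common X κ κ' L := by
  refine ⟨{γ | γ.map (side false) = κ ∧ γ.map (side true) = κ' ∧ Q γ}, ?_, fun γ hγ => hγ,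
    fun F F' hF hF' hb h => ?_⟩
  · obtain ⟨z, h1, h2⟩ := (hm.and hQ).exists
    exact ⟨Λ z, h1.1, h1.2, h2⟩
  have e : ∀ (b : Bool) (μ : Measure (Om I)), (∀ᵐ z ∂ρ, (Λ z).map (side b) = μ) →
      (ρ.bind Λ).map (side b) = μ := fun b μ hμ => by
    rw [Measure.map_comp _ _ (measurable_pull _), Measure.bind_congr_right (g := fun _ => μ)]
    · simp
    · filter_upwards [hμ] with η hη
      rw [Kernel.map_apply _ (measurable_pull _), hη]
  have h1 : ∀ᵐ q ∂ρ.bind Λ, F (side false q) = F' (side true q) := by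
    refine Measure.ae_comp_of_ae_ae (measurableSet_eq_fun (by fun_prop) (by fun_prop)) ?_
    filter_upwards [hm, hQ] with z a1 a2
    exact h _ ⟨a1.1, a1.2, a2⟩
  have := common_of_ci hci hd hF hF' hb h1
  rwa [e false κ (hm.mono fun _ h => h.1), e true κ' (hm.mono fun _ h => h.2)] at this

theorem gb_ae_ae_of_ind {I A B : Type} [Countable I] [Countable A] [Countable B]
    {M : Measure (Om I)} [IsProbabilityMeasure M] (a : A → I) (b : B → I)
    (h : Ind M (range a) (range b)) {Q : Om A → Om B → Prop}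
    (hQ : ∀ᵐ x ∂M, Q (pull a x) (pull b x)) :
    ∀ᵐ α ∂M.map (pull a), ∀ᵐ β ∂M.map (pull b), Q α β := by
  filter_upwards [ae_cd b a hQ, cd_ind b a h.symm] with α h1 h2
  rwa [h2] at h1

theorem gb_image_sS {I J : Type} (f : Bool × I → J) (b : Bool) (X : Set I) :
    f '' sS b X = (fun a => f (b, a)) '' X := by
  ext i
  constructor
  · rintro ⟨⟨b', a⟩, ⟨hb, ha⟩, rfl⟩
    obtain rfl : b' = b := hb
    exact ⟨a, ha, rfl⟩
  · rintro ⟨a, ha, rfl⟩
    exact ⟨(b, a), ⟨rfl, ha⟩, rfl⟩

namespace PairD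
variable {c : Ctx} (d : PairD c)

theorem gr_diag : ∀ᵐ z ∂mZ d.h d.y, ∀ᵐ q ∂gr d.h d.y z, ∀ j,
    res c.X (cell j (row false q)) = res c.X (cell j (row true q)) :=
  ae_cd (M := (GG d.h).μ) (gi d.h) (Subtype.val : ZZ d.h d.y → _)
    (Q := fun _ q => ∀ j, res c.X (cell j (row false q)) = res c.X (cell j (row true q)))
    (Eventually.of_forall fun x j => funext fun a =>
      congrArg (fun i => x (Sum.inl (j, i))) (d.diag a a.2))

theorem gb_indY : Ind d.E.μ ((d.h false).ι '' c.Y) ((d.h true).ι '' c.Y) :=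
  (PairD.indY' c.sat.ind d.h d.diag d.ci).1

theorem gb_w_sub (b : Bool) :
    range (Subtype.val ∘ d.good.wI b) ⊆ up (c.S.two d.h) ((d.h b).ι '' c.Y) := by
  rintro _ ⟨i, rfl⟩
  exact (c.S.lf2 d.h b).mem_up le_rfl i.2

/-- both bases -/
abbrev gbYY : Set d.E.I := (d.h false).ι '' c.Y ∪ (d.h true).ι '' c.Y

theorem gb_invYY : d.E.Inv d.gbYY := (c.sat.invY.image _).union (c.sat.invY.image _)

theorem gb_prin (j : c.P.Col) : CI (GG d.h).μ (colS (c.S.two d.h) {j} univ)
    (up (c.S.two d.h) d.gbYY) (colS (c.S.two d.h) {j} d.gbYY) :=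
  principle_ci _ j d.gb_invYY le_rfl (ci_of_subset le_rfl).symm

theorem gb_ciYY : CI d.E.μ (range (d.h false).ι) (range (d.h true).ι)
    ((d.h true).ι '' c.X ∪ d.gbYY) := by
  refine (d.ci.base (U' := (d.h true).ι '' c.X ∪ (d.h false).ι '' c.Y) subset_union_left
    ?_).symm.base (union_subset_union_right _ subset_union_left) ?_
  · exact union_subset subset_union_right (subset_union_of_subset_left (image_subset_range _ _) _)
  · refine union_subset (subset_union_of_subset_right subset_union_left _) (union_subset ?_ ?_)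
    · exact subset_union_of_subset_right subset_union_right _
    · exact subset_union_of_subset_left (image_subset_range _ _) _

theorem ind_w : Ind (GG d.h).μ (range (Subtype.val ∘ d.good.wI false))
    (range (Subtype.val ∘ d.good.wI true)) :=
  (lim_ind (c.S.two d.h) d.gb_indY).mono (d.gb_w_sub false) (d.gb_w_sub true)

theorem ae_kap2 (j : c.P.Col) {Q : Om d.y → Om c.W → Om c.W → Prop}
    (hQ : ∀ᵐ z ∂mZ d.h d.y, Q (d.good.yj j z) (d.good.wb false z) (d.good.wb true z)) :
    ∀ᵐ η ∂my d.E d.y, ∀ᵐ v ∂c.kap j (d.good.wy false η), ∀ᵐ v' ∂c.kap j (d.good.wy true η),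
      Q η v v' := by
  set S' := c.S.two d.h
  have hs : ∀ b, colS S' {j} ((d.h b).ι '' c.Y) ⊆ up S' ((d.h b).ι '' c.Y) := fun b =>
    colS_subset_up _ _ (c.sat.invY.image _)
  have e : colS S' {j} d.gbYY =
      colS S' {j} ((d.h false).ι '' c.Y) ∪ colS S' {j} ((d.h true).ι '' c.Y) := by
    rw [colS_single, colS_single, colS_single, image_union]
  have h1 : CI (GG d.h).μ (up S' ((d.h false).ι '' c.Y)) (up S' ((d.h true).ι '' c.Y))
      (colS S' {j} d.gbYY) := by
    refine ((ind_iff_ci.1 (lim_ind S' d.gb_indY)).symm.base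
      (U' := colS S' {j} ((d.h false).ι '' c.Y)) (empty_subset _)
      (subset_union_of_subset_left (hs false) _)).symm.base (e ▸ subset_union_left) ?_
    rw [e, union_comm]
    exact union_subset_union_left _ (hs true)
  have h2 : CI (GG d.h).μ (up S' ((d.h false).ι '' c.Y)) (colS S' {j} d.y)
      (colS S' {j} d.gbYY ∪ up S' ((d.h true).ι '' c.Y)) := by
    refine ((d.gb_prin j).base' subset_union_left ?_ ?_ ?_).symm
    · exact union_subset subset_union_right
        (subset_union_of_subset_left (up_mono _ subset_union_right) _)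
    · exact subset_union_of_subset_left (colS_mono _ le_rfl (subset_univ _)) _
    · exact subset_union_of_subset_left (up_mono _ subset_union_left) _
  have h3 := ae_cd_prod (M := (GG d.h).μ) (Subtype.val ∘ d.good.wI false)
    (Subtype.val ∘ d.good.wI true) (Subtype.val ∘ d.good.yI j) (by
      rw [d.good.gb_range_yI]
      refine (h2.contr h1).base' (colS_mono _ le_rfl (union_subset (d.good.adm false).2.1
        (d.good.adm true).2.1)) (subset_union_of_subset_left subset_union_left _)
        (subset_union_of_subset_left (d.gb_w_sub false) _) ?_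
      exact subset_union_of_subset_left (subset_union_of_subset_right (d.gb_w_sub true) _) _)
    (Q := Q) (ae_of_ae_map (measurable_pull _).aemeasurable hQ)
  rw [← gb_map_pull_pull, d.good.gb_map_yj] at h3
  filter_upwards [h3, d.good.cd_w false j, d.good.cd_w true j] with η a1 a2 a3
  rwa [a2, a3] at a1

theorem pair_sum {Q : Om c.W → Om c.W → Measure (Om (Bool × c.s.I)) → Prop}
    (hQ : ∀ᵐ z ∂mZ d.h d.y,
      Q (d.good.wb false z) (d.good.wb true z) (lam d.h d.y (d.good.yj c.r z))) :
    ∀ᵐ v ∂c.mW, ∀ᵐ v' ∂c.mW, ∃ L : Set (Measure (Om (Bool × c.s.I))), L.Nonempty ∧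
      (∀ γ ∈ L, γ.map (side false) = c.fb (c.wj c.r v) ∧ γ.map (side true) = c.fb (c.wj c.r v') ∧
        Q v v' γ) ∧ Common c.X (c.fb (c.wj c.r v)) (c.fb (c.wj c.r v')) L := by
  set S' := c.S.two d.h
  let cw : Bool × c.W → ZZ d.h d.y := fun q => d.good.wI q.1 q.2
  let a : Bool × c.s.I → LI S' := (col S' c.r).ι ∘ pi2 d.h
  let Λ : Kernel (Om (ZZ d.h d.y)) (Om (Bool × c.s.I)) := cd (GG d.h).μ a Subtype.val
  have hΛ : ∀ᵐ z ∂mZ d.h d.y, Λ z = lam d.h d.y (d.good.yj c.r z) := by
    filter_upwards [d.good.gb_colm c.r, cd_map (M := (GG d.h).μ) (gi d.h)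
      (Subtype.val : ZZ d.h d.y → _) (fun q : Bool × c.s.I => (q.1, c.r, q.2))] with z a1 a2
    exact a2.symm.trans a1
  have h1 := cd_tower (M := (GG d.h).μ) a (Subtype.val : ZZ d.h d.y → _) cw
  have hW : range (Subtype.val ∘ cw) ⊆ up S' d.gbYY := by
    rintro _ ⟨⟨b, i⟩, rfl⟩
    refine up_mono _ ?_ (d.gb_w_sub b ⟨i, rfl⟩)
    cases b
    · exact subset_union_left
    · exact subset_union_right
  have hW' : (col S' c.r).ι '' d.gbYY ⊆ range (Subtype.val ∘ cw) := by
    rintro _ ⟨_, ⟨i, hi, rfl⟩ | ⟨i, hi, rfl⟩, rfl⟩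
    · exact ⟨(false, c.wi c.r ⟨i, hi⟩), rfl⟩
    · exact ⟨(true, c.wi c.r ⟨i, hi⟩), rfl⟩
  have h2 := fib_ci (M := (GG d.h).μ) a (Subtype.val ∘ cw) (R := sS false univ)
    (R' := sS true univ) (R'' := sS true c.X) (by
      have k1 := ((col S' c.r).ci_iff _ _ _).2 d.gb_ciYY
      have k2 := d.gb_prin c.r
      rw [colS_single, colS_single] at k2
      have k3 : CI (GG d.h).μ ((col S' c.r).ι '' range (d.h false).ι) (range (Subtype.val ∘ cw))
          ((col S' c.r).ι '' ((d.h true).ι '' c.X ∪ d.gbYY) ∪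
            (col S' c.r).ι '' range (d.h true).ι) := by
        refine (k2.symm.base' ?_ ?_ (subset_union_of_subset_left hW _) ?_).symm
        · exact subset_union_of_subset_left (image_mono subset_union_right) _
        · exact subset_union_of_subset_left
            (union_subset (image_mono (subset_univ _)) (image_mono (subset_univ _))) _
        · exact subset_union_of_subset_left (image_mono (subset_univ _)) _
      rw [image_comp, image_comp, image_comp, gb_image_sS, gb_image_sS, gb_image_sS, image_univ,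
        image_univ]
      refine (k3.contr k1).base' ?_ ?_ subset_union_left
        (subset_union_of_subset_left subset_union_right _)
      · rw [image_union]
        exact union_subset_union_right _ hW'
      · exact union_subset (subset_union_of_subset_right (image_mono subset_union_left) _)
          (subset_union_of_subset_left subset_union_left _))
  have h3 := ae_cd (M := (GG d.h).μ) a (Subtype.val ∘ cw)
    (Q := fun _ q => res c.X (side false q) = res c.X (side true q))
    (Eventually.of_forall fun x => funext fun i =>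
      congrArg (fun i => x (Sum.inl (c.r, i))) (d.diag i i.2))
  have hs := d.good.lam_side
  rw [← d.good.gb_map_yj c.r] at hs
  have h4 := ae_cd (M := (GG d.h).μ) (Subtype.val : ZZ d.h d.y → _) (Subtype.val ∘ cw)
    (Q := fun β z => ((Λ z).map (side false) = c.fb (c.wj c.r (side false β)) ∧
      (Λ z).map (side true) = c.fb (c.wj c.r (side true β))) ∧
      Q (side false β) (side true β) (Λ z)) (by
      filter_upwards [ae_of_ae_map (measurable_pull _).aemeasurable hΛ,
        ae_of_ae_map (measurable_pull _).aemeasurable hQ,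
        ae_of_ae_map (measurable_pull _).aemeasurable
          (ae_of_ae_map (measurable_pull _).aemeasurable hs)] with x a1 a2 a3
      rw [a1]
      exact ⟨⟨a3 false, a3 true⟩, a2⟩)
  have e : ∀ b, (GG d.h).μ.map (pull (Subtype.val ∘ d.good.wI b)) = c.mW := fun b => by
    rw [← gb_map_pull_pull, d.good.gb_map_wb]
  have h5 := gb_ae_ae_of_ind _ _ d.ind_w
    (Q := fun v v' => ∃ L : Set (Measure (Om (Bool × c.s.I))), L.Nonempty ∧
      (∀ γ ∈ L, γ.map (side false) = c.fb (c.wj c.r v) ∧ γ.map (side true) = c.fb (c.wj c.r v') ∧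
        Q v v' γ) ∧ Common c.X (c.fb (c.wj c.r v)) (c.fb (c.wj c.r v')) L)
    (ae_of_ae_map (f := pull (Subtype.val ∘ cw)) (measurable_pull _).aemeasurable
      (p := fun β => ∃ L : Set (Measure (Om (Bool × c.s.I))), L.Nonempty ∧
        (∀ γ ∈ L, γ.map (side false) = c.fb (c.wj c.r (side false β)) ∧
          γ.map (side true) = c.fb (c.wj c.r (side true β)) ∧
          Q (side false β) (side true β) γ) ∧
        Common c.X (c.fb (c.wj c.r (side false β))) (c.fb (c.wj c.r (side true β))) L) (by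
      filter_upwards [h1, h2, h3, h4] with β a1 a2 a3 a4
      rw [← a1] at a2 a3
      exact common_of_bind a2 a3 (a4.mono fun _ h => h.1) (a4.mono fun _ h => h.2)))
  rwa [e, e] at h5

theorem pair_lk {Q : Om c.Y → Om c.Y → Measure (Om (Bool × c.s.I)) → Prop}
    (hQ : ∀ᵐ η ∂my d.E d.y, Q (d.good.wy false η) (d.good.wy true η) (lam d.h d.y η)) :
    ∀ᵐ w ∂c.mY, ∀ᵐ w' ∂c.mY, ∃ L : Set (Measure (Om (Bool × c.s.I))), L.Nonempty ∧
      (∀ γ ∈ L, γ.map (side false) = c.fb w ∧ γ.map (side true) = c.fb w' ∧ Q w w' γ) ∧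
        Common c.X (c.fb w) (c.fb w') L := by
  let cw : Bool × c.Y → d.y := fun q => d.good.vI q.1 q.2
  have h1 := cd_tower (M := d.E.μ) (pi2 d.h) (Subtype.val : d.y → _) cw
  have hW : range (Subtype.val ∘ cw) = d.gbYY := by
    ext i
    constructor
    · rintro ⟨⟨b, i⟩, rfl⟩
      cases b
      · exact Or.inl ⟨i, i.2, rfl⟩
      · exact Or.inr ⟨i, i.2, rfl⟩
    · rintro (⟨i, hi, rfl⟩ | ⟨i, hi, rfl⟩)
      · exact ⟨(false, ⟨i, hi⟩), rfl⟩
      · exact ⟨(true, ⟨i, hi⟩), rfl⟩
  have h2 := fib_ci (M := d.E.μ) (pi2 d.h) (Subtype.val ∘ cw) (R := sS false univ)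
    (R' := sS true univ) (R'' := sS true c.X) (by
      rw [gb_image_sS, gb_image_sS, gb_image_sS, image_univ, image_univ, hW]
      exact d.gb_ciYY)
  have h3 := ae_cd (M := d.E.μ) (pi2 d.h) (Subtype.val ∘ cw)
    (Q := fun _ q => res c.X (side false q) = res c.X (side true q))
    (Eventually.of_forall fun x => funext fun i => congrArg x (d.diag i i.2))
  have h4 := ae_cd (M := d.E.μ) (Subtype.val : d.y → _) (Subtype.val ∘ cw)
    (Q := fun β z => ((lam d.h d.y z).map (side false) = c.fb (side false β) ∧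
      (lam d.h d.y z).map (side true) = c.fb (side true β)) ∧
      Q (side false β) (side true β) (lam d.h d.y z)) (by
      filter_upwards [ae_of_ae_map (measurable_pull _).aemeasurable hQ,
        ae_of_ae_map (measurable_pull _).aemeasurable d.good.lam_side] with x a2 a3
      exact ⟨⟨a3 false, a3 true⟩, a2⟩)
  have h5 := gb_ae_ae_of_ind (M := d.E.μ) (fun a : c.Y => (d.h false).ι a)
    (fun a : c.Y => (d.h true).ι a) (d.gb_indY.mono
      (by rintro _ ⟨i, rfl⟩; exact ⟨i, i.2, rfl⟩) (by rintro _ ⟨i, rfl⟩; exact ⟨i, i.2, rfl⟩))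
    (Q := fun w w' => ∃ L : Set (Measure (Om (Bool × c.s.I))), L.Nonempty ∧
      (∀ γ ∈ L, γ.map (side false) = c.fb w ∧ γ.map (side true) = c.fb w' ∧ Q w w' γ) ∧
        Common c.X (c.fb w) (c.fb w') L)
    (ae_of_ae_map (f := pull (Subtype.val ∘ cw)) (measurable_pull _).aemeasurable
      (p := fun β => ∃ L : Set (Measure (Om (Bool × c.s.I))), L.Nonempty ∧
        (∀ γ ∈ L, γ.map (side false) = c.fb (side false β) ∧
          γ.map (side true) = c.fb (side true β) ∧ Q (side false β) (side true β) γ) ∧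
        Common c.X (c.fb (side false β)) (c.fb (side true β)) L) (by
      filter_upwards [h1, h2, h3, h4] with β a1 a2 a3 a4
      rw [← a1] at a2 a3
      exact common_of_bind a2 a3 (a4.mono fun _ h => h.1) (a4.mono fun _ h => h.2)))
  rwa [(d.h false).map_res, (d.h true).map_res] at h5

end PairD

end Crest.Agent.R69
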