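import Crest.Agent.R69.G1

/-! # Row 69: fibres of the pair with two bases -/

set_option autoImplicit false
set_option linter.unusedVariables false
set_option linter.unusedSectionVars false

open MeasureTheory ProbabilityTheory Filter Topology Set

noncomputable section

namespace Crest.Agent.R69

namespace PairE
variable {c : Ctx} (e : PairE c)

/-- conditional law of the large base of the limit given the small one -/
abbrev rho : Kernel (Om (ZZ e.h e.ω)) (Om (ZZ e.h e.y)) := cd (GG e.h).μ Subtype.val Subtype.val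
/-- conditional law of the large base given the small one -/
abbrev mo : Kernel (Om e.ω) (Om e.y) := cd e.E.μ Subtype.val Subtype.val

theorem ae_rho {Q : Om (ZZ e.h e.y) → Prop} (hQ : ∀ᵐ z ∂mZ e.h e.y, Q z) :
    ∀ᵐ ζ ∂mZ e.h e.ω, ∀ᵐ z ∂e.rho ζ, Q z ∧ ∀ b, e.good.wb b z = e.goodω.wb b ζ :=
  ae_cd (M := (GG e.h).μ) (Subtype.val : ZZ e.h e.y → _) (Subtype.val : ZZ e.h e.ω → _)
    (Q := fun ζ z => Q z ∧ ∀ b, e.good.wb b z = e.goodω.wb b ζ)
    ((ae_of_ae_map (measurable_pull _).aemeasurable hQ).mono fun x hx => ⟨hx, fun _ => rfl⟩)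

theorem rho_ind : ∀ᵐ ζ ∂mZ e.h e.ω, ∀ (j : c.P.Col) (J : Finset c.P.Col), j ∉ J →
    J.card + 2 ≤ Fintype.card c.P.Col →
      Ind (e.rho ζ) (range (e.good.yI j)) (⋃ i ∈ J, range (e.good.yI i)) :=
  (gb_two_ae e).mono fun _ h => h.ind

theorem rho_prod : ∀ᵐ ζ ∂mZ e.h e.ω,
    Ind ((e.rho ζ).bind (gr e.h e.y)) (gS {false} univ) (gS {true} univ) :=
  (gb_two_ae e).mono fun _ h => h.prod

theorem rho_yj : ∀ᵐ ζ ∂mZ e.h e.ω, ∀ j,
    (e.rho ζ).map (e.good.yj j) = e.mo (e.goodω.yj j ζ) := ae_all_iff.2 e.gb_rho_yj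

theorem two_ae : ∀ᵐ ζ ∂mZ e.h e.ω,
    Two (e.rho ζ) e.good.yI (lam e.h e.y) (gr e.h e.y) fun b => c.nu (e.goodω.wb b ζ) := by
  filter_upwards [e.ae_rho e.good.grid_ae, e.rho_ind, e.rho_prod] with ζ h1 h2 h3
  refine ⟨?_, h2, h3⟩
  filter_upwards [h1] with z hz
  have : (fun b => c.nu (e.goodω.wb b ζ)) = fun b => c.nu (e.good.wb b z) := by
    funext b; rw [hz.2 b]
  rw [this]; exact hz.1

theorem ae_mo {Q : Om e.y → Prop} (hQ : ∀ᵐ η ∂my e.E e.y, Q η) :
    ∀ᵐ o ∂my e.E e.ω, ∀ᵐ η ∂e.mo o, Q η ∧ ∀ b, e.good.wy b η = e.goodω.wy b o :=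
  ae_cd (M := e.E.μ) (Subtype.val : e.y → _) (Subtype.val : e.ω → _)
    (Q := fun o η => Q η ∧ ∀ b, e.good.wy b η = e.goodω.wy b o)
    ((ae_of_ae_map (measurable_pull _).aemeasurable hQ).mono fun x hx => ⟨hx, fun _ => rfl⟩)

theorem mo_prod : ∀ᵐ o ∂my e.E e.ω,
    Ind ((e.mo o).bind (lam e.h e.y)) (sS false univ) (sS true univ) := by
  filter_upwards [e.gb_indep] with o ho
  have h : ∀ b : Bool, (sS b univ : Set (Bool × c.s.I)) = range fun a => (b, a) := fun b => by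
    ext ⟨b', a⟩
    simp [sS, eq_comm]
  rw [h, h, ind_iff_map_prod]
  exact (indepFun_iff_map_prod_eq_prod_map_map (measurable_pull _).aemeasurable
    (measurable_pull _).aemeasurable).1 ho

theorem mo_sh : ∀ᵐ o ∂my e.E e.ω, ∀ t : ℤ,
    e.mo (e.E.shB (e.goodω.adm false).1 t o) =
      (e.mo o).map (e.E.shB (e.good.adm false).1 t) :=
  ae_all_iff.2 fun t => cd_equiv (M := e.E.μ) (e.E.τ ^ t : Equiv.Perm _) (e.E.map_sh t)
    (Subtype.val : e.y → _) (Subtype.val : e.ω → _) (e.E.gbI (e.good.adm false).1 t)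
    (e.E.gbI (e.goodω.adm false).1 t) rfl rfl (e.E.gbI_surj _ t)

/-- the label is a function of the other columns and the base -/
theorem _root_.Crest.Agent.R69.Lb.det (l : Lb c) :
    AEStronglyMeasurable[sg (colS c.S {c.r}ᶜ univ ∪ c.W)]
      (fun z => l.ψ (res c.X (pull (col c.S c.r).ι z))) (Lim c.S).μ := l.gb_meas

theorem det (l : Lb c) : ∀ᵐ η ∂my e.E e.y,
    AEStronglyMeasurable[sg (sS true univ)] (fun q => l.ψ (res c.X (side false q)))
      (lam e.h e.y η) := l.gb_side e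

end PairE

end Crest.Agent.R69
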