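import Crest.Agent.R69.G3
import Crest.Agent.R69.F1
import Crest.Agent.R69.F2b

/-! # Row 69: non-triviality (helper25) -/

set_option autoImplicit false
set_option linter.unusedVariables false
set_option linter.unusedSectionVars false

open MeasureTheory ProbabilityTheory Filter Topology Set

noncomputable section

namespace Crest.Agent.R69

variable {c : Ctx}

/-- the other columns and the base -/
abbrev Ctx.U (c : Ctx) : Set (LI c.S) := colS c.S {c.r}ᶜ univ ∪ c.W
/-- the column `r` -/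
abbrev Ctx.σ (c : Ctx) : Om (LI c.S) → Om c.s.I := pull (col c.S c.r).ι

/-- orthogonal to all relation tuples -/
def GxV (c : Ctx) (g : Om c.s.I → ℝ) : Prop :=
  ∀ᵐ v ∂c.mW, ∀ χ, RelT (c.nu v) χ → ∫ x, χ c.r x * (g x : ℂ) ∂(c.nu v).map (cell c.r) = 0

theorem gx_map {I J E : Type} [NormedAddCommGroup E] [NormedSpace ℝ E]
    [SecondCountableTopology E] [MeasurableSpace E] [BorelSpace E] (M : Measure (Om I)) (a : J → I)
    {F : Om J → E} (hF : Measurable F) : ∫ x, F x ∂M.map (pull a) = ∫ x, F (pull a x) ∂M :=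
  integral_map (measurable_pull _).aemeasurable hF.aestronglyMeasurable

theorem gx_U (c : Ctx) :
    (Sum.inl '' rS {c.r}ᶜ ∪ range (Subtype.val : c.W → LI c.S) : Set (LI c.S)) = c.U := by
  rw [Subtype.range_coe]
  congr 1
  ext i
  exact ⟨fun ⟨q, hq, h⟩ => ⟨q.1, hq, q.2, mem_univ _, h.symm⟩,
    fun ⟨j, hj, a, _, h⟩ => ⟨(j, a), hj, h.symm⟩⟩

theorem gx_memLp {g : Om c.s.I → ℝ} (hg : Measurable g) (h2 : MemLp g 2 c.s.μ) :
    ∀ᵐ v ∂c.mW, MemLp g 2 ((c.nu v).map (cell c.r)) := by
  have := cd_memLp (M := (Lim c.S).μ) Sum.inl (Subtype.val : c.W → LI c.S)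
    (F := fun p => g (cell c.r p.2))
    (hg.comp ((measurable_pull _).comp measurable_snd)).stronglyMeasurable (p := 2) (by simp)
    (h2.comp_measurePreserving (col c.S c.r).mp)
  filter_upwards [this] with v hv
  exact (memLp_map_measure_iff hg.aestronglyMeasurable (measurable_pull _).aemeasurable).2 hv

theorem gx_int {I : Type} {κ : Measure (Om I)} [IsProbabilityMeasure κ] {χ : Om I → ℂ}
    (hχ : Lbl χ) {g : Om I → ℝ} (hg : MemLp g 2 κ) : Integrable (fun x => χ x * (g x : ℂ)) κ :=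
  (hg.integrable one_le_two).ofReal.bdd_mul hχ.1.aestronglyMeasurable
    (Eventually.of_forall hχ.2)

theorem GxV.sub {g g' : Om c.s.I → ℝ} (h : GxV c g) (h' : GxV c g') (hg : Measurable g)
    (h2 : MemLp g 2 c.s.μ) (hg' : Measurable g') (h2' : MemLp g' 2 c.s.μ) : GxV c (g - g') := by
  filter_upwards [h, h', gx_memLp hg h2, gx_memLp hg' h2'] with v h3 h4 h5 h6 χ hχ
  have hl : Lbl (χ c.r) := ⟨hχ.meas _, fun x => (hχ.uni _ x).le⟩
  simp only [Pi.sub_apply, Complex.ofReal_sub, mul_sub]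
  rw [integral_sub (gx_int hl h5) (gx_int hl h6), h3 χ hχ, h4 χ hχ, sub_self]

theorem gx_ker {φ : Om c.s.I → ℝ} (hφ : Measurable φ) (h2 : MemLp φ 2 c.s.μ)
    (h0 : (Lim c.S).μ[φ ∘ c.σ | sg c.U] =ᵐ[(Lim c.S).μ] 0) : GxV c φ := by
  obtain ⟨G, -, -, h3, h4⟩ := fib_condExp (M := (Lim c.S).μ) Sum.inl (Subtype.val : c.W → LI c.S)
    (rS {c.r}ᶜ) (F := fun p => φ (cell c.r p.2))
    (hφ.comp ((measurable_pull _).comp measurable_snd)).stronglyMeasurable
    ((h2.comp_measurePreserving (col c.S c.r).mp).integrable one_le_two)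
  rw [gx_U] at h3
  have h5 := ae_cd (M := (Lim c.S).μ) Sum.inl (Subtype.val : c.W → LI c.S)
    (Q := fun β α => G (β, α) = 0) (h3.symm.trans h0)
  filter_upwards [h4, h5, gx_memLp hφ h2] with v h6 h7 h8 χ hχ
  have h9 : MemLp (fun α => φ (cell c.r α)) 2 (c.nu v) :=
    h8.comp_measurePreserving ⟨measurable_pull _, rfl⟩
  rw [gx_map _ _ (by exact (hχ.meas _).mul (Complex.measurable_ofReal.comp hφ))]
  refine integral_mul_eq_zero_of_test (S := rS {c.r}ᶜ) (F := fun α => (φ (cell c.r α) : ℂ))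
    (G := fun α => χ c.r (cell c.r α)) h9.ofReal
    (MemLp.of_bound ((hχ.meas _).comp (measurable_pull _)).aestronglyMeasurable 1
      (Eventually.of_forall fun α => (hχ.uni _ _).le)) ?_ fun m hm => ?_
  · refine ⟨fun α => (∏ j ∈ Finset.univ.erase c.r, χ j (cell j α))⁻¹,
      (Measurable.inv (Finset.measurable_prod _ fun j hj => (hχ.meas j).comp
        (measurable_pull_range _ ?_))).stronglyMeasurable, ?_⟩
    · rintro _ ⟨a, rfl⟩
      exact Finset.ne_of_mem_erase hj
    · filter_upwards [hχ.rel] with α hα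
      rw [← Finset.mul_prod_erase _ _ (Finset.mem_univ c.r)] at hα
      exact eq_inv_of_mul_eq_one_left hα
  · have h10 := integral_mon_smul_condExp (h9.integrable one_le_two) hm
    have h11 : ∫ α, mon m α • ((c.nu v)[fun α => φ (cell c.r α) | sg (rS {c.r}ᶜ)]) α ∂c.nu v = 0 := by
      refine integral_eq_zero_of_ae ?_
      filter_upwards [h6, h7] with α h12 h13
      rw [h12, h13]; simp
    rw [h11] at h10
    simp only [Complex.real_smul, ← Complex.ofReal_mul]
    rw [integral_complex_ofReal]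
    exact Complex.ofReal_eq_zero.2 h10.symm

/-- the key orthogonality in the limit of the pair -/
theorem gx_key (e : PairE c) {g : Om c.s.I → ℝ} (hg : Measurable g) (h2 : MemLp g 2 c.s.μ)
    (hV : GxV c g) (m : Multiset (LI c.S)) (hm : InB m c.U) :
    ∫ z, mon (m.map (c.S.lf2 e.h false).lf) z •
      (e.E.μ[g ∘ pull (e.h false).ι | sg (range (e.h true).ι ∪ e.y)])
        (pull (col (c.S.two e.h) c.r).ι z) ∂(GG e.h).μ = 0 := by
  have hT : e.E.Inv (range (e.h true).ι ∪ e.y) := (e.h true).inv_range.union (e.good.adm false).1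
  have hg2 : MemLp (g ∘ pull (e.h false).ι) 2 e.E.μ := h2.comp_measurePreserving (e.h false).mp
  have hg3 := hg2.comp_measurePreserving (col (c.S.two e.h) c.r).mp
  have hP := principle (c.S.two e.h) c.r hT (hg2.integrable one_le_two)
  obtain ⟨G, hG, -, h3, h4⟩ := fib_condExp (M := (GG e.h).μ) (gi e.h)
    (Subtype.val : ZZ e.h e.y → _) (gS {true} {c.r}) (F := fun p => g (cell c.r (row false p.2)))
    (hg.comp ((measurable_pull _).comp ((measurable_pull _).comp measurable_snd))).stronglyMeasurable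
    (hg3.integrable one_le_two)
  rw [gb_image_gS, Subtype.range_coe] at h3
  have h5 : (fun z => (e.E.μ[g ∘ pull (e.h false).ι | sg (range (e.h true).ι ∪ e.y)])
      (pull (col (c.S.two e.h) c.r).ι z)) =ᵐ[(GG e.h).μ]
      fun z => G (pull Subtype.val z, pull (gi e.h) z) := by
    have l1 : sg (colS (c.S.two e.h) {c.r} (range (e.h true).ι) ∪ ZZ e.h e.y) ≤
        sg (up (c.S.two e.h) (range (e.h true).ι ∪ e.y)) :=
      sg_mono (union_subset ((colS_subset_up _ _ (e.h true).inv_range).trans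
        (up_mono _ subset_union_left)) (up_mono _ subset_union_right))
    refine EventuallyEq.trans ?_ h3
    refine EventuallyEq.trans ?_ (condExp_condExp_of_le l1 (sg_le _))
    refine ((condExp_congr_ae hP).trans (condExp_of_aestronglyMeasurable' (sg_le _) ?_ ?_)).symm
    · refine (stronglyMeasurable_condExp.comp_measurable
        (measurable_pull_sg _ ?_)).aestronglyMeasurable
      rintro _ ⟨a, ha | ha, rfl⟩
      · exact Or.inl ⟨c.r, rfl, a, ha, rfl⟩
      · exact Or.inr (col_mem_up _ (e.good.adm false).1 _ ha)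
    · exact (integrable_congr hP).1 integrable_condExp
  obtain ⟨m₁, m₂, h6, h7, rfl⟩ := (gx_U c ▸ hm).of_union
  obtain ⟨m₁, h6', rfl⟩ := h6.of_image
  obtain ⟨m₂, rfl⟩ := h7.of_range
  let F : Om (ZZ e.h e.y) × Om (Bool × c.P.Col × c.s.I) → ℝ := fun p =>
    mon m₂ (e.good.wb false p.1) * (G p * mon m₁ (row false p.2))
  have hF : StronglyMeasurable F :=
    (((measurable_mon _).comp ((measurable_pull _).comp measurable_fst)).mul (hG.measurable.mul
      ((measurable_mon _).comp ((measurable_pull _).comp measurable_snd)))).stronglyMeasurable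
  have h8 : (fun z => mon ((m₁.map Sum.inl + m₂.map Subtype.val).map (c.S.lf2 e.h false).lf) z •
      (e.E.μ[g ∘ pull (e.h false).ι | sg (range (e.h true).ι ∪ e.y)])
        (pull (col (c.S.two e.h) c.r).ι z)) =ᵐ[(GG e.h).μ]
      fun z => F (pull Subtype.val z, pull (gi e.h) z) := by
    filter_upwards [h5] with z hz
    rw [hz, mon_map, mon_add, mon_map, mon_map, smul_eq_mul]
    change mon m₁ (row false (pull (gi e.h) z)) * mon m₂ (e.good.wb false (pull Subtype.val z)) * _
      = mon m₂ _ * (_ * mon m₁ _)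
    ring
  have h9 : Integrable (fun z => F (pull Subtype.val z, pull (gi e.h) z)) (GG e.h).μ := by
    refine (integrable_congr h8).1 (Integrable.bdd_smul ?_ 1 (measurable_mon _).aestronglyMeasurable
      (Eventually.of_forall fun x => abs_mon_le _ x))
    exact (integrable_congr hP).1 integrable_condExp
  rw [integral_congr_ae h8, cd_integral (gi e.h) Subtype.val hF h9]
  refine integral_eq_zero_of_ae (ae_map_pull _ ?_)
  refine ae_of_ae_cd (M := (GG e.h).μ) (Subtype.val : ZZ e.h e.y → _)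
    (Subtype.val : ZZ e.h e.ω → _) (Q := fun _ β => ∫ α, F (β, α) ∂gr e.h e.y β = 0) ?_ ?_
  · exact (hF.integral_kernel_prod_right'.measurable.comp measurable_snd)
      (measurableSet_singleton 0)
  · unfold GxV at hV
    have p1 := ae_of_ae_map (measurable_pull _).aemeasurable ((e.goodω.map_wb false).symm ▸ hV)
    have p2 := ae_of_ae_map (measurable_pull _).aemeasurable
      ((e.goodω.map_wb false).symm ▸ gx_memLp hg h2)
    filter_upwards [e.two_ae, p1, p2, e.ae_rho h4] with ζ q1 q2 q3 q4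
    filter_upwards [f1a c.three q1 c.r g hg q3 q2, q4] with β q5 q6
    simp only [F]
    rw [integral_const_mul, ← integral_congr_ae (q6.1.mono fun α hα => congrArg
      (· * mon m₁ (row false α)) hα), q5 m₁ h6', mul_zero]

theorem gx_step (e : PairE c) {g : Om c.s.I → ℝ} (hg : Measurable g) (h2 : MemLp g 2 c.s.μ)
    (hV : GxV c g) : ∃ g' : Om c.s.I → ℝ, Measurable g' ∧ MemLp g' 2 c.s.μ ∧ GxV c g' ∧
      en (Lim c.S).μ (g' ∘ c.σ) c.U = en (Lim c.S).μ (g ∘ c.σ) c.U ∧
      ∫ x, g' x ^ 2 ∂c.s.μ ≤ ∫ x, g x ^ 2 ∂c.s.μ - en (Lim c.S).μ (g ∘ c.σ) c.U := by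
  have hg2 : MemLp (g ∘ pull (e.h false).ι) 2 e.E.μ := h2.comp_measurePreserving (e.h false).mp
  set Φ := e.E.μ[g ∘ pull (e.h false).ι | sg (range (e.h true).ι ∪ e.y)] with hΦ
  have hΦ2 : MemLp Φ 2 e.E.μ := hg2.condExp one_le_two
  obtain ⟨φ, hφ, h3⟩ := exists_factor (b := (e.h false).ι)
    (F := e.E.μ[Φ | sg (range (e.h false).ι)]) stronglyMeasurable_condExp
  have hφ2 : MemLp φ 2 c.s.μ := by
    rw [← (e.h false).law, memLp_map_measure_iff hφ.aestronglyMeasurable
      (measurable_pull _).aemeasurable, ← h3]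
    exact hΦ2.condExp one_le_two
  have hφ3 := (hφ2.comp_measurePreserving (col c.S c.r).mp).integrable one_le_two
  have h0 : (Lim c.S).μ[φ ∘ c.σ | sg c.U] =ᵐ[(Lim c.S).μ] 0 := by
    refine condExp_of_test hφ3 (integrable_zero _ _ _) aestronglyMeasurable_zero fun m hm => ?_
    have hP := principle (c.S.two e.h) c.r (e.h false).inv_range (hΦ2.integrable one_le_two)
    have h4 := integral_mon_smul_condExp (S := up (c.S.two e.h) (range (e.h false).ι))
      ((hΦ2.comp_measurePreserving (col (c.S.two e.h) c.r).mp).integrable one_le_two)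
      (m := m.map (c.S.lf2 e.h false).lf) (fun a ha => by
        obtain ⟨i, -, rfl⟩ := Multiset.mem_map.1 ha
        exact (c.S.lf2 e.h false).range_subset_up ⟨i, rfl⟩)
    rw [← (c.S.lf2 e.h false).law, gx_map _ _
      (by exact (measurable_mon m).smul (hφ.measurable.comp (measurable_pull _)))]
    simp only [Pi.zero_apply, smul_zero, integral_zero]
    refine Eq.trans (integral_congr_ae ?_) (h4.trans (gx_key e hg h2 hV m hm))
    filter_upwards [hP] with z hz
    rw [hz, h3, mon_map]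
    rfl
  refine ⟨g - φ, hg.sub hφ.measurable, h2.sub hφ2,
    hV.sub (gx_ker hφ.measurable hφ2 h0) hg h2 hφ.measurable hφ2, ?_, ?_⟩
  · refine integral_congr_ae ?_
    filter_upwards [h0, condExp_sub
      ((h2.comp_measurePreserving (col c.S c.r).mp).integrable one_le_two) hφ3 (sg c.U)]
      with z h4 h5
    change ((Lim c.S).μ[g ∘ c.σ - φ ∘ c.σ | sg c.U]) z ^ 2 = _
    rw [h5, Pi.sub_apply, h4, Pi.zero_apply, sub_zero]
  · have h4 := en_aux_pyth (S := range (e.h true).ι ∪ e.y) hg2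
    have h5 := en_le (S := range (e.h false).ι) (hg2.sub hΦ2)
    have h6 : en e.E.μ (g ∘ pull (e.h false).ι - Φ) (range (e.h false).ι) =
        ∫ x, (g - φ) x ^ 2 ∂c.s.μ := by
      rw [← (e.h false).law, integral_map (measurable_pull _).aemeasurable
        ((hg.sub hφ.measurable).pow_const 2).aestronglyMeasurable]
      refine integral_congr_ae ?_
      filter_upwards [condExp_sub (hg2.integrable one_le_two) (hΦ2.integrable one_le_two)
        (sg (range (e.h false).ι)), condExp_of_aestronglyMeasurable' (sg_le (range (e.h false).ι))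
        (hg.comp (measurable_pull_range _ subset_rfl)).stronglyMeasurable.aestronglyMeasurable
        (hg2.integrable one_le_two)] with x h7 h8
      rw [h7, Pi.sub_apply, h8, h3]
      rfl
    have h7 : ∫ x, (g ∘ pull (e.h false).ι) x ^ 2 ∂e.E.μ = ∫ x, g x ^ 2 ∂c.s.μ := by
      rw [← (e.h false).law, integral_map (measurable_pull _).aemeasurable
        (hg.pow_const 2).aestronglyMeasurable]
      rfl
    have h8 := e.top g hg h2
    simp only [Pi.sub_apply] at h5 h6 ⊢
    linarith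

theorem gx_zero (e : PairE c) {f : Om c.s.I → ℝ} (hf : Measurable f) (h2 : MemLp f 2 c.s.μ)
    (hV : GxV c f) : en (Lim c.S).μ (f ∘ c.σ) c.U = 0 := by
  have key : ∀ n : ℕ, ∃ g : Om c.s.I → ℝ, Measurable g ∧ MemLp g 2 c.s.μ ∧ GxV c g ∧
      en (Lim c.S).μ (g ∘ c.σ) c.U = en (Lim c.S).μ (f ∘ c.σ) c.U ∧
      ∫ x, g x ^ 2 ∂c.s.μ ≤ ∫ x, f x ^ 2 ∂c.s.μ - n * en (Lim c.S).μ (f ∘ c.σ) c.U := by
    intro n
    induction n with
    | zero => exact ⟨f, hf, h2, hV, rfl, by simp⟩
    | succ n ih =>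
      obtain ⟨g, a1, a2, a3, a4, a5⟩ := ih
      obtain ⟨g', b1, b2, b3, b4, b5⟩ := gx_step e a1 a2 a3
      refine ⟨g', b1, b2, b3, b4.trans a4, ?_⟩
      push_cast
      linarith
  refine le_antisymm (not_lt.1 fun h => ?_) (en_nonneg _)
  obtain ⟨n, hn⟩ := exists_nat_gt ((∫ x, f x ^ 2 ∂c.s.μ) / en (Lim c.S).μ (f ∘ c.σ) c.U)
  obtain ⟨g, -, -, -, -, h3⟩ := key n
  have h4 : 0 ≤ ∫ x, g x ^ 2 ∂c.s.μ := integral_nonneg fun x => sq_nonneg _
  rw [div_lt_iff₀ h] at hn
  linarith

theorem gx_b1 (c : Ctx) (e : PairE c) : ¬ ∀ᵐ v ∂c.mW, ∀ χ ψ, RelT (c.nu v) χ → Lbl ψ →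
    Lab ((c.nu v).map (cell c.r)) c.X (χ c.r) ψ → ∫ x, χ c.r x ∂(c.nu v).map (cell c.r) = 0 →
      ψ =ᵐ[c.mX] 0 := fun H => c.dep (b4a_ind_iff_const.2 fun m hm => by
  rw [colS_single, ← Subtype.range_coe (s := c.X), ← range_comp] at hm
  obtain ⟨m, rfl⟩ := hm.of_range
  let f₀ : Om c.X → ℝ := fun x => mon m x - ∫ x, mon m x ∂c.mX
  have : IsProbabilityMeasure c.mX :=
    Measure.isProbabilityMeasure_map (measurable_pull _).aemeasurable
  have hf₀ : Measurable f₀ := (measurable_mon m).sub measurable_const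
  have hf2 : MemLp f₀ 2 c.mX := (memLp_mon _ m 2).sub (memLp_const _)
  have hmean : ∫ x, (f₀ x : ℂ) ∂c.mX = 0 := by
    rw [integral_complex_ofReal, integral_sub (integrable_mon _ m) (integrable_const _)]
    simp
  have hf : Measurable (f₀ ∘ res c.X) := hf₀.comp (measurable_pull _)
  have h2 : MemLp (f₀ ∘ res c.X) 2 c.s.μ := hf2.comp_measurePreserving ⟨measurable_pull _, rfl⟩
  have hV : GxV c (f₀ ∘ res c.X) := by
    filter_upwards [H, c.nu_indR, c.nu_X] with v h3 h4 h5 χ hχ
    have hl : Lbl (χ c.r) := ⟨hχ.meas _, fun x => (hχ.uni _ x).le⟩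
    rcases relT_mean c.three h4 hχ with h6 | h6
    · obtain ⟨ψ, hψ, h7⟩ := exists_lab ((c.nu v).map (cell c.r)) c.X hl
      refine (h7.integral hl hψ (g := fun x => (f₀ x : ℂ)) (Complex.measurable_ofReal.comp hf₀)
        (by rw [h5]; exact (hf2.integrable one_le_two).ofReal)).trans ?_
      rw [h5]
      refine integral_eq_zero_of_ae ?_
      filter_upwards [h3 χ ψ hχ hψ h7 (h6 _)] with x hx
      rw [hx]; simp
    · obtain ⟨a, ha⟩ := h6 c.r
      rw [integral_congr_ae (ha.mono fun x hx => congrArg (· * ((f₀ ∘ res c.X) x : ℂ)) hx),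
        integral_const_mul]
      rw [← h5 c.r, gx_map _ _ (by exact Complex.measurable_ofReal.comp hf₀)] at hmean
      exact mul_eq_zero_of_right _ hmean
  have h3 := (en_eq_zero_iff (h2.comp_measurePreserving (col c.S c.r).mp)).1 (gx_zero e hf h2 hV)
  have h4 : ∫ x, mon m x ∂c.mX =
      ∫ z, mon (m.map ((col c.S c.r).ι ∘ Subtype.val)) z ∂(Lim c.S).μ := by
    rw [Ctx.mX, ← (col c.S c.r).law, Measure.map_map (measurable_pull _) (measurable_pull _),
      integral_map ((measurable_pull _).comp (measurable_pull _)).aemeasurable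
        (measurable_mon m).aestronglyMeasurable]
    simp only [mon_map]
    rfl
  have h5 : (f₀ ∘ res c.X) ∘ pull (col c.S c.r).ι =
      mon (m.map ((col c.S c.r).ι ∘ Subtype.val)) - fun _ => ∫ x, mon m x ∂c.mX := by
    funext z
    rw [Pi.sub_apply, mon_map]
    rfl
  rw [h5] at h3
  filter_upwards [h3, condExp_sub (integrable_mon (Lim c.S).μ _)
    (integrable_const (∫ x, mon m x ∂c.mX)) (sg c.U)] with z h6 h7
  rw [h6, Pi.sub_apply, condExp_const (sg_le _)] at h7
  rw [← h4]
  exact sub_eq_zero.1 h7.symm)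

end Crest.Agent.R69
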