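import Crest.Agent.R69.G3
import Crest.Agent.R69.F1
import Crest.Agent.R69.F2b
import Crest.Agent.R69.GX

/-! # Row 69: non-triviality (owner helper50) -/

set_option autoImplicit false
set_option linter.unusedVariables false
set_option linter.unusedSectionVars false

open MeasureTheory ProbabilityTheory Filter Topology Set

noncomputable section

namespace Crest.Agent.R69

theorem b1 (c : Ctx) (e : PairE c) : ¬ ∀ᵐ v ∂c.mW, ∀ χ ψ, RelT (c.nu v) χ → Lbl ψ →
    Lab ((c.nu v).map (cell c.r)) c.X (χ c.r) ψ → ∫ x, χ c.r x ∂(c.nu v).map (cell c.r) = 0 →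
      ψ =ᵐ[c.mX] 0 := gx_b1 c e

end Crest.Agent.R69
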