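import Crest.Agent.R69.G2
import Crest.Agent.R69.F2b

/-! # Row 69: labels and blocks are not random -/

set_option autoImplicit false
set_option linter.unusedVariables false
set_option linter.unusedSectionVars false

open MeasureTheory ProbabilityTheory Filter Topology Set

noncomputable section

namespace Crest.Agent.R69

theorem ga2_sum {I : Type} [Countable I] {κ : Measure (Om I)} [IsProbabilityMeasure κ] {X : Set I}
    {ψ : Om X → ℂ} (hψ : Lbl ψ) {N : ℕ} {f : Fin N → Om I → ℂ} (hf : ∀ k, Lbl (f k))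
    (hl : ∀ k, Lab κ X (f k) ψ) {h : Om X → ℂ} (hh : Measurable h)
    (e : ∀ᵐ x ∂κ, ∑ k, f k x = h (res X x)) : ∀ᵐ x ∂κ, ∑ k, f k x = N * ψ (res X x) := by
  have hi : ∀ k, Integrable (f k) κ := fun k =>
    Integrable.of_bound (hf k).1.aestronglyMeasurable 1 (Eventually.of_forall (hf k).2)
  have h1 : κ[∑ k, f k | sg X] =ᵐ[κ] ∑ k, f k := by
    refine condExp_of_aestronglyMeasurable' (sg_le X)
      ⟨fun x => h (res X x), (hh.comp (comap_measurable (res X))).stronglyMeasurable, ?_⟩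
      (integrable_finsetSum' _ fun k _ => hi k)
    filter_upwards [e] with x hx
    rw [Finset.sum_apply, hx]
  filter_upwards [h1, condExp_finsetSum (fun k _ => hi k) (sg X) (s := Finset.univ),
    ae_all_iff.2 fun k => Lab.condExp (hf k) hψ (hl k)] with x h2 h3 h4
  rw [← Finset.sum_apply, ← h2, h3, Finset.sum_apply, Finset.sum_congr rfl fun k _ => h4 k]
  simp

theorem RelT.lbl {C I : Type} [Fintype C] {ν : Measure (Om (C × I))} {χ : C → Om I → ℂ}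
    (h : RelT ν χ) (j : C) : Lbl (χ j) := ⟨h.meas j, fun x => (h.uni j x).le⟩

theorem dl1 (c : Ctx) (d : PairD c) (hb : ¬ ∀ᵐ v ∂c.mW, ∀ χ ψ, RelT (c.nu v) χ → Lbl ψ →
    Lab ((c.nu v).map (cell c.r)) c.X (χ c.r) ψ → ∫ x, χ c.r x ∂(c.nu v).map (cell c.r) = 0 →
      ψ =ᵐ[c.mX] 0) : Nonempty (Lb c) := by
  have key := d.pair_sum (Q := fun v v' γ => ∀ (ψ : Om c.X → ℂ) (N : ℕ) e, Lbl ψ →
      ¬ ψ =ᵐ[c.mX] 0 → Enum (c.nu v) c.X c.r ψ N e → ∃ e', Enum (c.nu v') c.X c.r ψ N e' ∧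
        ∀ᵐ q ∂γ, ∀ k, e k c.r (side false q) = e' k c.r (side true q)) (by
    have hX := ae_of_ae_map (measurable_pull _).aemeasurable
      ((d.good.map_wb false).symm ▸ c.nu_X)
    filter_upwards [d.good.grid_ae, d.gr_diag, hX] with z h1 h2 h3 ψ N e hψ hne he
    obtain ⟨e', h4, h5⟩ := f2enum c.three h1.1 (h2.mono fun q hq => hq c.r) hψ
      (by rw [h3 c.r]; exact hne) he
    refine ⟨e', h4, ?_⟩
    rw [← h1.2 c.r]
    exact ae_map_pull _ (h5.mono fun q hq k => hq k c.r))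
  have hb' : ∃ᵐ v ∂c.mW, ¬ ∀ χ ψ, RelT (c.nu v) χ → Lbl ψ →
    Lab ((c.nu v).map (cell c.r)) c.X (χ c.r) ψ → ∫ x, χ c.r x ∂(c.nu v).map (cell c.r) = 0 →
      ψ =ᵐ[c.mX] 0 := not_eventually.1 hb
  obtain ⟨v, h1, h2, h3, h4, h5⟩ :=
    (hb'.and_eventually (key.and (c.nu_cell.and (c.nu_indR.and c.nu_X)))).exists
  push Not at h1
  obtain ⟨χ, ψ, hχ, hψ, hl, hm, hne⟩ := h1
  obtain ⟨N, e, he⟩ := exists_enum (X := c.X) (r := c.r) c.three h4 hψ (by rw [h5 c.r]; exact hne)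
  refine ⟨⟨ψ, N, hψ, hne, ?_, ?_, ?_⟩⟩
  · have := hl.integral (hχ.lbl c.r) hψ (g := fun _ => 1) measurable_const (integrable_const _)
    simp only [mul_one] at this
    rw [← h5 c.r, ← this, hm]
  · obtain ⟨k, -⟩ := he.all χ hχ hl
    exact k.pos
  · filter_upwards [h2, c.nu_cell] with v' ⟨L, ⟨γ₀, hγ₀⟩, hL, hC⟩ h6
    obtain ⟨e', he', -⟩ := (hL γ₀ hγ₀).2.2 ψ N e hψ hne he
    refine ⟨e', he', ?_⟩
    obtain ⟨h, hh, -, h7⟩ := hC (fun x => ∑ k, e k c.r x) (fun x => ∑ k, e' k c.r x)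
      (Finset.measurable_sum _ fun k _ => (he.rel k).meas c.r)
      (Finset.measurable_sum _ fun k _ => (he'.rel k).meas c.r)
      ⟨N, fun x => ⟨(norm_sum_le _ _).trans (by simp [(he.rel _).uni]),
        (norm_sum_le _ _).trans (by simp [(he'.rel _).uni])⟩⟩ (fun γ hγ => by
        obtain ⟨e'', he'', h8⟩ := (hL γ hγ).2.2 ψ N e hψ hne he
        obtain ⟨π, hπ⟩ := he''.perm he'
        have h9 : ∀ᵐ x ∂γ.map (side true), ∀ k, e'' k c.r x = e' (π k) c.r x := by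
          rw [(hL γ hγ).2.1, ← h6 c.r]
          exact ae_all_iff.2 fun k => (hπ k).1
        filter_upwards [h8, ae_of_ae_map (measurable_pull _).aemeasurable h9] with q h10 h11
        rw [← Equiv.sum_comp π fun k => e' k c.r (side true q)]
        exact Finset.sum_congr rfl fun k _ => (h10 k).trans (h11 k))
    rw [← h6 c.r] at h7
    exact ga2_sum hψ (fun k => (he'.rel k).lbl c.r) he'.lab hh h7

/-- enumerations over the two rows are linked by the coupling of the column -/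
theorem PairD.link {c : Ctx} (d : PairD c) (l : Lb c) (i : c.P.Col) :
    ∀ᵐ η ∂my d.E d.y, ∀ᵐ v ∂c.kap i (d.good.wy false η), ∀ᵐ v' ∂c.kap i (d.good.wy true η),
      ∀ e e', Enum (c.nu v) c.X c.r l.ψ l.N e → Enum (c.nu v') c.X c.r l.ψ l.N e' →
        ∃ π : Equiv.Perm (Fin l.N), ∀ k, ∃ a : ℂ, (i = c.r → a = 1) ∧
          ∀ᵐ q ∂lam d.h d.y η, e k i (side false q) = a * e' (π k) i (side true q) := by
  refine d.ae_kap2 i (Q := fun η v v' => ∀ e e', Enum (c.nu v) c.X c.r l.ψ l.N e →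
    Enum (c.nu v') c.X c.r l.ψ l.N e' → ∃ π : Equiv.Perm (Fin l.N), ∀ k, ∃ a : ℂ,
      (i = c.r → a = 1) ∧
        ∀ᵐ q ∂lam d.h d.y η, e k i (side false q) = a * e' (π k) i (side true q)) ?_
  have hX := ae_of_ae_map (measurable_pull _).aemeasurable ((d.good.map_wb false).symm ▸ c.nu_X)
  filter_upwards [d.good.grid_ae, d.gr_diag, hX] with z h1 h2 h3 e e' he he'
  obtain ⟨π, hπ⟩ := f2link c.three h1.1 (h2.mono fun q hq => hq c.r) l.lbl
    (by rw [h3 c.r]; exact l.ne) he he'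
  exact ⟨π, fun k => h1.2 i ▸ hπ i k⟩

theorem ga2_pull {c : Ctx} (d : PairD c) (b : Bool) {Q : Om c.Y → Prop} (h : ∀ᵐ w ∂c.mY, Q w) :
    ∀ᵐ η ∂my d.E d.y, Q (d.good.wy b η) :=
  ae_of_ae_map (measurable_pull _).aemeasurable ((d.good.map_wy b).symm ▸ h)

theorem ga2_div {Ω : Type} {f g h : Ω → ℂ} {a a₀ : ℂ} (q : Ω) (hg : ‖g q‖ = 1)
    (h1 : f q = a * h q) (h2 : g q = a₀ * h q) : f q = a / a₀ * g q := by
  have : a₀ ≠ 0 := by
    rintro rfl
    rw [h2, zero_mul, norm_zero] at hg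
    exact zero_ne_one hg
  rw [h1, h2]; field_simp

theorem dl2 (c : Ctx) (d : PairD c) (l : Lb c) : Nonempty (Blk c) := by
  let R : c.P.Col → Om c.Y → (Fin l.N → Om c.s.I → ℂ) → Prop := fun i w β =>
    ∀ᵐ v ∂c.kap i w, ∃ e, EnumS (c.nu v) c.X c.r l.ψ l.N e ∧
      ∀ k, ∃ a : ℂ, (i = c.r → a = 1) ∧ ∀ᵐ x ∂c.fb w, e k i x = a * β k x
  have key : ∀ i, ∀ᵐ w ∂c.mY, ∃ β : Fin l.N → Om c.s.I → ℂ,
      ((∀ k, Measurable (β k)) ∧ ∀ k x, ‖β k x‖ = 1) ∧ R i w β := fun i => by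
    have : IsProbabilityMeasure (my d.E d.y) :=
      Measure.isProbabilityMeasure_map (measurable_pull _).aemeasurable
    rw [← d.good.map_wy false]
    refine ae_map_pull _ ?_
    filter_upwards [d.link l i, ga2_pull d false (c.ae_kap i l.enum),
      ga2_pull d true (c.ae_kap i l.enum), d.good.lam_side] with η h1 h2 h3 h4
    obtain ⟨v₀, h5, ⟨e₀, he₀⟩, -⟩ := (h1.and h2).exists
    refine ⟨fun k => e₀ k i, ⟨fun k => (he₀.1.rel k).meas i, fun k => (he₀.1.rel k).uni i⟩, ?_⟩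
    filter_upwards [h1, h2] with v h6 ⟨⟨e, he⟩, _⟩
    obtain ⟨v', h7, h8, ⟨e', he'⟩, -⟩ := (h5.and (h6.and h3)).exists
    obtain ⟨π₀, hπ₀⟩ := h7 e₀ e' he₀.1 he'.1
    obtain ⟨π, hπ⟩ := h8 e e' he.1 he'.1
    refine ⟨_, he.comp_perm (π₀.trans π.symm), fun k => ?_⟩
    obtain ⟨a₀, ha₀, h9⟩ := hπ₀ k
    obtain ⟨a, ha, h10⟩ := hπ (π.symm (π₀ k))
    refine ⟨a / a₀, fun hi => by rw [ha hi, ha₀ hi, div_one], ?_⟩
    rw [← h4 false]
    refine ae_map_pull _ ?_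
    filter_upwards [h9, h10] with q h11 h12
    rw [Equiv.apply_symm_apply] at h12
    exact ga2_div (f := fun q => e (π.symm (π₀ k)) i (side false q))
      (g := fun q => e₀ k i (side false q)) (h := fun q => e' (π₀ k) i (side true q)) q
      ((he₀.1.rel k).uni i _) h12 h11
  have ex : ∀ i w, ∃ β : Fin l.N → Om c.s.I → ℂ,
      ((∀ k, Measurable (β k)) ∧ ∀ k x, ‖β k x‖ = 1) ∧
        ((∃ β' : Fin l.N → Om c.s.I → ℂ,
          ((∀ k, Measurable (β' k)) ∧ ∀ k x, ‖β' k x‖ = 1) ∧ R i w β') → R i w β) := fun i w => by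
    by_cases h : ∃ β' : Fin l.N → Om c.s.I → ℂ,
      ((∀ k, Measurable (β' k)) ∧ ∀ k x, ‖β' k x‖ = 1) ∧ R i w β'
    · obtain ⟨β, h1, h2⟩ := h
      exact ⟨β, h1, fun _ => h2⟩
    · exact ⟨fun _ _ => 1, ⟨fun _ => measurable_const, fun _ _ => norm_one⟩, fun h' => absurd h' h⟩
  choose b hb hR using ex
  exact ⟨⟨l, b, fun i w => (hb i w).1, fun i w => (hb i w).2,
    fun i => (key i).mono fun w hw => hR i w hw⟩⟩

theorem Blk.pick {c : Ctx} (B : Blk c) : ∀ᵐ w ∂c.mY, ∃ (v : Om c.W) (e : _),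
    EnumS (c.nu v) c.X c.r B.ψ B.N e ∧ (c.nu v).map (cell c.r) = c.fb w ∧
      ∀ k, e k c.r =ᵐ[c.fb w] B.b c.r w k := by
  filter_upwards [B.blk c.r, c.ae_kap c.r c.nu_cell] with w h1 h2
  obtain ⟨v, ⟨e, he, h3⟩, h4, h5⟩ := (h1.and h2).exists
  refine ⟨v, e, he, by rw [h4, h5], fun k => ?_⟩
  obtain ⟨a, ha, h6⟩ := h3 k
  rw [ha rfl] at h6
  exact h6.mono fun x hx => hx.trans (one_mul _)

theorem Blk.lab {c : Ctx} (B : Blk c) :
    ∀ᵐ w ∂c.mY, ∀ k, Lab (c.fb w) c.X (B.b c.r w k) B.ψ := by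
  filter_upwards [B.pick] with w ⟨v, e, he, h1, h2⟩ k
  exact (h1 ▸ he.1.lab k).congr (h2 k)

theorem Blk.sum {c : Ctx} (B : Blk c) :
    ∀ᵐ w ∂c.mY, ∀ᵐ x ∂c.fb w, ∑ k, B.b c.r w k x = B.N * B.ψ (res c.X x) := by
  filter_upwards [B.pick] with w ⟨v, e, he, h1, h2⟩
  filter_upwards [h1 ▸ he.2, ae_all_iff.2 h2] with x h3 h4
  rw [← h3]
  exact Finset.sum_congr rfl fun k _ => (h4 k).symm

theorem Blk.link {c : Ctx} (d : PairD c) (B : Blk c) (i : c.P.Col) :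
    ∀ᵐ η ∂my d.E d.y, ∃ π : Equiv.Perm (Fin B.N), ∀ k, ∃ a : ℂ, (i = c.r → a = 1) ∧
      ∀ᵐ q ∂lam d.h d.y η, B.b i (d.good.wy false η) k (side false q) =
        a * B.b i (d.good.wy true η) (π k) (side true q) := by
  filter_upwards [d.link B.toLb i, ga2_pull d false (B.blk i), ga2_pull d true (B.blk i),
    d.good.lam_side] with η h1 h2 h3 h4
  obtain ⟨v, h5, e, he, h6⟩ := (h1.and h2).exists
  obtain ⟨v', h7, e', he', h8⟩ := (h5.and h3).exists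
  obtain ⟨π, hπ⟩ := h7 e e' he.1 he'.1
  refine ⟨π, fun k => ?_⟩
  obtain ⟨a, ha, h9⟩ := hπ k
  obtain ⟨a₁, ha₁, h10⟩ := h6 k
  obtain ⟨a₂, ha₂, h11⟩ := h8 (π k)
  rw [← h4 false] at h10
  rw [← h4 true] at h11
  refine ⟨a * a₂ / a₁, fun hi => by rw [ha hi, ha₁ hi, ha₂ hi]; simp, ?_⟩
  filter_upwards [h9, ae_of_ae_map (measurable_pull _).aemeasurable h10,
    ae_of_ae_map (measurable_pull _).aemeasurable h11] with q h12 h13 h14
  have h15 : a₁ ≠ 0 := by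
    rintro rfl
    have := (he.1.rel k).uni i (side false q)
    rw [h13, zero_mul, norm_zero] at this
    exact zero_ne_one this
  rw [h13, h14] at h12
  field_simp
  rw [mul_comm _ a₁, h12]; ring

theorem dl3 (c : Ctx) (d : PairD c) (B : Blk c) : ∀ᵐ w ∂c.mY, ∀ᵐ w' ∂c.mY,
    LK c.X c.r (c.fb w) (c.fb w') (gen c.s c.sat.invY B.b w) (gen c.s c.sat.invY B.b w') := by
  have key := d.pair_lk (Q := fun w w' γ => ∃ π : c.P.Col × ℤ → Equiv.Perm (Fin B.N), ∀ i t k,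
      ∃ a : ℂ, (i = c.r → a = 1) ∧ ∀ᵐ q ∂γ, gen c.s c.sat.invY B.b w (i, t, k) (side false q) =
        a * gen c.s c.sat.invY B.b w' (i, t, π (i, t) k) (side true q)) (by
    have h1 := ae_all_iff.2 fun p : c.P.Col × ℤ =>
      (d.E.mp_shB (d.good.adm false).1 p.2).quasiMeasurePreserving.ae (B.link d p.1)
    filter_upwards [h1, d.good.lam_sh] with η h2 h3
    choose π hπ using h2
    refine ⟨π, fun i t k => ?_⟩
    obtain ⟨a, ha, h4⟩ := hπ (i, t) k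
    refine ⟨a, ha, ?_⟩
    rw [h3 t, d.good.wy_sh, d.good.wy_sh] at h4
    exact ae_of_ae_map (measurable_pull _).aemeasurable h4)
  filter_upwards [key] with w hw
  filter_upwards [hw] with w' ⟨L, h1, h2, h3⟩
  exact ⟨L, h1, h2, h3⟩

end Crest.Agent.R69
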