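import Crest.Agent.R69.GbOrthA
import Crest.Agent.R69.F1

/-! # Row 69, Glob part B: the generated group of characters is orthonormal (helper31) -/

set_option autoImplicit false
set_option linter.unusedVariables false
set_option linter.unusedSectionVars false

open MeasureTheory ProbabilityTheory Filter Topology Set

noncomputable section

namespace Crest.Agent.R69

variable {c : Ctx}

/-- labelled relation tuples consist of eigen-characters -/
theorem Lb.gb_top_lim (B : Lb c) (D : PairE c) : ∀ᵐ o ∂mZ D.h D.ω, ∀ χ,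
    RelT (c.nu (D.goodω.wb false o)) χ →
    Lab ((c.nu (D.goodω.wb false o)).map (cell c.r)) c.X (χ c.r) B.ψ →
    ∀ j, TopChar ((D.gbRho o).map (D.good.yj j)) (lam D.h D.y) (χ j) := by
  have h1 := B.gb_side D
  rw [← D.good.gb_map_yj c.r] at h1
  have h2 := ae_cd (M := (GG D.h).μ) (Subtype.val : ZZ D.h D.y → _) (Subtype.val : ZZ D.h D.ω → _)
    (Q := fun o z => AEStronglyMeasurable[sg (sS true univ)]
      (fun q => B.ψ (res c.X (side false q))) (lam D.h D.y (D.good.yj c.r z)))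
    (ae_of_ae_map (measurable_pull _).aemeasurable
      (ae_of_ae_map (measurable_pull _).aemeasurable h1))
  have h3 := c.gb_cell_res c.r
  rw [← D.goodω.gb_map_wb false] at h3
  filter_upwards [gb_two_ae D, h2, ae_of_ae_map (measurable_pull _).aemeasurable h3]
    with o T a2 a3 χ hχ hl
  refine (f1b c.three T c.r χ hχ).resolve_right fun hk => B.gb_norm_ne ?_
  obtain ⟨z, ⟨b1, b2⟩, b3⟩ := ((T.grid.and a2).and
    (ae_of_ae_map (measurable_pull _).aemeasurable hk)).exists
  set γ := lam D.h D.y (D.good.yj c.r z)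
  have e1 : γ.map (side false) = (c.nu (D.goodω.wb false o)).map (cell c.r) := by
    rw [← b1.1.rows false]
    change Measure.map _ (lam D.h D.y (pull (D.good.yI c.r) z)) = _
    rw [← b1.2 c.r, gb_map_pull_pull, gb_map_pull_pull]
    rfl
  have hψ := B.lbl.gb_conj
  have hm : Measurable fun x : Om c.s.I => (starRingEnd ℂ) (B.ψ (res c.X x)) :=
    hψ.1.comp (measurable_pull _)
  have hχL : Lbl (χ c.r) := ⟨hχ.meas _, fun x => (hχ.uni _ x).le⟩
  rw [← a3, integral_map (measurable_pull _).aemeasurable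
    (B.lbl.1.fun_mul hψ.1).aestronglyMeasurable, ← hl _ hψ, ← e1,
    integral_map (measurable_pull _).aemeasurable ((hχ.meas _).fun_mul hm).aestronglyMeasurable]
  simp only [mul_comm (χ c.r _)]
  refine integral_mul_eq_zero_of_test (S := sS true univ)
    (F := fun q => χ c.r (side false q)) (hχL.gb_memLp (measurable_pull _) _ 2)
    (hψ.gb_memLp (by fun_prop) _ 2) (Complex.continuous_conj.comp_aestronglyMeasurable b2)
    fun m hm => ?_
  rw [← integral_mon_smul_condExp
    (memLp_one_iff_integrable.1 (hχL.gb_memLp (measurable_pull _) _ 1)) hm]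
  refine (integral_congr_ae ?_).trans (integral_zero _ _)
  filter_upwards [b3] with q hq
  rw [hq, Pi.zero_apply, smul_zero]

theorem Blk.gb_top (B : Blk c) (D : PairE c) (j : c.P.Col) : ∀ᵐ ϖ ∂my D.E D.ω, ∀ k,
    TopChar (D.gbMu ϖ) (lam D.h D.y) (B.b j (D.goodω.wy false ϖ) k) := by
  have h0 : ∀ᵐ o ∂mZ D.h D.ω, ∀ χ, RelT (c.nu (D.goodω.wb false o)) χ →
      Lab ((c.nu (D.goodω.wb false o)).map (cell c.r)) c.X (χ c.r) B.ψ →
      TopChar (D.gbMu (D.goodω.yj j o)) (lam D.h D.y) (χ j) := by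
    filter_upwards [B.toLb.gb_top_lim D, D.gb_rho_yj j] with o h1 h2 χ a1 a2
    rw [← h2]
    exact h1 χ a1 a2 j
  have h1 := ae_cd (M := (GG D.h).μ) ((c.S.lf2 D.h false).lf ∘ (Subtype.val : c.W → _))
    ((col (c.S.two D.h) j).ι ∘ (Subtype.val : D.ω → _))
    (Q := fun ϖ v => ∀ χ, RelT (c.nu v) χ → Lab ((c.nu v).map (cell c.r)) c.X (χ c.r) B.ψ →
      TopChar (D.gbMu ϖ) (lam D.h D.y) (χ j))
    (ae_of_ae_map (measurable_pull _).aemeasurable h0)
  rw [← gb_map_pull_pull, (col (c.S.two D.h) j).law] at h1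
  have h2 := B.blk j
  rw [← D.goodω.gb_map_wy false] at h2
  filter_upwards [h1, D.goodω.gb_kap false j, ae_of_ae_map (measurable_pull _).aemeasurable h2,
    D.gb_side false] with ϖ a1 a2 a3 a4 k
  rw [a2] at a1
  obtain ⟨v, b1, e, he, b2⟩ := (a1.and a3).exists
  obtain ⟨a, -, ha⟩ := b2 k
  refine (b1 (e k) (he.1.rel k) (he.1.lab k)).gb_congr a4 (a := a⁻¹) ?_
  filter_upwards [ha] with x hx
  have : a ≠ 0 := by
    rintro rfl
    have := (he.1.rel k).uni j x
    rw [hx, zero_mul, norm_zero] at this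
    exact zero_ne_one this
  rw [hx, ← mul_assoc, inv_mul_cancel₀ this, one_mul]

theorem Blk.gb_gen (B : Blk c) (D : PairE c) : ∀ᵐ ϖ ∂my D.E D.ω, ∀ g,
    TopChar (D.gbMu ϖ) (lam D.h D.y) (gen c.s c.sat.invY B.b (D.goodω.wy false ϖ) g) := by
  refine ae_all_iff.2 fun ⟨j, t, k⟩ => ?_
  have iy := (D.good.adm false).1
  have iω := (D.goodω.adm false).1
  have h1 := (D.E.mp_shB iω t).quasiMeasurePreserving.ae (B.gb_top D j)
  have h2 := cd_equiv (M := D.E.μ) (D.E.τ ^ t : Equiv.Perm _) (D.E.map_sh t)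
    (Subtype.val : D.y → _) (Subtype.val : D.ω → _) (D.E.gbI iy t) (D.E.gbI iω t) rfl rfl
    (D.E.gbI_surj iω t)
  have h3 := cd_equiv (M := D.E.μ) (D.E.τ ^ t : Equiv.Perm _) (D.E.map_sh t)
    (pi2 D.h) (Subtype.val : D.y → _) (fun q => (q.1, (c.s.τ ^ t) q.2)) (D.E.gbI iy t)
    (funext fun q => ((D.h q.1).comm_zpow t q.2).symm) rfl (D.E.gbI_surj iy t)
  have h4 := ae_cd (M := D.E.μ) (Subtype.val : D.y → _) (Subtype.val : D.ω → _)
    (Q := fun ϖ η => lam D.h D.y (pull (D.E.gbI iy t) η) =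
      (lam D.h D.y η).map (pull fun q : Bool × c.s.I => (q.1, (c.s.τ ^ t) q.2)))
    (ae_of_ae_map (measurable_pull _).aemeasurable h3)
  filter_upwards [h1, h2, h4] with ϖ a1 a2 a3
  have := (a1 k).gb_pull (m := D.gbMu ϖ) (lam := lam D.h D.y) (c.s.τ ^ t : Equiv.Perm _)
    (D.E.gbI iy t) a2.symm (a3.mono fun η e => e.symm)
  rw [D.goodω.gb_wy_sh] at this
  exact this

/-- (b2) the group generated by the blocks is orthonormal -/
theorem gb_orth (B : Blk c) (D : PairE c) :
    ∀ᵐ w ∂c.mY, Orth (c.fb w) (gen c.s c.sat.invY B.b w) := by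
  have h1 : ∀ᵐ ϖ ∂my D.E D.ω, Orth (c.fb (D.goodω.wy false ϖ))
      (gen c.s c.sat.invY B.b (D.goodω.wy false ϖ)) := by
    filter_upwards [B.gb_gen D, D.gb_indep, D.gb_side false, D.gb_side true] with ϖ a1 a2 a3 a4
    exact gb_orth_of_top a3 a4 a2 (fun g => (B.bm _ _ _).comp (measurable_sh _ _)) a1
  rw [← D.goodω.gb_map_wy false]
  have : IsProbabilityMeasure (my D.E D.ω) :=
    Measure.isProbabilityMeasure_map (measurable_pull _).aemeasurable
  exact ae_map_pull _ h1

end Crest.Agent.R69
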