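import Crest.Agent.R69.G3
import Crest.Agent.R69.GbOrthB

/-! # Row 69: the characters are orthonormal (owner helper31) -/

set_option autoImplicit false
set_option linter.unusedVariables false
set_option linter.unusedSectionVars false

open MeasureTheory ProbabilityTheory Filter Topology Set

noncomputable section

namespace Crest.Agent.R69

theorem PairE.top_blk {c : Ctx} (e : PairE c) (B : Blk c) : ∀ᵐ o ∂my e.E e.ω, ∀ j k,
    TopChar (e.mo o) (lam e.h e.y) (B.b j (e.goodω.wy false o) k) :=
  ae_all_iff.2 (B.gb_top e)

theorem b2 (c : Ctx) (e : PairE c) (B : Blk c) :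
    ∀ᵐ w ∂c.mY, Orth (c.fb w) (gen c.s c.sat.invY B.b w) := gb_orth B e

end Crest.Agent.R69
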