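import Crest.Agent.R69.G3
import Crest.Agent.R69.F2b
import Crest.Agent.R69.GA2

/-! # Row 69: relations at finite times (helper34) -/

set_option autoImplicit false
set_option linter.unusedVariables false
set_option linter.unusedSectionVars false

open MeasureTheory ProbabilityTheory Filter Topology Set

noncomputable section

namespace Crest.Agent.R69

theorem d4_int {α : Type} [MeasurableSpace α] (κ : Measure α) [IsFiniteMeasure κ] {f : α → ℂ}
    (mf : Measurable f) {D : ℝ} (bf : ∀ x, ‖f x‖ ≤ D) : Integrable f κ :=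
  Integrable.of_bound mf.aestronglyMeasurable D (Eventually.of_forall bf)

theorem d4_bind {α β : Type} [MeasurableSpace α] [MeasurableSpace β] (μ : Measure α)
    [IsProbabilityMeasure μ] (κ : Kernel α β) [IsMarkovKernel κ] {f : β → ℂ} (mf : Measurable f)
    {D : ℝ} (bf : ∀ x, ‖f x‖ ≤ D) : ∫ z, f z ∂μ.bind κ = ∫ x, ∫ z, f z ∂κ x ∂μ :=
  Kernel.integral_comp (κ := Kernel.const Unit μ) (η := κ) (a := ()) (d4_int _ mf bf)

theorem d4_conj {α : Type} [MeasurableSpace α] {f : α → ℂ} (mf : Measurable f) :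
    Measurable fun x => (starRingEnd ℂ) (f x) := Complex.continuous_conj.measurable.comp mf

theorem d4_sq {α : Type} [MeasurableSpace α] (κ : Measure α) [IsFiniteMeasure κ] {f : α → ℂ}
    (mf : Measurable f) {D : ℝ} (bf : ∀ x, ‖f x‖ ≤ D)
    (h : ∫ x, (starRingEnd ℂ) (f x) * f x ∂κ = 0) : ∀ᵐ x ∂κ, f x = 0 := by
  have e : ∫ x, (starRingEnd ℂ) (f x) * f x ∂κ = ((∫ x, ‖f x‖ ^ 2 ∂κ : ℝ) : ℂ) := by
    rw [← integral_complex_ofReal]
    exact integral_congr_ae (Eventually.of_forall fun x => by simp [Complex.conj_mul'])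
  rw [e, Complex.ofReal_eq_zero, integral_eq_zero_iff_of_nonneg (fun x => by positivity)
    (Integrable.of_bound (mf.norm.pow_const 2).aestronglyMeasurable (D ^ 2)
      (Eventually.of_forall fun x => by
        rw [norm_pow, norm_norm]; exact pow_le_pow_left₀ (norm_nonneg _) (bf x) 2))] at h
  filter_upwards [h] with x hx
  simpa using hx

theorem d4_span {α : Type} [MeasurableSpace α] (κ : Measure α) [IsProbabilityMeasure κ] {N : ℕ}
    (b : Fin N → α → ℂ) (mb : ∀ k, Measurable (b k)) (ub : ∀ k x, ‖b k x‖ = 1)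
    (ob : ∀ k k', k ≠ k' → ∫ x, b k x * (starRingEnd ℂ) (b k' x) ∂κ = 0) {u : α → ℂ}
    (mu : Measurable u) (bu : ∀ x, ‖u x‖ ≤ 1)
    (h : ∀ g : α → ℂ, Measurable g → (∃ D : ℝ, ∀ x, ‖g x‖ ≤ D) → (∀ k, ∫ x, g x * b k x ∂κ = 0) →
      ∫ x, g x * u x ∂κ = 0) :
    ∃ a : Fin N → ℂ, ∀ᵐ x ∂κ, u x = ∑ k, a k * b k x := by
  let a : Fin N → ℂ := fun k => ∫ x, u x * (starRingEnd ℂ) (b k x) ∂κ
  let z : α → ℂ := fun x => u x - ∑ k, a k * b k x
  have mz : Measurable z := mu.sub (Finset.measurable_fun_sum _ fun k _ => (mb k).const_mul _)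
  have bz : ∀ x, ‖z x‖ ≤ 1 + ∑ k, ‖a k‖ := fun x =>
    (norm_sub_le _ _).trans (add_le_add (bu x) ((norm_sum_le _ _).trans (by simp [ub])))
  have i1 : ∀ k k', Integrable (fun x => a k * (b k x * (starRingEnd ℂ) (b k' x))) κ := fun k k' =>
    (d4_int κ ((mb k).mul (d4_conj (mb k'))) (D := 1) fun x => by simp [ub]).const_mul _
  have h1 : ∀ k, ∫ x, (starRingEnd ℂ) (z x) * b k x ∂κ = 0 := by
    intro k
    have : ∫ x, z x * (starRingEnd ℂ) (b k x) ∂κ = 0 := by
      simp only [z, sub_mul, Finset.sum_mul, mul_assoc]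
      rw [integral_sub (d4_int κ (mu.fun_mul (d4_conj (mb k))) (D := 1) fun x => by simp [ub, bu])
        (integrable_finsetSum _ fun k' _ => i1 k' k), integral_finsetSum _ fun k' _ => i1 k' k,
        Finset.sum_eq_single k (fun k' _ hk => by rw [integral_const_mul, ob _ _ hk, mul_zero])
          (by simp), integral_const_mul]
      simp [a, Complex.mul_conj', ub]
    rw [← map_eq_zero_iff (starRingEnd ℂ) (RingHom.injective _), ← integral_conj] at this
    simpa using this
  have h2 := h _ (d4_conj mz) ⟨_, fun x => by rw [Complex.norm_conj]; exact bz x⟩ h1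
  have i2 : ∀ k, Integrable (fun x => a k * ((starRingEnd ℂ) (z x) * b k x)) κ := fun k =>
    (d4_int κ ((d4_conj mz).mul (mb k)) fun x => by simpa [ub] using bz x).const_mul _
  refine ⟨a, (d4_sq κ mz bz ?_).mono fun x hx => sub_eq_zero.1 hx⟩
  have : ∀ x, (starRingEnd ℂ) (z x) * z x = (starRingEnd ℂ) (z x) * u x -
      ∑ k, a k * ((starRingEnd ℂ) (z x) * b k x) := fun x => by
    rw [show z x = u x - ∑ k, a k * b k x from rfl, mul_sub, Finset.mul_sum]
    congr 1
    exact Finset.sum_congr rfl fun k _ => by ring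
  simp only [this]
  rw [integral_sub (d4_int κ ((d4_conj mz).fun_mul mu) (D := (1 + ∑ k, ‖a k‖) * 1) fun x => by
      rw [norm_mul, Complex.norm_conj]
      exact mul_le_mul (bz x) (bu x) (norm_nonneg _) ((norm_nonneg _).trans (bz x)))
    (integrable_finsetSum _ fun k _ => i2 k), integral_finsetSum _ fun k _ => i2 k, h2]
  simp [integral_const_mul, h1]

theorem d4_fib {C I : Type} [Fintype C] [DecidableEq C] [Countable I] {ν : Measure (Om (C × I))}
    [IsProbabilityMeasure ν] {X : Set I} {ψ : Om X → ℂ} {r i : C} {N : ℕ} (hN : 0 < N) (hν : IndR ν)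
    {e : Fin N → C → Om I → ℂ} (he : EnumS ν X r ψ N e) (hi : i ≠ r) (mψ : Measurable ψ)
    (F : C → Om I → ℂ) (mF : ∀ j, Measurable (F j)) (bF : ∀ j x, ‖F j x‖ ≤ 1)
    (hF : F r = fun x => ψ (res X x))
    {g : Om I → ℂ} (mg : Measurable g) {D : ℝ} (bg : ∀ x, ‖g x‖ ≤ D)
    (hg : ∀ k, ∫ x, g x * e k i x ∂ν.map (cell i) = 0) :
    ∫ a, g (cell i a) * (starRingEnd ℂ) (∏ j ∈ Finset.univ.erase i, F j (cell j a)) ∂ν = 0 := by
  let H : Fin N → C → Om I → ℂ := fun k j x =>
    (if j = i then g x else (starRingEnd ℂ) (F j x)) * e k j x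
  have mH : ∀ k j, Measurable (H k j) := fun k j => by
    refine Measurable.mul ?_ ((he.1.rel k).meas j)
    split_ifs
    exacts [mg, d4_conj (mF j)]
  have bH : ∀ k j x, ‖H k j x‖ ≤ max D 1 := fun k j x => by
    simp only [H, norm_mul, (he.1.rel k).uni, mul_one]
    split_ifs
    · exact (bg x).trans (le_max_left _ _)
    · rw [Complex.norm_conj]; exact (bF j x).trans (le_max_right _ _)
  have hir : i ∈ Finset.univ.erase r := by simp [hi]
  have hri : r ∈ Finset.univ.erase i := by simp [hi.symm]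
  have h1 : ∀ k, ∫ a, ∏ j ∈ Finset.univ.erase r, H k j (cell j a) ∂ν = 0 := fun k => by
    rw [hν.integral_prod _ (by rw [Finset.card_erase_add_one (Finset.mem_univ r)]; rfl) _
      fun j => (mH k j).aestronglyMeasurable]
    exact Finset.prod_eq_zero hir (by simpa [H] using hg k)
  have h2 : ∀ᵐ a ∂ν, (N : ℂ) * (g (cell i a) *
      (starRingEnd ℂ) (∏ j ∈ Finset.univ.erase i, F j (cell j a))) =
      ∑ k, ∏ j ∈ Finset.univ.erase r, H k j (cell j a) := by
    filter_upwards [ae_of_ae_map (measurable_pull _).aemeasurable he.2,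
      ae_all_iff.2 fun k => (he.1.rel k).rel] with a ha hk
    have e1 : ∀ k, (starRingEnd ℂ) (e k r (cell r a)) = ∏ j ∈ Finset.univ.erase r, e k j (cell j a) := by
      intro k
      have := hk k
      rw [← Finset.mul_prod_erase _ _ (Finset.mem_univ r)] at this
      rw [← Complex.inv_eq_conj ((he.1.rel k).uni r _)]
      exact (eq_inv_of_mul_eq_one_right this).symm
    have e2 : ∏ j ∈ Finset.univ.erase r, (if j = i then g (cell j a) else
        (starRingEnd ℂ) (F j (cell j a))) = g (cell i a) *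
        ∏ j ∈ (Finset.univ.erase i).erase r, (starRingEnd ℂ) (F j (cell j a)) := by
      rw [← Finset.mul_prod_erase _ _ hir, if_pos rfl, Finset.erase_right_comm]
      congr 1
      exact Finset.prod_congr rfl fun j hj =>
        if_neg (Finset.ne_of_mem_erase (Finset.mem_of_mem_erase hj))
    simp only [H, Finset.prod_mul_distrib, e2, ← e1, ← Finset.mul_sum, ← map_sum]
    rw [ha, map_prod, ← Finset.mul_prod_erase _ _ hri, hF, map_mul, map_natCast]
    ring
  have h3 := integral_congr_ae h2
  have i1 : ∀ k, Integrable (fun a => ∏ j ∈ Finset.univ.erase r, H k j (cell j a)) ν := fun k =>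
    d4_int ν (Finset.measurable_fun_prod _ fun j _ => (mH k j).comp (measurable_pull _))
    (D := ∏ j ∈ Finset.univ.erase r, max D 1) fun a => by
      rw [norm_prod]
      exact Finset.prod_le_prod (fun _ _ => norm_nonneg _) fun j _ => bH k j _
  rw [integral_const_mul, integral_finsetSum _ fun k _ => i1 k] at h3
  simpa [h1, hN.ne'] using h3

variable {c : Ctx}

/-- the fibres of `u` are combinations of the block `i` -/
def Blk.Sp (B : Blk c) (i : c.P.Col) (u : Om c.s.I → ℂ) : Prop :=
  ∀ᵐ w ∂c.mY, ∃ a : Fin B.N → ℂ, ∀ᵐ x ∂c.fb w, u x = ∑ k, a k * B.b i w k x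

def d4L (c : Ctx) (m : Multiset c.W) (F : c.P.Col → Om c.s.I → ℂ) : ℂ :=
  ∫ z, mon m (res c.W z) • ∏ j, F j (pull (col c.S j).ι z) ∂(Lim c.S).μ

theorem d4_step (B : Blk c) (m : Multiset c.W) {i : c.P.Col} (hi : i ≠ c.r)
    (F : c.P.Col → Om c.s.I → ℂ) (mF : ∀ j, Measurable (F j)) (bF : ∀ j x, ‖F j x‖ ≤ 1)
    (hF : F c.r = fun x => B.ψ (res c.X x)) (h0 : d4L c m F ≠ 0) :
    ∃ u : Om c.s.I → ℂ, Measurable u ∧ (∀ x, ‖u x‖ ≤ 1) ∧ B.Sp i u ∧
      d4L c m (Function.update F i u) ≠ 0 := by
  let M := (Lim c.S).μ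
  let G : Om (LI c.S) → ℂ := fun z => (mon m (res c.W z) : ℂ) *
    (starRingEnd ℂ) (∏ j ∈ Finset.univ.erase i, F j (pull (col c.S j).ι z))
  have mG : Measurable G := (Complex.measurable_ofReal.comp ((measurable_mon m).comp
    (measurable_pull _))).mul (d4_conj (Finset.measurable_fun_prod _ fun j _ =>
      (mF j).comp (measurable_pull _)))
  have bG : ∀ z, ‖G z‖ ≤ 1 := fun z => by
    rw [norm_mul, Complex.norm_conj, norm_prod, Complex.norm_real]
    exact mul_le_one₀ (abs_mon_le _ _) (Finset.prod_nonneg fun _ _ => norm_nonneg _)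
      (Finset.prod_le_one (fun _ _ => norm_nonneg _) fun j _ => bF j _)
  let Q := cd M id (col c.S i).ι
  let u : Om c.s.I → ℂ := fun x => ∫ z, G z ∂Q x
  have mu : Measurable u := (mG.stronglyMeasurable.integral_kernel (κ := Q)).measurable
  have bu : ∀ x, ‖u x‖ ≤ 1 := fun x => by
    simpa using norm_integral_le_of_norm_le_const (μ := Q x) (Eventually.of_forall bG)
  have key : ∀ v : Om c.s.I → ℂ, Measurable v → (∀ x, ‖v x‖ ≤ 1) →
      (starRingEnd ℂ) (d4L c m (Function.update F i v)) =
        ∫ x, (starRingEnd ℂ) (v x) * u x ∂c.s.μ := by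
    intro v mv bv
    have := cd_integral (M := M) id (col c.S i).ι
      (F := fun q => (starRingEnd ℂ) (v q.1) * G q.2)
      (((d4_conj mv).comp measurable_fst).mul (mG.comp measurable_snd)).stronglyMeasurable
      (d4_int M (((d4_conj mv).comp (measurable_pull _)).mul (mG.comp (measurable_pull _))) (D := 1)
        fun z => by
          rw [norm_mul, Complex.norm_conj]
          exact mul_le_one₀ (bv _) (norm_nonneg _) (bG _))
    simp only [integral_const_mul] at this
    rw [(col c.S i).law] at this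
    rw [← this, d4L, ← integral_conj]
    refine integral_congr_ae (Eventually.of_forall fun z => ?_)
    have e : ∏ j ∈ Finset.univ.erase i, Function.update F i v j (pull (col c.S j).ι z) =
        ∏ j ∈ Finset.univ.erase i, F j (pull (col c.S j).ι z) :=
      Finset.prod_congr rfl fun j hj => by rw [Function.update_of_ne (Finset.ne_of_mem_erase hj)]
    dsimp only
    rw [← Finset.mul_prod_erase _ _ (Finset.mem_univ i), e, Function.update_self, Complex.real_smul,
      map_mul, map_mul, Complex.conj_ofReal]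
    show _ = _ * (_ * _)
    rw [mul_left_comm]
    rfl
  refine ⟨u, mu, bu, ?_, fun h => h0 ?_⟩
  · have t1 := cd_tower (M := M) id (col c.S i).ι (Subtype.val : c.Y → c.s.I)
    have t2 := cd_tower (M := M) id (Subtype.val : c.W → LI c.S) (c.wi i)
    have t3 := cd_hom (M := M) (col c.S i).ι id (Subtype.val : c.Y → c.s.I) c.s.μ (col c.S i).law
    have t4 := cd_frozen (M := M) id (col c.S i).ι (col c.S i).ι id rfl
    rw [(col c.S i).law] at t4
    have t5 := ae_cd (M := c.s.μ) id (Subtype.val : c.Y → c.s.I)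
      (Q := fun _ x => ∀ᵐ z ∂Q x, pull (col c.S i).ι z = pull id x) t4
    have t6 := c.ae_kap i (((cd_frozen (M := M) id (Subtype.val : c.W → LI c.S) Subtype.val id rfl).and
      (cd_map (M := M) id (Subtype.val : c.W → LI c.S) Sum.inl)).and (c.nu_cell.and c.nu_indR))
    rw [c.map_wj' i] at t2
    replace t1 : ∀ᵐ ζ ∂c.mY, _ := c.map_wj' i ▸ t1
    filter_upwards [t1, t2, t3, t5, t6, B.blk i] with w t1 t2 t3 t5 t6 hb
    refine d4_span (c.fb w) (B.b i w) (B.bm i w) (B.bu i w) (fun k k' hk => ?_) mu bu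
      fun g mg ⟨D, bg⟩ hg => ?_
    · obtain ⟨v, ⟨⟨-, h1, -⟩, rfl⟩, e, he, ha⟩ := (t6.and hb).exists
      obtain ⟨a, -, ha1⟩ := ha k
      obtain ⟨a', -, ha2⟩ := ha k'
      have := he.1.orth k k' hk i
      rw [h1 i] at this
      have n1 : a ≠ 0 := by
        obtain ⟨x, hx⟩ := ha1.exists
        rintro rfl
        simpa [hx] using (he.1.rel k).uni i x
      have n2 : a' ≠ 0 := by
        obtain ⟨x, hx⟩ := ha2.exists
        rintro rfl
        simpa [hx] using (he.1.rel k').uni i x
      rw [integral_congr_ae (g := fun x => (a * (starRingEnd ℂ) a') *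
        (B.b i (c.wj i v) k x * (starRingEnd ℂ) (B.b i (c.wj i v) k' x))) (by
          filter_upwards [ha1, ha2] with x h1 h2
          rw [h1, h2, map_mul]; ring), integral_const_mul] at this
      simpa [n1, n2] using this
    · have mf : Measurable fun z => g (pull (col c.S i).ι z) * G z :=
        (mg.comp (measurable_pull _)).mul mG
      have bf : ∀ z, ‖g (pull (col c.S i).ι z) * G z‖ ≤ D * 1 := fun z => by
        rw [norm_mul]
        exact mul_le_mul (bg _) (bG _) (norm_nonneg _) ((norm_nonneg _).trans (bg (pull (col c.S i).ι z)))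
      have e1 : ∫ x, g x * u x ∂c.fb w = ∫ z, g (pull (col c.S i).ι z) * G z ∂(c.fb w).bind Q := by
        rw [d4_bind _ _ mf bf]
        refine integral_congr_ae (t5.mono fun x hx => ?_)
        dsimp only
        rw [← integral_const_mul]
        exact integral_congr_ae (hx.mono fun z hz => by dsimp only; rw [hz]; rfl)
      have e2 : (c.fb w).bind Q = (c.kap i w).bind (cd M id Subtype.val) := by
        rw [t2, ← t3]; exact t1
      rw [e1, e2, d4_bind _ _ mf bf]
      refine integral_eq_zero_of_ae ?_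
      filter_upwards [t6, hb] with v ⟨⟨⟨h1, h2⟩, h3, h4⟩, hw⟩ ⟨e, he, ha⟩
      have := d4_fib B.pos h4 he hi B.lbl.1 F mF bF hF mg bg fun k => by
        obtain ⟨a, -, ha⟩ := ha k
        rw [h3 i, hw, integral_congr_ae (g := fun x => a * (g x * B.b i w k x))
          (ha.mono fun x hx => by dsimp only; rw [hx]; ring), integral_const_mul, hg k, mul_zero]
      have e3 : (cd M id Subtype.val v).map (pull Sum.inl) = c.nu v := h2
      have mm : Measurable fun a : Om (c.P.Col × c.s.I) => g (cell i a) *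
          (starRingEnd ℂ) (∏ j ∈ Finset.univ.erase i, F j (cell j a)) :=
        (mg.comp (measurable_pull _)).mul (d4_conj (Finset.measurable_fun_prod _ fun j _ =>
          (mF j).comp (measurable_pull _)))
      rw [← e3, integral_map (measurable_pull _).aemeasurable mm.aestronglyMeasurable] at this
      rw [integral_congr_ae (g := fun z => (mon m v : ℂ) * (g (cell i (pull Sum.inl z)) *
        (starRingEnd ℂ) (∏ j ∈ Finset.univ.erase i, F j (cell j (pull Sum.inl z)))))
        (h1.mono fun z hz => ?_), integral_const_mul, this, mul_zero]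
      · rfl
      · have hz' : res c.W z = v := hz
        simp only [G, hz']
        rw [mul_left_comm]
        rfl
  · have h1 := key u mu bu
    rw [h, map_zero] at h1
    have h2 := key (F i) (mF i) (bF i)
    rw [Function.update_eq_self, integral_congr_ae (g := fun _ => 0)
      ((d4_sq _ mu bu h1.symm).mono fun x hx => by simp [hx]), integral_zero] at h2
    simpa using h2

theorem d4_start (B : Blk c) : ∃ (m : Multiset c.W) (F : c.P.Col → Om c.s.I → ℂ),
    (∀ j, Measurable (F j)) ∧ (∀ j x, ‖F j x‖ ≤ 1) ∧ (F c.r = fun x => B.ψ (res c.X x)) ∧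
      d4L c m F ≠ 0 := by
  by_contra hne
  have mΨ : Measurable fun z => B.ψ (res c.X (pull (col c.S c.r).ι z)) :=
    B.lbl.1.comp ((measurable_pull _).comp (measurable_pull _))
  have := zero_of_test (d4_int (Lim c.S).μ mΨ fun z => B.lbl.2 _) B.toLb.det fun m hm => by
    obtain ⟨m₁, m₂, h1, h2, rfl⟩ := hm.of_union
    obtain ⟨m₂, rfl⟩ := InB.of_range (a := (Subtype.val : c.W → LI c.S)) (by simpa using h2)
    obtain ⟨m₁, h3, rfl⟩ := InB.of_image (a := (Sum.inl : c.P.Col × c.s.I → LI c.S))
      (S := rS {c.r}ᶜ) (h1.mono (by rintro _ ⟨j, hj, a, -, rfl⟩; exact ⟨(j, a), hj, rfl⟩))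
    obtain ⟨u, hu, hu0⟩ := exists_mon_prod m₁
    by_contra h
    refine hne ⟨m₂, Function.update (fun j x => (mon (u j) x : ℂ)) c.r fun x => B.ψ (res c.X x),
      fun j => ?_, fun j x => ?_, Function.update_self .., fun h0 => h ?_⟩
    · rcases eq_or_ne j c.r with rfl | hj
      · rw [Function.update_self]; exact B.lbl.1.comp (measurable_pull _)
      · rw [Function.update_of_ne hj]; exact Complex.measurable_ofReal.comp (measurable_mon _)
    · rcases eq_or_ne j c.r with rfl | hj
      · rw [Function.update_self]; exact B.lbl.2 _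
      · rw [Function.update_of_ne hj, Complex.norm_real]; exact abs_mon_le _ _
    · rw [← h0, d4L]
      refine integral_congr_ae (Eventually.of_forall fun z => ?_)
      dsimp only
      have e : ∏ j ∈ Finset.univ.erase c.r, Function.update (fun j x => (mon (u j) x : ℂ)) c.r
          (fun x => B.ψ (res c.X x)) j (pull (col c.S j).ι z) =
          ((∏ j ∈ Finset.univ.erase c.r, mon (u j) (cell j (pull Sum.inl z)) : ℝ) : ℂ) := by
        rw [Complex.ofReal_prod]
        exact Finset.prod_congr rfl fun j hj => by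
          rw [Function.update_of_ne (Finset.ne_of_mem_erase hj)]; rfl
      rw [mon_add, mon_map, mon_map, hu, ← Finset.mul_prod_erase _ _ (Finset.mem_univ c.r),
        ← Finset.mul_prod_erase _ _ (Finset.mem_univ c.r), hu0 c.r fun q hq => h3 q hq,
        Function.update_self, e, show mon (0 : Multiset c.s.I) (cell c.r (pull Sum.inl z)) = 1 from
          by simp [mon], one_mul, Complex.real_smul, Complex.real_smul, Complex.ofReal_mul]
      ring
  refine B.ne ?_
  rw [Ctx.mX, ← (col c.S c.r).law, Measure.map_map (measurable_pull _) (measurable_pull _)]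
  exact (ae_map_iff ((measurable_pull _).comp (measurable_pull _)).aemeasurable
    (measurableSet_eq_fun B.lbl.1 measurable_const)).2 this

theorem d4_all (B : Blk c) (t : Finset c.P.Col) : ∃ (m : Multiset c.W) (F : c.P.Col → Om c.s.I → ℂ),
    (∀ j, Measurable (F j)) ∧ (∀ j x, ‖F j x‖ ≤ 1) ∧ (F c.r = fun x => B.ψ (res c.X x)) ∧
      d4L c m F ≠ 0 ∧ ∀ j ∈ t, B.Sp j (F j) := by
  induction t using Finset.induction_on with
  | empty =>
    obtain ⟨m, F, h1, h2, h3, h4⟩ := d4_start B
    exact ⟨m, F, h1, h2, h3, h4, by simp⟩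
  | insert i t hi ih =>
    obtain ⟨m, F, h1, h2, h3, h4, h5⟩ := ih
    rcases eq_or_ne i c.r with rfl | hr
    · refine ⟨m, F, h1, h2, h3, h4, Finset.forall_mem_insert .. |>.2 ⟨?_, h5⟩⟩
      filter_upwards [B.sum] with w hw
      refine ⟨fun _ => (B.N : ℂ)⁻¹, hw.mono fun x hx => ?_⟩
      rw [← Finset.mul_sum, hx, h3, inv_mul_cancel_left₀ (Nat.cast_ne_zero.2 B.pos.ne')]
    · obtain ⟨u, mu, bu, su, h⟩ := d4_step B m hr F h1 h2 h3 h4
      refine ⟨m, _, fun j => ?_, fun j x => ?_, by rw [Function.update_of_ne hr.symm, h3], h,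
        Finset.forall_mem_insert .. |>.2 ⟨by rwa [Function.update_self], fun j hj => ?_⟩⟩
      · rcases eq_or_ne j i with rfl | hj
        · rwa [Function.update_self]
        · rw [Function.update_of_ne hj]; exact h1 j
      · rcases eq_or_ne j i with rfl | hj
        · rw [Function.update_self]; exact bu x
        · rw [Function.update_of_ne hj]; exact h2 j x
      · rw [Function.update_of_ne (ne_of_mem_of_not_mem hj hi)]; exact h5 j hj

theorem d4 (c : Ctx) (B : Blk c) : ∀ᶠ n in c.P.p, ¬ ∀ᵐ w ∂c.mY, ∀ k : c.P.Col → Fin B.N,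
    ∫ x, ∏ i, gen c.s c.sat.invY B.b w (i, c.P.pos i n, k i) x ∂c.fb w = 0 := by
  obtain ⟨m, F, mF, bF, -, h0, hS⟩ := d4_all B Finset.univ
  have h1 := lim_ext c.S F mF ⟨1, bF⟩ (m.map Subtype.val)
  simp only [mon_map] at h1
  filter_upwards [h1.eventually_ne h0] with n hn h
  refine hn ?_
  obtain ⟨g, mg, hg⟩ := exists_factor (b := (Subtype.val : c.Y → c.s.I))
    (F := fun x => mon (m.map Subtype.val) (evM c.S n x)) (by
      rw [Subtype.range_coe]
      exact (measurable_mon_evM c.S (fun q hq => by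
        obtain ⟨q, -, rfl⟩ := Multiset.mem_map.1 hq
        exact q.2) n).stronglyMeasurable)
  have hg' : ∀ x, mon m (pull Subtype.val (evM c.S n x)) = g (res c.Y x) := fun x => by
    rw [← mon_map]; exact congrFun hg x
  have mP : Measurable fun x => ∏ j, F j (c.s.sh (c.P.pos j n) x) :=
    Finset.measurable_fun_prod _ fun j _ => (mF j).comp (measurable_sh _ _)
  have := cd_integral (M := c.s.μ) id (Subtype.val : c.Y → c.s.I)
    (F := fun q => g q.1 • ∏ j, F j (c.s.sh (c.P.pos j n) q.2))
    ((mg.measurable.comp measurable_fst).smul (mP.comp measurable_snd)).stronglyMeasurable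
    (d4_int _ ((mg.measurable.comp (measurable_pull _)).smul (mP.comp (measurable_pull _))) (D := 1)
      fun x => by
        rw [norm_smul, norm_prod]
        exact mul_le_one₀ (by rw [← hg']; exact abs_mon_le _ _)
          (Finset.prod_nonneg fun _ _ => norm_nonneg _)
          (Finset.prod_le_one (fun _ _ => norm_nonneg _) fun j _ => bF j _))
  simp only [hg']
  refine this.trans (integral_eq_zero_of_ae ?_)
  filter_upwards [h, c.s.fib_sh c.sat.invY, ae_all_iff.2 fun j =>
    (c.s.mp_shB c.sat.invY (c.P.pos j n)).quasiMeasurePreserving.ae (hS j (Finset.mem_univ j))]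
    with w h1 h2 h3
  choose a ha using h3
  have h4 : ∀ᵐ x ∂c.fb w, ∏ j, F j (c.s.sh (c.P.pos j n) x) = ∑ k : c.P.Col → Fin B.N,
      (∏ j, a j (k j)) * ∏ i, gen c.s c.sat.invY B.b w (i, c.P.pos i n, k i) x := by
    have : ∀ j, ∀ᵐ x ∂c.fb w, F j (c.s.sh (c.P.pos j n) x) =
        ∑ k, a j k * gen c.s c.sat.invY B.b w (j, c.P.pos j n, k) x := fun j => by
      have := ha j
      rw [Ctx.fb, h2] at this
      exact ae_of_ae_map (measurable_sh _ _).aemeasurable this
    filter_upwards [ae_all_iff.2 this] with x hx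
    simp only [hx, Fintype.prod_sum, Finset.prod_mul_distrib]
  show ∫ x, g w • ∏ j, F j (c.s.sh (c.P.pos j n) x) ∂c.fb w = 0
  have i1 : ∀ k : c.P.Col → Fin B.N, Integrable (fun x => (∏ j, a j (k j)) *
      ∏ i, gen c.s c.sat.invY B.b w (i, c.P.pos i n, k i) x) (c.fb w) := fun k => (d4_int _
    (Finset.measurable_fun_prod _ fun j _ => (B.bm _ _ _).comp (measurable_sh _ _)) (D := 1)
      fun x => by simp [norm_prod, gen, B.bu]).const_mul _
  rw [integral_smul, integral_congr_ae h4, integral_finsetSum _ fun k _ => i1 k]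
  simp [integral_const_mul, h1]

end Crest.Agent.R69
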