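import Crest.Agent.R69.L1

/-! # Row 69: limits II: the principle -/

set_option autoImplicit false
set_option linter.unusedVariables false
set_option linter.unusedSectionVars false

open MeasureTheory ProbabilityTheory Filter Topology Set

noncomputable section

namespace Crest.Agent.R69

variable {P : Pat} {s s' : Sys}

theorem principle_pullout {I E : Type} [NormedAddCommGroup E] [NormedSpace ℝ E] [CompleteSpace E]
    {M : Measure (Om I)} [IsFiniteMeasure M] {B : Set I} {g : Om I → ℝ} (hg : Measurable[sg B] g)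
    (hb : ∀ x, |g x| ≤ 1) {F : Om I → E} (hF : Integrable F M) :
    ∫ x, g x • (M[F | sg B]) x ∂M = ∫ x, g x • F x ∂M := by
  have hi : Integrable (g • F) M :=
    hF.bdd_smul 1 (hg.mono (sg_le B) le_rfl).aestronglyMeasurable (ae_of_all _ hb)
  have h1 := condExp_smul_of_aestronglyMeasurable_left (m := sg B)
    hg.stronglyMeasurable.aestronglyMeasurable hi hF
  calc ∫ x, g x • (M[F | sg B]) x ∂M = ∫ x, (M[g • F | sg B]) x ∂M := integral_congr_ae h1.symm
    _ = ∫ x, g x • F x ∂M := integral_condExp (sg_le B)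

/-- PRINCIPLE -/
theorem principle {E : Type} [NormedAddCommGroup E] [NormedSpace ℝ E] [CompleteSpace E]
    [FiniteDimensional ℝ E] (S : Seeds P s) (j : P.Col) {B : Set s.I} (hB : s.Inv B)
    {F : Om s.I → E} (hF : Integrable F s.μ) :
    (Lim S).μ[F ∘ pull (col S j).ι | sg (up S B)] =ᵐ[(Lim S).μ]
      s.μ[F | sg B] ∘ pull (col S j).ι := by
  have : ProperSpace E := FiniteDimensional.proper_real E
  have hmp := (col S j).mp
  refine condExp_of_test (hmp.integrable_comp_of_integrable hF)
    (hmp.integrable_comp_of_integrable integrable_condExp) ?_ fun m hm => ?_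
  · refine (stronglyMeasurable_condExp.comp_measurable
      (measurable_pull_sg _ ?_)).aestronglyMeasurable
    rintro _ ⟨a, ha, rfl⟩
    exact col_mem_up S hB j ha
  · refine tendsto_nhds_unique (lim_ext1 S j hF m)
      ((lim_ext1 S j (F := s.μ[F | sg B]) integrable_condExp m).congr fun n => ?_)
    have h1 := principle_pullout (measurable_mon_evM S hm n) (fun x => abs_mon_le m _)
      ((s.mp_sh (P.pos j n)).integrable_comp_of_integrable hF)
    refine Eq.trans (integral_congr_ae ?_) h1
    filter_upwards [Sys.condExp_sh hB (P.pos j n) hF.aestronglyMeasurable] with x hx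
    rw [hx]
    rfl

theorem principle_ci (S : Seeds P s) (j : P.Col) {A B B' : Set s.I} (hB : s.Inv B) (hB' : B' ⊆ B)
    (h : CI s.μ A B B') : CI (Lim S).μ (colS S {j} A) (up S B) (colS S {j} B') := by
  refine ci_of_meas (U' := up S B) (union_subset Subset.rfl
    ((colS_mono S Subset.rfl hB').trans (colS_subset_up S _ hB))) fun m hm => ?_
  rw [colS_single] at hm ⊢
  obtain ⟨m', hm', rfl⟩ := hm.of_image
  have e : mon (m'.map (col S j).ι) = mon m' ∘ pull (col S j).ι := funext (mon_map _ m')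
  have h1 := h m' hm'
  rw [union_eq_self_of_subset_right hB'] at h1
  have h2 := (principle S j hB (integrable_mon s.μ m')).trans
    ((col S j).mp.quasiMeasurePreserving.ae_eq_comp h1)
  rw [e]
  exact (stronglyMeasurable_condExp.comp_measurable
    (measurable_pull_sg _ Subset.rfl)).aestronglyMeasurable.congr h2.symm

theorem lim_ind (S : Seeds P s) {B B' : Set s.I} (h : Ind s.μ B B') :
    Ind (Lim S).μ (up S B) (up S B') := by
  intro m m' hm hm'
  have h1 := lim_mon S (m + m')
  simp only [mon_add] at h1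
  refine tendsto_nhds_unique h1 (((lim_mon S m).mul (lim_mon S m')).congr fun n => ?_)
  have h2 := h.integral_mul (F := fun x => (mon m (evM S n x) : ℂ))
    (G := fun x => (mon m' (evM S n x) : ℂ))
    (Complex.continuous_ofReal.comp_stronglyMeasurable
      (measurable_mon_evM S hm n).stronglyMeasurable).aestronglyMeasurable
    (Complex.continuous_ofReal.comp_stronglyMeasurable
      (measurable_mon_evM S hm' n).stronglyMeasurable).aestronglyMeasurable
  simp only [← Complex.ofReal_mul, integral_complex_ofReal] at h2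
  exact (Complex.ofReal_injective h2).symm

theorem mi3_int_sh (s : Sys) (t : ℤ) {F : Om s.I → ℝ} (hF : Measurable F) :
    ∫ x, F (s.sh t x) ∂s.μ = ∫ x, F x ∂s.μ := by
  conv_rhs => rw [← s.map_sh t]
  rw [integral_map (measurable_sh s t).aemeasurable hF.aestronglyMeasurable]

theorem mi3_two (s : Sys) (a b : Multiset s.I) (t u : ℤ) :
    ∫ x, mon a (s.sh t x) * mon b (s.sh u x) ∂s.μ = ∫ x, mon a x * mon b (s.sh (u - t) x) ∂s.μ := by
  rw [← mi3_int_sh s t (F := fun x => mon a x * mon b (s.sh (u - t) x))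
    ((measurable_mon a).mul ((measurable_mon b).comp (measurable_sh s _)))]
  simp only [s.sh_add, add_sub_cancel]

theorem mi3_mix {X : Set s.I} (hX : s.Mix X) {a b : Multiset s.I} (ha : InB a X) (hb : InB b X) :
    Tendsto (fun t : ℤ => ∫ x, mon a x * mon b (s.sh t x) ∂s.μ) (comap (|·|) atTop)
      (𝓝 ((∫ x, mon a x ∂s.μ) * ∫ x, mon b x ∂s.μ)) := by
  intro U hU
  obtain ⟨N1, h1⟩ := mem_atTop_sets.1 (hX a b ha hb hU)
  have hU' : U ∈ 𝓝 ((∫ x, mon b x ∂s.μ) * ∫ x, mon a x ∂s.μ) := by rwa [mul_comm]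
  obtain ⟨N2, h2⟩ := mem_atTop_sets.1 (hX b a hb ha hU')
  refine mem_map.2 (mem_comap.2 ⟨Ici ((N1 + N2 : ℕ) : ℤ), Ici_mem_atTop _, fun t ht => ?_⟩)
  have ht' : ((N1 + N2 : ℕ) : ℤ) ≤ |t| := ht
  obtain ⟨n, rfl | rfl⟩ := t.eq_nat_or_neg
  · exact h1 n (by rw [abs_of_nonneg (Int.natCast_nonneg n)] at ht'; omega)
  · have h := h2 n (by rw [abs_neg, abs_of_nonneg (Int.natCast_nonneg n)] at ht'; omega)
    have e := mi3_two s a b n 0
    simp only [s.sh_zero, zero_sub] at e
    show ∫ x, mon a x * mon b (s.sh (-(n : ℤ)) x) ∂s.μ ∈ U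
    rw [← e]
    simpa only [mul_comm, mem_preimage] using h

theorem mi3_cols (S : Seeds P s) {X : Set s.I} (hX : s.Mix X) {i j : P.Col} (hij : i ≠ j) :
    Ind (Lim S).μ (colS S {j} X) (colS S {i} X) := by
  intro m m' hm hm'
  rw [colS_single] at hm hm'
  obtain ⟨a, ha, rfl⟩ := hm.of_image
  obtain ⟨b, hb, rfl⟩ := hm'.of_image
  have hcol : ∀ (k : P.Col) (c : Multiset s.I),
      ∫ z, mon (c.map (col S k).ι) z ∂(Lim S).μ = ∫ x, mon c x ∂s.μ := fun k c => by
    rw [← (col S k).law, integral_map (measurable_pull _).aemeasurable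
      (measurable_mon c).aestronglyMeasurable]
    simp only [mon_map]
  rw [hcol, hcol]
  have h1 := lim_mon S (a.map (col S j).ι + b.map (col S i).ι)
  simp only [mon_add] at h1
  refine tendsto_nhds_unique h1 ?_
  have h2 : Tendsto (fun n => P.pos i n - P.pos j n) P.p (comap (|·|) atTop) :=
    tendsto_comap_iff.2 (P.far i j hij)
  refine ((mi3_mix hX ha hb).comp h2).congr fun n => ?_
  simp only [Function.comp]
  rw [← mi3_two]
  simp only [mon_map]
  rfl

/-- mixing: two columns are independent over any base -/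
theorem minInd_three : MinInd 3 := by
  intro P s X Y S j J hX hY hmix hind hj hJ
  have hup : Ind (Lim S).μ (up S X) (up S Y) := lim_ind S hind
  rcases J.eq_empty_or_nonempty with rfl | hne
  · refine hup.mono (colS_subset_up S _ hX) ?_
    rintro z (⟨k, hk, -⟩ | hz)
    · simp at hk
    · exact hz
  obtain ⟨i, rfl⟩ : ∃ i, J = {i} := Finset.card_eq_one.1 (by have := hne.card_pos; omega)
  have hij : i ≠ j := fun h => hj (by simp [h])
  rw [Finset.coe_singleton]
  have hXY := hX.union hY
  have h0 : CI s.μ univ (X ∪ Y) (X ∪ Y) := fun m _ => by rw [union_self]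
  have h1 := principle_ci S i hXY subset_rfl h0
  have h2 : CI (Lim S).μ (colS S {i} univ) (up S (X ∪ Y)) (colS S {i} (X ∪ Y) ∪ up S Y) :=
    h1.base subset_union_left (by
      rw [union_comm (up S _)]
      exact union_subset_union_right _ (up_mono S subset_union_right))
  have h3 : CI (Lim S).μ (colS S {j} X) (colS S {i} univ) (colS S {i} (X ∪ Y) ∪ up S Y) :=
    h2.symm.mono (((colS_subset_up S _ hX).trans (up_mono S subset_union_left)).trans
      subset_union_left) subset_union_left
  have h4 : Ind (Lim S).μ (colS S {j} X) (colS S {i} X ∪ up S Y) := by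
    intro m m' hm hm'
    obtain ⟨m1, m2, h1, h2, rfl⟩ := hm'.of_union
    have hmX := hm.mono (colS_subset_up S _ hX)
    have h1X := h1.mono (colS_subset_up S _ hX)
    have e1 := hup (m + m1) m2 (hmX.add h1X) h2
    have e2 := hup m1 m2 h1X h2
    have e3 := mi3_cols S hmix hij m m1 hm h1
    simp only [mon_add] at e1 ⊢
    rw [e2, ← mul_assoc, ← e3, ← e1]
    simp only [mul_assoc]
  have h5 : Ind (Lim S).μ (colS S {j} X) (colS S {i} (X ∪ Y) ∪ up S Y) := by
    refine h4.mono subset_rfl ?_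
    rintro z (⟨k, hk, a, ha | ha, rfl⟩ | hz)
    · exact Or.inl ⟨k, hk, a, ha, rfl⟩
    · exact Or.inr (col_mem_up S hY k ha)
    · exact Or.inr hz
  exact (h3.ind h5).mono subset_rfl
    (union_subset_union_right _ subset_union_right)

theorem rowlaw_level {X Y : Set s.I} {S : Seeds P s} (hS : Sat P s X Y S) {h : Hom s s'}
    {Y' : Set s'.I} (ha : Adm X Y h Y') {F g : Om s.I → ℝ} (hF : Measurable F)
    (hFb : ∀ x, |F x| ≤ 1) (hg : g =ᵐ[s.μ] s.μ[F | sg Y]) {φ : Om s'.I → ℝ}
    (hφ : Measurable[sg Y'] φ) (hφb : ∀ x, |φ x| ≤ 1) :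
    ∫ x, φ x * F (pull h.ι x) ∂s'.μ = ∫ x, φ x * g (pull h.ι x) ∂s'.μ := by
  have hFm : Measurable (F ∘ pull h.ι) := hF.comp (measurable_pull _)
  have hFi : Integrable (F ∘ pull h.ι) s'.μ :=
    Integrable.of_bound hFm.aestronglyMeasurable 1 (ae_of_all _ fun x => hFb _)
  have h1 := (hS.max s' h Y' ha).condExp hFi
    (hF.comp (measurable_pull_range h.ι subset_union_left)).stronglyMeasurable.aestronglyMeasurable
  rw [union_eq_left.2 ha.2.1] at h1
  have h2 := condExp_pull (M := s'.μ) h.ι Y (F := F) hF.aestronglyMeasurable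
  rw [h.law] at h2
  have h3 : g ∘ pull h.ι =ᵐ[s'.μ] s.μ[F | sg Y] ∘ pull h.ι := by
    rw [← h.law] at hg
    have := ae_of_ae_map (measurable_pull h.ι).aemeasurable hg
    rw [h.law] at this
    exact this
  have h4 := condExp_mul_of_stronglyMeasurable_left (μ := s'.μ) hφ.stronglyMeasurable
    (hFi.bdd_mul (hφ.mono (sg_le _) le_rfl).aestronglyMeasurable (ae_of_all _ fun x => hφb x)) hFi
  calc _ = ∫ x, (s'.μ[φ * (F ∘ pull h.ι) | sg Y']) x ∂s'.μ := (integral_condExp (sg_le _)).symm
    _ = _ := integral_congr_ae (by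
      filter_upwards [h4, h1.trans (h2.trans h3.symm)] with x hx hx'
      rw [hx, Pi.mul_apply, hx']
      rfl)

theorem rowlaw_coord {X Y : Set s.I} {S : Seeds P s} (hS : Sat P s X Y S) {h : Hom s s'}
    {Y' : Set s'.I} (ha : Adm X Y h Y') {S' : Seeds P s'} (L : Lift h S S')
    (m : Multiset (LI S)) {i : LI S} (hi : i ∈ up S Y)
    (hi' : ∀ n, (fun x => (ev S i n x : ℝ)) =ᵐ[s.μ] s.μ[fun x => mon m (evM S n x) | sg Y]) :
    (Lim S').μ[mon (m.map L.lf) | sg (up S' Y')] =ᵐ[(Lim S').μ] mon {L.lf i} := by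
  refine condExp_of_test (integrable_mon _ _) (integrable_mon _ _)
    (measurable_mon_sg fun a ha' => ?_).stronglyMeasurable.aestronglyMeasurable fun m' hm' => ?_
  · rw [Multiset.mem_singleton.1 ha']
    exact L.mem_up ha.2.1 hi
  simp only [smul_eq_mul, ← mon_add]
  refine tendsto_nhds_unique (lim_mon S' _) ((lim_mon S' _).congr fun n => ?_)
  have e : ∀ x, pull L.lf (evM S' n x) = evM S n (pull h.ι x) := fun x =>
    funext fun k => L.ev_eq k n x
  simp only [mon_add, mon_map, mon_singleton, e]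
  refine Eq.trans ?_ (rowlaw_level hS ha ((measurable_mon m).comp (measurable_evM S n))
    (fun x => abs_mon_le _ _) (hi' n) (measurable_mon_evM S' hm' n) fun x => abs_mon_le _ _).symm
  refine integral_congr_ae (ae_of_all _ fun x => ?_)
  exact congrArg (fun t : K => mon m' (evM S' n x) * (t : ℝ)) (L.ev_eq i n x)

/-- the conditional law of a row given an admissible base is that of the saturated system -/
theorem rowlaw {X Y : Set s.I} {S : Seeds P s} (hS : Sat P s X Y S) {h : Hom s s'} {Y' : Set s'.I}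
    (ha : Adm X Y h Y') {S' : Seeds P s'} (L : Lift h S S') (m : Multiset (P.Col × s.I)) :
    (Lim S').μ[fun z => mon (m.map Sum.inl : Multiset (LI S)) (pull L.lf z) | sg (up S' Y')]
      =ᵐ[(Lim S').μ]
      (Lim S).μ[mon (m.map Sum.inl : Multiset (LI S)) | sg (up S Y)] ∘ pull L.lf := by
  obtain ⟨i, hi, hi'⟩ := hS.cl m
  have h1 := rowlaw_coord hS ha L _ hi hi'
  have h2 := rowlaw_coord hS (h := Hom.refl s) (Y' := Y)
    ⟨hS.invY, (image_id Y).le, (image_id X).symm ▸ hS.ind⟩ (S' := S)
    ⟨id, fun _ _ => rfl, fun _ _ _ => rfl⟩ _ hi hi'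
  rw [Multiset.map_id] at h2
  have h3 : ∀ᵐ z ∂(Lim S').μ, ((Lim S).μ[mon (m.map Sum.inl : Multiset (LI S)) | sg (up S Y)])
      (pull L.lf z) = mon {i} (pull L.lf z) :=
    ae_of_ae_map (measurable_pull L.lf).aemeasurable
      (p := fun w => ((Lim S).μ[mon (m.map Sum.inl : Multiset (LI S)) | sg (up S Y)]) w =
        mon {i} w) (by rw [L.law]; exact h2)
  rw [show (fun z => mon (m.map Sum.inl : Multiset (LI S)) (pull L.lf z)) =
    mon ((m.map Sum.inl : Multiset (LI S)).map L.lf) from funext fun z => (mon_map _ _ _).symm]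
  filter_upwards [h1, h3] with z hz hz'
  rw [hz, Function.comp_apply, hz', mon_singleton, mon_singleton]
  rfl

theorem rowlaw_ci {X Y : Set s.I} {S : Seeds P s} (hS : Sat P s X Y S) {h : Hom s s'}
    {Y' : Set s'.I} (ha : Adm X Y h Y') {S' : Seeds P s'} (L : Lift h S S') :
    CI (Lim S').μ (colS S' univ (range h.ι)) (up S' Y') (L.lf '' up S Y) := by
  refine ci_of_meas (U' := up S' Y')
    (union_subset Subset.rfl (image_subset_iff.2 fun i hi => L.mem_up ha.2.1 hi)) fun m hm => ?_
  rw [← image_univ, ← L.image_colS] at hm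
  obtain ⟨m₁, hm₁, rfl⟩ := hm.of_image
  obtain ⟨m₂, rfl⟩ := InB.of_range (m := m₁) (a := Sum.inl) fun a ha' => by
    obtain ⟨j, -, b, -, rfl⟩ := hm₁ a ha'
    exact ⟨_, rfl⟩
  obtain ⟨i, hi, hi'⟩ := hS.cl m₂
  refine AEStronglyMeasurable.congr ?_ (rowlaw_coord hS ha L _ hi hi').symm
  refine (measurable_mon_sg fun a ha' => ?_).stronglyMeasurable.aestronglyMeasurable
  rw [Multiset.mem_singleton.1 ha']
  exact mem_image_of_mem _ hi

end Crest.Agent.R69
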