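import Crest.Agent.R69.B8
import Crest.Agent.R69.L2

/-! # Row 69, Glob part B: the grid over a good base (helper31) -/

set_option autoImplicit false
set_option linter.unusedVariables false
set_option linter.unusedSectionVars false

open MeasureTheory ProbabilityTheory Filter Topology Set

noncomputable section

namespace Crest.Agent.R69

variable {c : Ctx} {E : Sys} {h : Bool → Hom c.s E} {y : Set E.I}

theorem gb_map_pull_pull {I A B : Type} (M : Measure (Om I)) (a : A → I) (b : B → A) :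
    (M.map (pull a)).map (pull b) = M.map (pull (a ∘ b)) :=
  Measure.map_map (measurable_pull _) (measurable_pull _)

theorem Good.gb_map_wb (g : Good c h y) (b : Bool) : (mZ h y).map (g.wb b) = c.mW := by
  rw [mZ, Ctx.mW, gb_map_pull_pull, ← (c.S.lf2 h b).law, gb_map_pull_pull]
  rfl

theorem Good.gb_map_yj (g : Good c h y) (j : c.P.Col) : (mZ h y).map (g.yj j) = my E y := by
  rw [mZ, my, gb_map_pull_pull, ← (col (c.S.two h) j).law, gb_map_pull_pull]
  rfl

theorem Good.gb_map_wy (g : Good c h y) (b : Bool) : (my E y).map (g.wy b) = c.mY := by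
  rw [my, Ctx.mY, gb_map_pull_pull, ← (h b).law, gb_map_pull_pull]
  rfl

theorem Ctx.gb_map_wj (c : Ctx) (j : c.P.Col) : c.mW.map (c.wj j) = c.mY := by
  rw [Ctx.mW, Ctx.mY, gb_map_pull_pull, ← (col c.S j).law, gb_map_pull_pull]
  rfl

theorem gb_image_gS (h : Bool → Hom c.s E) (b : Bool) (J : Set c.P.Col) :
    gi h '' gS {b} J = colS (c.S.two h) J (range (h b).ι) := by
  ext i
  constructor
  · rintro ⟨⟨b', j, a⟩, ⟨hb, hj⟩, rfl⟩
    obtain rfl : b' = b := hb
    exact ⟨j, hj, _, ⟨a, rfl⟩, rfl⟩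
  · rintro ⟨j, hj, _, ⟨a, rfl⟩, rfl⟩
    exact ⟨(b, j, a), ⟨rfl, hj⟩, rfl⟩

theorem gb_image_gS_sub (h : Bool → Hom c.s E) (Bs : Set Bool) (J : Set c.P.Col) :
    gi h '' gS Bs J ⊆ colS (c.S.two h) J univ := by
  rintro _ ⟨⟨b', j, a⟩, ⟨hb, hj⟩, rfl⟩
  exact ⟨j, hj, _, trivial, rfl⟩

theorem gb_colS_union {P : Pat} {s : Sys} (S : Seeds P s) (J J' : Set P.Col) (B : Set s.I) :
    colS S (J ∪ J') B = colS S J B ∪ colS S J' B := by
  ext i
  constructor
  · rintro ⟨j, hj | hj, a, ha, rfl⟩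
    · exact Or.inl ⟨j, hj, a, ha, rfl⟩
    · exact Or.inr ⟨j, hj, a, ha, rfl⟩
  · rintro (⟨j, hj, a, ha, rfl⟩ | ⟨j, hj, a, ha, rfl⟩)
    · exact ⟨j, Or.inl hj, a, ha, rfl⟩
    · exact ⟨j, Or.inr hj, a, ha, rfl⟩

/-- saturation over an admissible base -/
theorem gb_sat {Y' : Set E.I} (b : Bool) (ha : Adm c.X c.Y (h b) Y') (j : c.P.Col) :
    CI (GG h).μ (colS (c.S.two h) {j} (range (h b).ι)) (colS (c.S.two h) {j}ᶜ univ)
      (colS (c.S.two h) {j}ᶜ (range (h b).ι) ∪ up (c.S.two h) Y') := by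
  have h1 := c.sat.sat E (h b) Y' (c.S.two h) (c.S.lf2 h b) j ha
  rw [image_union, Lift.image_colS, image_univ] at h1
  have h2 : (c.S.lf2 h b).lf '' up c.S c.Y ⊆ up (c.S.two h) Y' := by
    rintro _ ⟨i, hi, rfl⟩
    exact (c.S.lf2 h b).mem_up ha.2.1 hi
  refine h1.base' (union_subset_union_right _ h2) ?_ subset_union_left
    (subset_union_of_subset_left subset_union_left _)
  exact union_subset (subset_union_of_subset_right subset_union_left _)
    (subset_union_of_subset_left subset_union_right _)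

theorem Good.gb_h2 (g : Good c h y) (b : Bool) (j : c.P.Col) :
    CI (GG h).μ (colS (c.S.two h) {j} univ) (colS (c.S.two h) univ (range (h b).ι))
      (colS (c.S.two h) {j} (range (h b).ι) ∪ ZZ h y) := by
  obtain ⟨i, hi⟩ : ∃ i : c.P.Col, i ≠ j :=
    Fintype.exists_ne_of_one_lt_card (by have := c.three; omega) j
  set S' := c.S.two h
  let J : Finset c.P.Col := (Finset.univ.erase i).erase j
  have hJ : J.card + 2 ≤ Fintype.card c.P.Col := by
    have := c.three
    rw [Finset.card_erase_of_mem (by simp [hi.symm]), Finset.card_erase_of_mem (by simp),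
      Finset.card_univ]
    omega
  have hyZ : colS S' {j} y ⊆ ZZ h y := colS_subset_up _ _ (g.adm b).1
  have hr : ∀ J : Set c.P.Col, colS S' J (range (h b).ι) ⊆ colS S' J univ := fun J =>
    colS_mono _ le_rfl (subset_univ _)
  have h1 := (g.colInd j J (by simp [J]) hJ).symm.base
    (U' := colS S' {j} (range (h b).ι) ∪ colS S' {j} y) subset_union_right
    (union_subset_union_left _ (hr _))
  have h2 : CI (GG h).μ (colS S' {j} univ) (colS S' J (range (h b).ι))
      (colS S' {j} (range (h b).ι) ∪ ZZ h y) := by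
    refine h1.symm.base' (union_subset_union_right _ hyZ) ?_ subset_union_left ?_
    · exact union_subset (subset_union_of_subset_right subset_union_left _)
        (subset_union_of_subset_left subset_union_right _)
    · exact subset_union_of_subset_left (subset_union_of_subset_left (hr _) _) _
  have e : ({i}ᶜ : Set c.P.Col) = {j} ∪ (J : Set c.P.Col) := by
    ext k
    by_cases hk : k = j
    · subst hk; simp [hi.symm]
    · simp [J, hk]
  have h3 : CI (GG h).μ (colS S' {j} univ) (colS S' {i} (range (h b).ι))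
      ((colS S' {j} (range (h b).ι) ∪ ZZ h y) ∪ colS S' J (range (h b).ι)) := by
    have := (gb_sat b (g.adm b) i).symm
    rw [e, gb_colS_union, gb_colS_union, union_right_comm] at this
    exact this.mono (subset_union_of_subset_left subset_union_left _) subset_union_left
  refine (h3.contr h2).mono subset_union_left ?_
  rintro _ ⟨k, -, a, ha, rfl⟩
  by_cases hk : k = i
  · exact Or.inl (Or.inl ⟨k, hk, a, ha, rfl⟩)
  · have : k ∈ ({i}ᶜ : Set c.P.Col) := hk
    rw [e] at this
    rcases this with hk | hk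
    · exact Or.inr (Or.inl ⟨k, hk, a, ha, rfl⟩)
    · exact Or.inl (Or.inr ⟨k, hk, a, ha, rfl⟩)

theorem Good.gb_colZ (g : Good c h y) (j : c.P.Col) :
    CI (GG h).μ (colS (c.S.two h) {j} univ) (ZZ h y) (colS (c.S.two h) {j} y) :=
  principle_ci _ j (g.adm false).1 le_rfl (ci_of_subset le_rfl).symm

theorem Good.gb_range_yI (g : Good c h y) (j : c.P.Col) :
    range (Subtype.val ∘ g.yI j) = colS (c.S.two h) {j} y := by
  ext i
  constructor
  · rintro ⟨a, rfl⟩
    exact ⟨j, rfl, a, a.2, rfl⟩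
  · rintro ⟨k, rfl, a, ha, rfl⟩
    exact ⟨⟨a, ha⟩, rfl⟩

theorem Good.gb_range_wI (g : Good c h y) (b : Bool) :
    range (Subtype.val ∘ g.wI b) = (c.S.lf2 h b).lf '' up c.S c.Y := by
  ext i
  constructor
  · rintro ⟨a, rfl⟩
    exact ⟨a, a.2, rfl⟩
  · rintro ⟨a, ha, rfl⟩
    exact ⟨⟨a, ha⟩, rfl⟩

theorem Good.gb_rows (g : Good c h y) (b : Bool) :
    ∀ᵐ z ∂mZ h y, (gr h y z).map (row b) = c.nu (g.wb b z) := by
  have h1 := cd_map (M := (GG h).μ) (gi h) (Subtype.val : ZZ h y → _)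
    (fun q : c.P.Col × c.s.I => (b, q))
  have h2 := cd_ci (M := (GG h).μ) ((c.S.lf2 h b).lf ∘ Sum.inl) (Subtype.val : ZZ h y → _)
    (g.wI b) (by
      rw [g.gb_range_wI, Subtype.range_coe]
      refine (rowlaw_ci c.sat (g.adm b) (c.S.lf2 h b)).mono ?_ subset_union_left
      rintro _ ⟨⟨j, a⟩, rfl⟩
      exact Or.inl ⟨j, trivial, _, ⟨a, rfl⟩, rfl⟩)
  have h3 := cd_hom (M := (GG h).μ) (c.S.lf2 h b).lf Sum.inl (Subtype.val : c.W → _)
    (Lim c.S).μ (c.S.lf2 h b).law
  rw [← Ctx.mW, ← g.gb_map_wb b] at h3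
  filter_upwards [h1, h2, ae_of_ae_map (measurable_pull _).aemeasurable h3] with z e1 e2 e3
  exact e1.trans (e2.trans e3)

theorem Good.gb_colm (g : Good c h y) (j : c.P.Col) :
    ∀ᵐ z ∂mZ h y, (gr h y z).map (colm j) = lam h y (g.yj j z) := by
  have h1 := cd_map (M := (GG h).μ) (gi h) (Subtype.val : ZZ h y → _)
    (fun q : Bool × c.s.I => (q.1, j, q.2))
  have h2 := cd_ci (M := (GG h).μ) ((col (c.S.two h) j).ι ∘ pi2 h) (Subtype.val : ZZ h y → _)
    (g.yI j) (by
      rw [g.gb_range_yI, Subtype.range_coe]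
      refine (g.gb_colZ j).mono ?_ subset_union_left
      rintro _ ⟨q, rfl⟩
      exact Or.inl ⟨j, rfl, _, trivial, rfl⟩)
  have h3 := cd_hom (M := (GG h).μ) (col (c.S.two h) j).ι (pi2 h) (Subtype.val : y → _)
    E.μ (col (c.S.two h) j).law
  rw [← my, ← g.gb_map_yj j] at h3
  filter_upwards [h1, h2, ae_of_ae_map (measurable_pull _).aemeasurable h3] with z e1 e2 e3
  exact e1.trans (e2.trans e3)

theorem gb_grid_ae (g : Good c h y) :
    ∀ᵐ z ∂mZ h y, Grid (fun b => c.nu (g.wb b z)) (gr h y z) ∧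
      ∀ j, (gr h y z).map (colm j) = lam h y (g.yj j z) := by
  have h2 : ∀ b j, ∀ᵐ z ∂mZ h y, CI (gr h y z) (gS {b} {j}) (gS {!b} univ) (gS {!b} {j}) :=
    fun b j => fib_ci (M := (GG h).μ) (gi h) (Subtype.val : ZZ h y → _) (by
      rw [gb_image_gS h (!b), gb_image_gS h (!b), Subtype.range_coe]
      exact (g.gb_h2 (!b) j).mono (subset_union_of_subset_left (gb_image_gS_sub h _ _) _)
        subset_union_left)
  have h3 : ∀ (j : c.P.Col) (J : Finset c.P.Col), ∀ᵐ z ∂mZ h y, j ∉ J →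
      J.card + 2 ≤ Fintype.card c.P.Col → Ind (gr h y z) (gS univ {j}) (gS univ J) := by
    intro j J
    by_cases hj : j ∉ J ∧ J.card + 2 ≤ Fintype.card c.P.Col
    · refine (fib_ind (M := (GG h).μ) (gi h) (Subtype.val : ZZ h y → _) ?_).mono
        fun z hz _ _ => hz
      rw [Subtype.range_coe]
      refine (g.colInd j J hj.1 hj.2).base' (colS_subset_up _ _ (g.adm false).1)
        (subset_union_of_subset_left subset_union_right _)
        (subset_union_of_subset_left (gb_image_gS_sub h _ _) _) ?_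
      exact subset_union_of_subset_left
        (subset_union_of_subset_left (gb_image_gS_sub h _ _) _) _
    · exact Eventually.of_forall fun z h1 h2 => absurd ⟨h1, h2⟩ hj
  have h4 : ∀ b j, ∀ᵐ z ∂mZ h y, CI (gr h y z) (gS {b} {j}) (gS univ {j}ᶜ) (gS {b} {j}ᶜ) :=
    fun b j => fib_ci (M := (GG h).μ) (gi h) (Subtype.val : ZZ h y → _) (by
      rw [gb_image_gS h b, gb_image_gS h b, Subtype.range_coe]
      exact (gb_sat b (g.adm b) j).mono subset_union_left
        (subset_union_of_subset_left (gb_image_gS_sub h _ _) _))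
  filter_upwards [ae_all_iff.2 g.gb_rows, ae_all_iff.2 fun b => ae_all_iff.2 (h2 b),
    ae_all_iff.2 fun j => ae_all_iff.2 (h3 j), ae_all_iff.2 fun b => ae_all_iff.2 (h4 b),
    ae_all_iff.2 g.gb_colm] with z a1 a2 a3 a4 a5
  exact ⟨⟨a1, a2, a3, a4⟩, a5⟩

end Crest.Agent.R69
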