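import Crest.Agent.R69.Defs

/-! # Row 69, Glob part B: eigen-characters form a group of orthonormal functions (helper31) -/

set_option autoImplicit false
set_option linter.unusedVariables false
set_option linter.unusedSectionVars false

open MeasureTheory ProbabilityTheory Filter Topology Set

noncomputable section

namespace Crest.Agent.R69

variable {I Yt G : Type} [Countable I] [Countable Yt]
  {m : Measure (Om Yt)} {lam : Kernel (Om Yt) (Om (Bool × I))}

theorem gb_measurable_chr {E : G → Om I → ℂ} (hE : ∀ g, Measurable (E g)) (x : G →₀ ℤ) :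
    Measurable (chr E x) := by
  unfold chr Finsupp.prod
  exact Finset.measurable_prod _ fun g _ => (hE g).pow_const _

theorem gb_norm_chr {E : G → Om I → ℂ} (hE : ∀ g a, ‖E g a‖ = 1) (x : G →₀ ℤ) (a : Om I) :
    ‖chr E x a‖ = 1 := by
  unfold chr Finsupp.prod
  rw [norm_prod]
  exact Finset.prod_eq_one fun g _ => by rw [norm_zpow, hE, one_zpow]

theorem TopChar.gb_chr {E : G → Om I → ℂ} (h : ∀ g, TopChar m lam (E g)) (x : G →₀ ℤ) :
    TopChar m lam (chr E x) := by
  choose H hH hc using h
  refine ⟨R69.chr H x, gb_measurable_chr hH x, ?_⟩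
  filter_upwards [(Filter.eventually_all_finset x.support).2 fun g _ => hc g] with η hη
  choose! c hc using hη
  refine ⟨x.prod fun g n => c g ^ n, ?_⟩
  filter_upwards [(Filter.eventually_all_finset x.support).2 hc] with q hq
  unfold R69.chr Finsupp.prod
  rw [← Finset.prod_mul_distrib]
  exact Finset.prod_congr rfl fun g hg => by simp only [hq g hg, mul_zpow]

/-- proportional functions -/
theorem TopChar.gb_congr {κ : Measure (Om I)} (hκ : ∀ᵐ η ∂m, (lam η).map (side false) = κ)
    {χ χ' : Om I → ℂ} (h : TopChar m lam χ) {a : ℂ} (ha : ∀ᵐ x ∂κ, χ' x = a * χ x) :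
    TopChar m lam χ' := by
  obtain ⟨H, hH, hc⟩ := h
  refine ⟨H, hH, ?_⟩
  filter_upwards [hc, hκ] with η hη e
  obtain ⟨c, hc⟩ := hη
  rw [← e] at ha
  refine ⟨a * c, ?_⟩
  filter_upwards [hc, ae_of_ae_map (measurable_pull _).aemeasurable ha] with q h1 h2
  rw [h2, h1, mul_assoc]

/-- an eigen-character with non-zero mean is constant -/
theorem TopChar.gb_const [IsProbabilityMeasure m] [IsMarkovKernel lam] {κ κ' : Measure (Om I)}
    (hκ : ∀ᵐ η ∂m, (lam η).map (side false) = κ) (hκ' : ∀ᵐ η ∂m, (lam η).map (side true) = κ')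
    (hind : IndepFun (side false) (side true) (m.bind lam)) {χ : Om I → ℂ} (hχ : Measurable χ)
    (h : TopChar m lam χ) (hne : ∫ a, χ a ∂κ ≠ 0) : ∃ c : ℂ, ∀ᵐ a ∂κ, χ a = c := by
  obtain ⟨H, hH, hc⟩ := h
  have hf : Measurable (side false : Om (Bool × I) → Om I) := measurable_pull _
  have ht : Measurable (side true : Om (Bool × I) → Om I) := measurable_pull _
  have h1 : ∀ᵐ η ∂m, ∀ᵐ q ∂lam η,
      χ (side false q) = (∫ a, χ a ∂κ) / (∫ a, H a ∂κ') * H (side true q) := by
    filter_upwards [hc, hκ, hκ'] with η hη e e'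
    obtain ⟨c, hc⟩ := hη
    have : ∫ a, χ a ∂κ = c * ∫ a, H a ∂κ' := by
      rw [← e, ← e', integral_map hf.aemeasurable hχ.aestronglyMeasurable,
        integral_map ht.aemeasurable hH.aestronglyMeasurable, ← integral_const_mul]
      exact integral_congr_ae hc
    have h0 : ∫ a, H a ∂κ' ≠ 0 := fun h => hne (by rw [this, h, mul_zero])
    rw [this, mul_div_assoc, div_self h0, mul_one]
    exact hc
  set c₀ := (∫ a, χ a ∂κ) / (∫ a, H a ∂κ')
  have hS : MeasurableSet {p : Om I × Om I | χ p.1 = c₀ * H p.2} :=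
    measurableSet_eq_fun (by fun_prop) (by fun_prop)
  have h2 : ∀ᵐ q ∂m.bind lam, χ (side false q) = c₀ * H (side true q) :=
    Measure.ae_comp_of_ae_ae (measurableSet_eq_fun (by fun_prop) (by fun_prop)) h1
  have e1 : (m.bind lam).map (side false) = κ := by
    rw [Measure.map_comp _ _ hf, Measure.bind_congr_right (g := fun _ => κ)]
    · simp
    · filter_upwards [hκ] with η hη
      rw [Kernel.map_apply _ hf, hη]
  have h3 := (indepFun_iff_map_prod_eq_prod_map_map hf.aemeasurable ht.aemeasurable).1 hind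
  have h4 : ∀ᵐ p ∂((m.bind lam).map (side false)).prod ((m.bind lam).map (side true)),
      χ p.1 = c₀ * H p.2 := by
    rw [← h3, ae_map_iff (hf.prodMk ht).aemeasurable hS]
    exact h2
  have : IsProbabilityMeasure ((m.bind lam).map (side true)) :=
    Measure.isProbabilityMeasure_map ht.aemeasurable
  rw [e1] at h4
  have hκp : IsProbabilityMeasure κ := e1 ▸ Measure.isProbabilityMeasure_map hf.aemeasurable
  rw [← Measure.prod_swap] at h4
  have h5 := Measure.ae_ae_of_ae_prod (ae_of_ae_map measurable_swap.aemeasurable h4)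
  obtain ⟨y, hy⟩ := h5.exists
  exact ⟨c₀ * H y, hy⟩

theorem gb_orth_of_top [IsProbabilityMeasure m] [IsMarkovKernel lam] {κ κ' : Measure (Om I)}
    (hκ : ∀ᵐ η ∂m, (lam η).map (side false) = κ) (hκ' : ∀ᵐ η ∂m, (lam η).map (side true) = κ')
    (hind : IndepFun (side false) (side true) (m.bind lam)) {E : G → Om I → ℂ}
    (hE : ∀ g, Measurable (E g)) (h : ∀ g, TopChar m lam (E g)) : Orth κ E :=
  fun x hx => TopChar.gb_const hκ hκ' hind (gb_measurable_chr hE x) (TopChar.gb_chr h x) hx

/-- transport of eigen-characters along index maps -/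
theorem TopChar.gb_pull {I' Yt' : Type} [Countable I'] [Countable Yt'] {m' : Measure (Om Yt')}
    {lam' : Kernel (Om Yt') (Om (Bool × I'))} (a : I' → I) (b : Yt' → Yt)
    (hm : m.map (pull b) = m')
    (hl : ∀ᵐ η ∂m, (lam η).map (pull fun q : Bool × I' => (q.1, a q.2)) = lam' (R69.pull b η))
    {χ : Om I' → ℂ} (h : TopChar m' lam' χ) : TopChar m lam (fun x => χ (R69.pull a x)) := by
  obtain ⟨H, hH, hc⟩ := h
  refine ⟨fun x => H (R69.pull a x), hH.comp (measurable_pull _), ?_⟩
  rw [← hm] at hc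
  filter_upwards [ae_of_ae_map (measurable_pull _).aemeasurable hc, hl] with η hη e
  obtain ⟨c, hc⟩ := hη
  rw [← e] at hc
  exact ⟨c, ae_of_ae_map (measurable_pull _).aemeasurable hc⟩

end Crest.Agent.R69
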