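import Crest.Agent.R69.GbTwo
import Crest.Agent.R69.GbTop

/-! # Row 69, Glob part B: labelled relation tuples are eigen-characters (helper31) -/

set_option autoImplicit false
set_option linter.unusedVariables false
set_option linter.unusedSectionVars false

open MeasureTheory ProbabilityTheory Filter Topology Set

noncomputable section

namespace Crest.Agent.R69

variable {c : Ctx}

theorem RelT.gb_conj {C I : Type} [Fintype C] [DecidableEq C] {ν : Measure (Om (C × I))}
    {χ : C → Om I → ℂ} (h : RelT ν χ) (r : C) :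
    ∀ᵐ a ∂ν, χ r (cell r a) = ∏ i ∈ Finset.univ.erase r, (starRingEnd ℂ) (χ i (cell i a)) := by
  filter_upwards [h.rel] with a ha
  rw [← Finset.mul_prod_erase _ _ (Finset.mem_univ r)] at ha
  have h1 : (∏ i ∈ Finset.univ.erase r, χ i (cell i a)) *
      ∏ i ∈ Finset.univ.erase r, (starRingEnd ℂ) (χ i (cell i a)) = 1 := by
    rw [← Finset.prod_mul_distrib]
    exact Finset.prod_eq_one fun i _ => by rw [Complex.mul_conj', h.uni]; simp
  rw [← mul_one (χ r _), ← h1, ← mul_assoc, ha, one_mul]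

theorem gb_measurable_cell {C I : Type} {J : Set C} {i : C} (hi : i ∈ J) :
    Measurable[sg (rS J : Set (C × I))] (cell i) :=
  measurable_pull_range _ (by rintro _ ⟨a, rfl⟩; exact hi)

theorem gb_image_rS {P : Pat} {s : Sys} (S : Seeds P s) (J : Set P.Col) :
    (Sum.inl : P.Col × s.I → LI S) '' rS J = colS S J univ := by
  ext i
  constructor
  · rintro ⟨⟨j, a⟩, hj, rfl⟩
    exact ⟨j, hj, a, trivial, rfl⟩
  · rintro ⟨j, hj, a, -, rfl⟩
    exact ⟨(j, a), hj, rfl⟩

theorem Lbl.gb_memLp {A α : Type} [MeasurableSpace α] {ψ : Om A → ℂ} (h : Lbl ψ) {f : α → Om A}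
    (hf : Measurable f) (μ : Measure α) [IsFiniteMeasure μ] (p : ENNReal) :
    MemLp (fun x => ψ (f x)) p μ :=
  MemLp.of_bound (h.1.comp hf).aestronglyMeasurable 1 (Eventually.of_forall fun x => h.2 _)

/-- the label is determined by the other columns -/
theorem Lb.gb_meas (B : Lb c) :
    AEStronglyMeasurable[sg (colS c.S {c.r}ᶜ univ ∪ c.W)]
      (fun x => B.ψ (res c.X (pull (col c.S c.r).ι x))) (Lim c.S).μ := by
  have := aesm_of_fib (M := (Lim c.S).μ) Sum.inl (Subtype.val : c.W → _) (rS {c.r}ᶜ)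
    (F := fun α => B.ψ (res c.X (cell c.r α)))
    (B.lbl.1.comp (by fun_prop)).stronglyMeasurable
    (memLp_one_iff_integrable.1 (B.lbl.gb_memLp (by fun_prop) _ 1)) ?_
  · rwa [gb_image_rS, Subtype.range_coe] at this
  filter_upwards [B.enum] with v hv
  obtain ⟨e, he, hs⟩ := hv
  refine ⟨fun α => (B.N : ℂ)⁻¹ * ∑ k, ∏ i ∈ Finset.univ.erase c.r,
    (starRingEnd ℂ) (e k i (cell i α)), Measurable.stronglyMeasurable ?_, ?_⟩
  · refine Measurable.const_mul (Finset.measurable_sum _ fun k _ =>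
      Finset.measurable_prod _ fun i hi => ?_) _
    exact Complex.continuous_conj.measurable.comp (((he.rel k).meas i).comp
      (gb_measurable_cell (Finset.ne_of_mem_erase hi)))
  · filter_upwards [ae_of_ae_map (measurable_pull _).aemeasurable hs,
      ae_all_iff.2 fun k => (he.rel k).gb_conj c.r] with α h1 h2
    have hN : (B.N : ℂ) ≠ 0 := Nat.cast_ne_zero.2 B.pos.ne'
    rw [← Finset.sum_congr rfl fun k _ => h2 k, h1, ← mul_assoc, inv_mul_cancel₀ hN, one_mul]

theorem PairE.gb_top (D : PairE c) {F : Om c.s.I → ℝ} (hF : Measurable F) (h2 : MemLp F 2 c.s.μ)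
    (hm : AEStronglyMeasurable[sg (colS c.S {c.r}ᶜ univ ∪ c.W)] (F ∘ pull (col c.S c.r).ι)
      (Lim c.S).μ) :
    AEStronglyMeasurable[sg (range (D.h true).ι ∪ D.y)] (F ∘ pull (D.h false).ι) D.E.μ := by
  have h1 := D.top F hF h2
  rw [en_eq_of_meas (h2.comp_measurePreserving (col c.S c.r).mp) hm] at h1
  have e : ∀ {s' : Sys} (g : Hom c.s s'),
      ∫ x, (F ∘ pull g.ι) x ^ 2 ∂s'.μ = ∫ x, F x ^ 2 ∂c.s.μ := fun g => by
    rw [← g.law, integral_map (measurable_pull _).aemeasurable (by fun_prop)]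
    rfl
  rw [e, ← e (D.h false)] at h1
  exact (stronglyMeasurable_condExp.aestronglyMeasurable).congr
    (eq_condExp_of_le_en (h2.comp_measurePreserving (D.h false).mp) h1).symm

/-- the label on the first side is determined by the second side -/
theorem Lb.gb_side (B : Lb c) (D : PairE c) : ∀ᵐ η ∂my D.E D.y,
    AEStronglyMeasurable[sg (sS true univ)] (fun q => B.ψ (res c.X (side false q)))
      (lam D.h D.y η) := by
  refine fib_of_aesm (M := D.E.μ) (pi2 D.h) (Subtype.val : D.y → _) (sS true univ) ?_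
  have e : pi2 D.h '' sS true univ = range (D.h true).ι := by
    ext i
    constructor
    · rintro ⟨⟨b, a⟩, ⟨hb, -⟩, rfl⟩
      obtain rfl : b = true := hb
      exact ⟨a, rfl⟩
    · rintro ⟨a, rfl⟩
      exact ⟨(true, a), ⟨rfl, trivial⟩, rfl⟩
  rw [e, Subtype.range_coe]
  have hL := B.lbl.gb_memLp (measurable_pull (Subtype.val : c.X → _)) c.s.μ 2
  have hm : Measurable fun x : Om c.s.I => B.ψ (res c.X x) := B.lbl.1.comp (measurable_pull _)
  have h1 := D.gb_top (F := fun x => (B.ψ (res c.X x)).re) (Complex.measurable_re.comp hm) hL.re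
    (Complex.continuous_re.comp_aestronglyMeasurable B.gb_meas)
  have h2 := D.gb_top (F := fun x => (B.ψ (res c.X x)).im) (Complex.measurable_im.comp hm) hL.im
    (Complex.continuous_im.comp_aestronglyMeasurable B.gb_meas)
  refine ((Complex.continuous_ofReal.comp_aestronglyMeasurable h1).add
    ((Complex.continuous_ofReal.comp_aestronglyMeasurable h2).mul_const Complex.I)).congr
    (Eventually.of_forall fun x => ?_)
  exact Complex.re_add_im _

theorem Good.gb_side {E : Sys} {h : Bool → Hom c.s E} {y : Set E.I} (g : Good c h y) (b : Bool) :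
    ∀ᵐ η ∂my E y, (lam h y η).map (side b) = c.fb (g.wy b η) := by
  have h1 := cd_map (M := E.μ) (pi2 h) (Subtype.val : y → _) (fun a : c.s.I => (b, a))
  have h2 := cd_ci (M := E.μ) (h b).ι (Subtype.val : y → _) (g.vI b) (by
    rw [Subtype.range_coe]
    have : range (Subtype.val ∘ g.vI b) = (h b).ι '' c.Y := by
      ext i
      constructor
      · rintro ⟨a, rfl⟩
        exact ⟨a, a.2, rfl⟩
      · rintro ⟨a, ha, rfl⟩
        exact ⟨⟨a, ha⟩, rfl⟩
    rw [this]
    exact c.sat.max E (h b) y (g.adm b))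
  have h3 := cd_hom (M := E.μ) (h b).ι id (Subtype.val : c.Y → _) c.s.μ (h b).law
  rw [← Ctx.mY, ← g.gb_map_wy b] at h3
  filter_upwards [h1, h2, ae_of_ae_map (measurable_pull _).aemeasurable h3] with z e1 e2 e3
  exact e1.trans (e2.trans e3)

theorem Ctx.gb_range_wi (c : Ctx) (j : c.P.Col) :
    range (Subtype.val ∘ c.wi j) = colS c.S {j} c.Y := by
  ext i
  constructor
  · rintro ⟨a, rfl⟩
    exact ⟨j, rfl, a, a.2, rfl⟩
  · rintro ⟨k, rfl, a, ha, rfl⟩
    exact ⟨⟨a, ha⟩, rfl⟩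

theorem Ctx.gb_colW (c : Ctx) (j : c.P.Col) :
    CI (Lim c.S).μ (colS c.S {j} univ) c.W (colS c.S {j} c.Y) :=
  principle_ci _ j c.sat.invY le_rfl (ci_of_subset le_rfl).symm

theorem Ctx.gb_cell (c : Ctx) (j : c.P.Col) :
    ∀ᵐ v ∂c.mW, (c.nu v).map (cell j) = c.fb (c.wj j v) := by
  have h1 := cd_map (M := (Lim c.S).μ) Sum.inl (Subtype.val : c.W → _) (fun a : c.s.I => (j, a))
  have h2 := cd_ci (M := (Lim c.S).μ) (col c.S j).ι (Subtype.val : c.W → _) (c.wi j) (by
    rw [Subtype.range_coe, c.gb_range_wi]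
    refine (c.gb_colW j).mono ?_ subset_union_left
    rintro _ ⟨a, rfl⟩
    exact Or.inl ⟨j, rfl, a, trivial, rfl⟩)
  have h3 := cd_hom (M := (Lim c.S).μ) (col c.S j).ι id (Subtype.val : c.Y → _) c.s.μ
    (col c.S j).law
  rw [← Ctx.mY, ← c.gb_map_wj j] at h3
  filter_upwards [h1, h2, ae_of_ae_map (measurable_pull _).aemeasurable h3] with z e1 e2 e3
  exact e1.trans (e2.trans e3)

theorem Ctx.gb_cell_res (c : Ctx) (j : c.P.Col) :
    ∀ᵐ v ∂c.mW, ((c.nu v).map (cell j)).map (res c.X) = c.mX := by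
  have h1 := c.s.fib_res c.sat.ind
  rw [← Ctx.mY, ← c.gb_map_wj j] at h1
  filter_upwards [c.gb_cell j, ae_of_ae_map (measurable_pull _).aemeasurable h1] with v e1 e2
  rw [e1]
  exact e2

theorem Lb.gb_norm_ne (B : Lb c) : ∫ x, B.ψ x * (starRingEnd ℂ) (B.ψ x) ∂c.mX ≠ 0 := by
  intro h
  apply B.ne
  simp only [Complex.mul_conj', ← Complex.ofReal_pow, integral_complex_ofReal,
    Complex.ofReal_eq_zero] at h
  have hi : Integrable (fun x => ‖B.ψ x‖ ^ 2) c.mX :=
    (B.lbl.gb_memLp measurable_id c.mX 2).norm.integrable_sq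
  filter_upwards [(integral_eq_zero_iff_of_nonneg (fun x => sq_nonneg _) hi).1 h] with x hx
  simpa using hx

theorem Lbl.gb_conj {A : Type} {ψ : Om A → ℂ} (h : Lbl ψ) : Lbl fun x => (starRingEnd ℂ) (ψ x) :=
  ⟨Complex.continuous_conj.measurable.comp h.1, fun x => by simpa using h.2 x⟩

/-- conditional law of the big base given the small one -/
abbrev PairE.gbMu (D : PairE c) : Kernel (Om D.ω) (Om D.y) := cd D.E.μ Subtype.val Subtype.val

theorem PairE.gb_rho_yj (D : PairE c) (j : c.P.Col) :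
    ∀ᵐ o ∂mZ D.h D.ω, (D.gbRho o).map (D.good.yj j) = D.gbMu (D.goodω.yj j o) := by
  have h1 := cd_map (M := (GG D.h).μ) (Subtype.val : ZZ D.h D.y → _)
    (Subtype.val : ZZ D.h D.ω → _) (D.good.yI j)
  have h2 := cd_ci (M := (GG D.h).μ) ((col (c.S.two D.h) j).ι ∘ (Subtype.val : D.y → _))
    (Subtype.val : ZZ D.h D.ω → _) (D.goodω.yI j) (by
      rw [D.goodω.gb_range_yI, Subtype.range_coe]
      refine (D.goodω.gb_colZ j).mono ?_ subset_union_left
      rintro _ ⟨q, rfl⟩
      exact Or.inl ⟨j, rfl, _, trivial, rfl⟩)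
  have h3 := cd_hom (M := (GG D.h).μ) (col (c.S.two D.h) j).ι (Subtype.val : D.y → _)
    (Subtype.val : D.ω → _) D.E.μ (col (c.S.two D.h) j).law
  rw [← my, ← D.goodω.gb_map_yj j] at h3
  filter_upwards [h1, h2, ae_of_ae_map (measurable_pull _).aemeasurable h3] with z e1 e2 e3
  exact e1.trans (e2.trans e3)

theorem Good.gb_kap {E : Sys} {h : Bool → Hom c.s E} {y : Set E.I} (g : Good c h y) (b : Bool)
    (j : c.P.Col) : ∀ᵐ η ∂my E y,
      cd (GG h).μ ((c.S.lf2 h b).lf ∘ (Subtype.val : c.W → _))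
        ((col (c.S.two h) j).ι ∘ (Subtype.val : y → _)) η = c.kap j (g.wy b η) := by
  have h2 := cd_ci (M := (GG h).μ) ((c.S.lf2 h b).lf ∘ (Subtype.val : c.W → _))
    ((col (c.S.two h) j).ι ∘ (Subtype.val : y → _)) (g.vI b) (by
      have h1 := (principle_ci (c.S.two h) j (c.sat.invY.image (h b)) le_rfl
        (ci_of_subset (T := univ) le_rfl).symm).symm
      have e : range (((col (c.S.two h) j).ι ∘ (Subtype.val : y → _)) ∘ g.vI b) =
          colS (c.S.two h) {j} ((h b).ι '' c.Y) := by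
        ext i
        constructor
        · rintro ⟨a, rfl⟩
          exact ⟨j, rfl, _, ⟨a, a.2, rfl⟩, rfl⟩
        · rintro ⟨k, rfl, _, ⟨a, ha, rfl⟩, rfl⟩
          exact ⟨⟨a, ha⟩, rfl⟩
      rw [e]
      refine h1.mono ?_ ?_
      · rintro _ ⟨i, rfl⟩
        exact Or.inl ((c.S.lf2 h b).mem_up le_rfl i.2)
      · rintro _ ⟨a, rfl⟩
        exact Or.inl ⟨j, rfl, _, trivial, rfl⟩)
  have h3 := cd_hom (M := (GG h).μ) (c.S.lf2 h b).lf (Subtype.val : c.W → _)
    (Subtype.val ∘ c.wi j) (Lim c.S).μ (c.S.lf2 h b).law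
  have e1 : (Lim c.S).μ.map (pull (Subtype.val ∘ c.wi j)) = (my E y).map (g.wy b) := by
    rw [g.gb_map_wy, ← c.gb_map_wj j, gb_map_pull_pull]
  have e2 : (GG h).μ.map (pull ((col (c.S.two h) j).ι ∘ (Subtype.val : y → _))) = my E y := by
    rw [← gb_map_pull_pull, (col (c.S.two h) j).law]
  rw [e1] at h3
  rw [e2] at h2
  filter_upwards [h2, ae_of_ae_map (measurable_pull _).aemeasurable h3] with z e2 e3
  exact e2.trans e3

theorem PairE.gb_side (D : PairE c) (b : Bool) : ∀ᵐ ϖ ∂my D.E D.ω, ∀ᵐ η ∂D.gbMu ϖ,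
    (lam D.h D.y η).map (side b) = c.fb (D.goodω.wy b ϖ) :=
  ae_cd (M := D.E.μ) (Subtype.val : D.y → _) (Subtype.val : D.ω → _)
    (Q := fun ϖ η => (lam D.h D.y η).map (side b) = c.fb (D.goodω.wy b ϖ))
    (ae_of_ae_map (measurable_pull _).aemeasurable (D.good.gb_side b))

/-- the shift on the indices of an invariant set -/
abbrev Sys.gbI (s : Sys) {B : Set s.I} (h : s.Inv B) (t : ℤ) (a : B) : B :=
  ⟨(s.τ ^ t) a, (h.zpow t a).2 a.2⟩

theorem Sys.gbI_surj (s : Sys) {B : Set s.I} (h : s.Inv B) (t : ℤ) :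
    Function.Surjective (s.gbI h t) := fun a =>
  ⟨s.gbI h (-t) a, Subtype.ext (by simp)⟩

theorem Good.gb_wy_sh {E : Sys} {h : Bool → Hom c.s E} {y : Set E.I} (g : Good c h y) (b : Bool)
    (t : ℤ) (η : Om y) :
    g.wy b (E.shB (g.adm false).1 t η) = c.s.shB c.sat.invY t (g.wy b η) := by
  funext a
  exact congrArg η (Subtype.ext ((h b).comm_zpow t a).symm)

theorem PairE.gb_indep (D : PairE c) : ∀ᵐ ϖ ∂my D.E D.ω,
    IndepFun (side false) (side true) ((D.gbMu ϖ).bind (lam D.h D.y)) := by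
  have h3 := cd_tower (M := D.E.μ) (pi2 D.h) (Subtype.val : D.y → _) (Set.inclusion D.sub)
  have h4 := fib_ind (M := D.E.μ) (pi2 D.h) (Subtype.val : D.ω → _)
    (R := range fun a : c.s.I => (false, a)) (R' := range fun a : c.s.I => (true, a)) (by
      rw [← range_comp, ← range_comp, Subtype.range_coe]
      exact (c.sat.max D.E (D.h false) _ (D.adm2 false)).base' (D.goodω.adm false).2.1
        (subset_union_of_subset_left subset_union_right _) subset_union_left
        (subset_union_of_subset_left subset_union_left _))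
  filter_upwards [h3, h4] with ϖ a3 a4
  have : (D.gbMu ϖ).bind (lam D.h D.y) = lam D.h D.ω ϖ := a3
  rw [this, indepFun_iff_map_prod_eq_prod_map_map (measurable_pull _).aemeasurable
    (measurable_pull _).aemeasurable]
  exact (ind_iff_map_prod _ _).1 a4

end Crest.Agent.R69
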