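import Crest.Agent.R69.GbGrid

/-! # Row 69, Glob part B: the two-scale structure (helper31) -/

set_option autoImplicit false
set_option linter.unusedVariables false
set_option linter.unusedSectionVars false

open MeasureTheory ProbabilityTheory Filter Topology Set

noncomputable section

namespace Crest.Agent.R69

variable {c : Ctx}

/-- conditional law of the big base of the limit given the small one -/
abbrev PairE.gbRho (D : PairE c) : Kernel (Om (ZZ D.h D.ω)) (Om (ZZ D.h D.y)) :=
  cd (GG D.h).μ Subtype.val Subtype.val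

theorem PairE.gb_rows_ci (D : PairE c) :
    CI (GG D.h).μ (colS (c.S.two D.h) univ (range (D.h false).ι))
      (colS (c.S.two D.h) univ (range (D.h true).ι)) (ZZ D.h D.ω) := by
  have h1 := rowlaw_ci c.sat (D.adm2 false) (c.S.lf2 D.h false)
  refine h1.base' ?_ (subset_union_of_subset_left (up_mono _ subset_union_right) _)
    subset_union_left (subset_union_of_subset_left ?_ _)
  · rintro _ ⟨i, hi, rfl⟩
    exact (c.S.lf2 D.h false).mem_up (D.goodω.adm false).2.1 hi
  · exact (colS_subset_up _ _ (D.h true).inv_range).trans (up_mono _ subset_union_left)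

theorem gb_two_ae (D : PairE c) :
    ∀ᵐ o ∂mZ D.h D.ω, Two (D.gbRho o) D.good.yI (lam D.h D.y) (gr D.h D.y)
      (fun b => c.nu (D.goodω.wb b o)) := by
  have h1 : ∀ᵐ o ∂mZ D.h D.ω, ∀ᵐ z ∂D.gbRho o,
      Grid (fun b => c.nu (D.goodω.wb b o)) (gr D.h D.y z) ∧
        ∀ j, (gr D.h D.y z).map (colm j) = lam D.h D.y (pull (D.good.yI j) z) :=
    ae_cd (M := (GG D.h).μ) (Subtype.val : ZZ D.h D.y → _) (Subtype.val : ZZ D.h D.ω → _)
      (Q := fun o z => Grid (fun b => c.nu (D.goodω.wb b o)) (gr D.h D.y z) ∧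
        ∀ j, (gr D.h D.y z).map (colm j) = lam D.h D.y (pull (D.good.yI j) z))
      (ae_of_ae_map (measurable_pull _).aemeasurable (gb_grid_ae D.good))
  have h2 : ∀ (j : c.P.Col) (J : Finset c.P.Col), ∀ᵐ o ∂mZ D.h D.ω, j ∉ J →
      J.card + 2 ≤ Fintype.card c.P.Col →
      Ind (D.gbRho o) (range (D.good.yI j)) (⋃ i ∈ J, range (D.good.yI i)) := by
    intro j J
    by_cases hj : j ∉ J ∧ J.card + 2 ≤ Fintype.card c.P.Col
    · refine (fib_ind (M := (GG D.h).μ) (Subtype.val : ZZ D.h D.y → _)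
        (Subtype.val : ZZ D.h D.ω → _) ?_).mono fun z hz _ _ => hz
      rw [Subtype.range_coe]
      refine (D.goodω.colInd j J hj.1 hj.2).base' (colS_subset_up _ _ (D.goodω.adm false).1)
        (subset_union_of_subset_left subset_union_right _) ?_ ?_
      · rintro _ ⟨_, ⟨a, rfl⟩, rfl⟩
        exact Or.inl ⟨j, rfl, _, trivial, rfl⟩
      · rintro _ ⟨i, hi, rfl⟩
        simp only [mem_iUnion] at hi
        obtain ⟨k, hk, a, rfl⟩ := hi
        exact Or.inl (Or.inl ⟨k, hk, _, trivial, rfl⟩)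
    · exact Eventually.of_forall fun z h1 h2 => absurd ⟨h1, h2⟩ hj
  have h3 := cd_tower (M := (GG D.h).μ) (gi D.h) (Subtype.val : ZZ D.h D.y → _)
    (Set.inclusion (up_mono (c.S.two D.h) D.sub))
  have h4 := fib_ind (M := (GG D.h).μ) (gi D.h) (Subtype.val : ZZ D.h D.ω → _)
    (R := gS {false} univ) (R' := gS {true} univ) (by
      rw [gb_image_gS, gb_image_gS, Subtype.range_coe]
      exact D.gb_rows_ci)
  filter_upwards [h1, ae_all_iff.2 fun j => ae_all_iff.2 (h2 j), h3, h4] with o a1 a2 a3 a4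
  refine ⟨a1, a2, ?_⟩
  have : (D.gbRho o).bind (gr D.h D.y) = gr D.h D.ω o := a3
  rw [this]
  exact a4

end Crest.Agent.R69
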