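import Mathlib

/-! Joint eigenvectors of a commuting, adjoint-closed family of compact operators (helper72). -/

set_option autoImplicit false
open scoped InnerProductSpace

namespace Crest.Agent.R69

/-- A commuting family on a nonzero finite-dimensional invariant subspace has a common
eigenvector. -/
theorem exists_common_eig {H : Type*} [AddCommGroup H] [Module ℂ H] {ι : Type*}
    (B : ι → H →ₗ[ℂ] H) (n : ℕ) : ∀ (V : Submodule ℂ H) [FiniteDimensional ℂ V],
    Module.finrank ℂ V = n → V ≠ ⊥ → (∀ i, ∀ w ∈ V, B i w ∈ V) →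
    (∀ i j, ∀ w ∈ V, B i (B j w) = B j (B i w)) →
    ∃ χ ∈ V, χ ≠ 0 ∧ ∀ i, ∃ c : ℂ, B i χ = c • χ := by
  induction n using Nat.strong_induction_on with
  | _ n ih =>
    intro V _ hn hV hinv hcomm
    by_cases hall : ∀ i, ∃ c : ℂ, ∀ w ∈ V, B i w = c • w
    · obtain ⟨χ, hχ, h0⟩ := (Submodule.ne_bot_iff V).1 hV
      exact ⟨χ, hχ, h0, fun i => (hall i).imp fun c hc => hc χ hχ⟩
    · push Not at hall
      obtain ⟨i, hi⟩ := hall
      have : Nontrivial V := Submodule.nontrivial_iff_ne_bot.2 hV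
      obtain ⟨c, hc⟩ := Module.End.exists_eigenvalue ((B i).restrict (hinv i))
      obtain ⟨v, hv⟩ := hc.exists_hasEigenvector
      let V' : Submodule ℂ H := V ⊓ Module.End.eigenspace (B i) c
      have hmem : ∀ w, w ∈ V' ↔ w ∈ V ∧ B i w = c • w := fun w => by
        simp [V']
      have hle : V' ≤ V := inf_le_left
      have : FiniteDimensional ℂ V' := Submodule.finiteDimensional_of_le hle
      have hlt : V' < V := by
        refine lt_of_le_of_ne hle fun h => ?_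
        obtain ⟨w, hw, hw'⟩ := hi c
        exact hw' ((hmem w).1 (h ▸ hw)).2
      have hv' : (v : H) ∈ V' := (hmem v).2 ⟨v.2, by
        have := congrArg Subtype.val hv.apply_eq_smul
        simpa using this⟩
      obtain ⟨χ, hχ, h0, h1⟩ := ih _ (hn ▸ Submodule.finrank_lt_finrank_of_lt hlt) V' rfl
        ((Submodule.ne_bot_iff _).2 ⟨v, hv', fun h => hv.2 (Subtype.ext h)⟩)
        (fun k w hw => by
          obtain ⟨h1, h2⟩ := (hmem w).1 hw
          refine (hmem _).2 ⟨hinv k w h1, ?_⟩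
          rw [hcomm i k w h1, h2, map_smul])
        (fun k l w hw => hcomm k l w (hle hw))
      exact ⟨χ, hle hχ, h0, h1⟩

variable {H : Type*} [NormedAddCommGroup H] [InnerProductSpace ℂ H] [CompleteSpace H]

/-- A compact operator that is symmetric on a closed invariant subspace `U` and does not vanish
there has a nonzero eigenvalue with an eigenvector in `U`. -/
theorem exists_eig_ne_zero (T : H →L[ℂ] H) (hT : IsCompactOperator T) (U : Submodule ℂ H)
    (hU : IsClosed (U : Set H)) (hinv : ∀ w ∈ U, T w ∈ U)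
    (hs : ∀ w ∈ U, ∀ w' ∈ U, ⟪T w, w'⟫_ℂ = ⟪w, T w'⟫_ℂ) (hne : ∃ w ∈ U, T w ≠ 0) :
    ∃ μ : ℂ, μ ≠ 0 ∧ ∃ v ∈ U, v ≠ 0 ∧ T v = μ • v := by
  have : CompleteSpace U := hU.completeSpace_coe
  let T' : U →L[ℂ] U := (T.comp U.subtypeL).codRestrict U fun w => hinv w w.2
  have hT' : IsCompactOperator T' :=
    (hT.comp_clm U.subtypeL).codRestrict (fun w => hinv w w.2) hU
  have hs' : (T' : U →ₗ[ℂ] U).IsSymmetric := fun a b => hs a a.2 b b.2
  by_contra hcon
  push Not at hcon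
  have h0 : T' = 0 := (ContinuousLinearMap.eq_zero_of_forall_hasEigenvalue_eq_zero hT' hs').1 (by
    intro μ hμ
    by_contra hμ0
    obtain ⟨v, hv⟩ := hμ.exists_hasEigenvector
    exact hcon μ hμ0 v v.2 (fun h => hv.2 (Subtype.ext h))
      (congrArg Subtype.val hv.apply_eq_smul))
  obtain ⟨w, hw, hw'⟩ := hne
  have h1 : T' ⟨w, hw⟩ = 0 := by rw [h0]; rfl
  exact hw' (congrArg Subtype.val h1)

/-- A nonzero closed invariant subspace contains a joint eigenvector. -/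
theorem exists_joint_eig {ι : Type*} (B : ι → H →L[ℂ] H) (U : Submodule ℂ H)
    (hU : IsClosed (U : Set H)) (hinv : ∀ i, ∀ w ∈ U, B i w ∈ U)
    (hc : ∀ i, IsCompactOperator (B i))
    (hstar : ∀ i, ∃ j, ∀ w ∈ U, ∀ w' ∈ U, ⟪B i w, w'⟫_ℂ = ⟪w, B j w'⟫_ℂ)
    (hcomm : ∀ i j, ∀ w ∈ U, B i (B j w) = B j (B i w)) (hne : U ≠ ⊥) :
    ∃ χ ∈ U, χ ≠ 0 ∧ ∀ i, ∃ c : ℂ, B i χ = c • χ := by
  by_cases hall : ∀ i, ∀ w ∈ U, B i w = 0
  · obtain ⟨χ, hχ, h0⟩ := (Submodule.ne_bot_iff U).1 hne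
    exact ⟨χ, hχ, h0, fun i => ⟨0, by rw [hall i χ hχ, zero_smul]⟩⟩
  push Not at hall
  obtain ⟨i, w0, hw0, hw0'⟩ := hall
  obtain ⟨j, hj⟩ := hstar i
  let T : H →L[ℂ] H := (B j).comp (B i)
  have hTc : IsCompactOperator T := (hc j).comp_clm (B i)
  have hj' : ∀ w ∈ U, ∀ w' ∈ U, ⟪B j w, w'⟫_ℂ = ⟪w, B i w'⟫_ℂ := by
    intro w hw w' hw'
    rw [← inner_conj_symm, ← hj w' hw' w hw, inner_conj_symm]
  obtain ⟨μ, hμ, v, hv, hv0, hvT⟩ := exists_eig_ne_zero T hTc U hU
    (fun w hw => hinv j _ (hinv i w hw))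
    (fun w hw w' hw' => by
      show ⟪B j (B i w), w'⟫_ℂ = ⟪w, B j (B i w')⟫_ℂ
      rw [hj' _ (hinv i w hw) w' hw', hj w hw _ (hinv i w' hw')])
    ⟨w0, hw0, fun h => hw0' (by
      have h1 := hj w0 hw0 _ (hinv i w0 hw0)
      have h2 : B j (B i w0) = 0 := h
      rw [h2, inner_zero_right] at h1
      exact inner_self_eq_zero.1 h1)⟩
  let V : Submodule ℂ H := U ⊓ Module.End.eigenspace (T : H →ₗ[ℂ] H) μ
  have hmem : ∀ w, w ∈ V ↔ w ∈ U ∧ T w = μ • w := fun w => by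
    simp [V]
  have := ContinuousLinearMap.finite_dimensional_eigenspace hTc μ hμ
  have : FiniteDimensional ℂ V := Submodule.finiteDimensional_of_le inf_le_right
  obtain ⟨χ, hχ, h0, h1⟩ := exists_common_eig (fun k => (B k : H →ₗ[ℂ] H)) _ V rfl
    ((Submodule.ne_bot_iff _).2 ⟨v, (hmem v).2 ⟨hv, hvT⟩, hv0⟩)
    (fun k w hw => by
      obtain ⟨h1, h2⟩ := (hmem w).1 hw
      refine (hmem _).2 ⟨hinv k w h1, ?_⟩
      show B j (B i (B k w)) = μ • B k w
      have h3 : B j (B i w) = μ • w := h2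
      rw [hcomm i k w h1, hcomm j k _ (hinv i w h1), h3, map_smul])
    (fun k l w hw => hcomm k l w ((hmem w).1 hw).1)
  exact ⟨χ, ((hmem χ).1 hχ).1, h0, h1⟩

/-- Joint eigenvectors span a closed invariant subspace. -/
theorem joint_eig {ι : Type*} (B : ι → H →L[ℂ] H) (W : Submodule ℂ H)
    (hW : IsClosed (W : Set H)) (hinv : ∀ i, ∀ w ∈ W, B i w ∈ W)
    (hc : ∀ i, IsCompactOperator (B i))
    (hstar : ∀ i, ∃ j, ∀ w ∈ W, ∀ w' ∈ W, ⟪B i w, w'⟫_ℂ = ⟪w, B j w'⟫_ℂ)
    (hcomm : ∀ i j, ∀ w ∈ W, B i (B j w) = B j (B i w)) :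
    W ≤ (Submodule.span ℂ {χ | χ ∈ W ∧ ∀ i, ∃ c : ℂ, B i χ = c • χ}).topologicalClosure := by
  set E0 := Submodule.span ℂ {χ | χ ∈ W ∧ ∀ i, ∃ c : ℂ, B i χ = c • χ} with hE0
  have hEW : E0.topologicalClosure ≤ W :=
    Submodule.topologicalClosure_minimal _ (Submodule.span_le.2 fun χ hχ => hχ.1) hW
  let U : Submodule ℂ H := W ⊓ E0ᗮ
  have hU : U = ⊥ := by
    by_contra hne
    have hUc : IsClosed (U : Set H) := hW.inter E0.isClosed_orthogonal
    obtain ⟨χ, hχ, h0, h1⟩ := exists_joint_eig B U hUc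
      (fun i w hw => ⟨hinv i w hw.1, by
        obtain ⟨j, hj⟩ := hstar i
        have hw2 : w ∈ E0ᗮ := hw.2
        show B i w ∈ E0ᗮ
        rw [Submodule.mem_orthogonal'] at hw2 ⊢
        intro u hu
        induction hu using Submodule.span_induction with
        | mem x hx =>
          obtain ⟨c, hc⟩ := hx.2 j
          rw [hj w hw.1 x hx.1, hc, inner_smul_right, hw2 x (Submodule.subset_span hx), mul_zero]
        | zero => simp
        | add x y _ _ hx hy => rw [inner_add_right, hx, hy, add_zero]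
        | smul a x _ hx => rw [inner_smul_right, hx, mul_zero]⟩)
      hc (fun i => (hstar i).imp fun j hj w hw w' hw' => hj w hw.1 w' hw'.1)
      (fun i j w hw => hcomm i j w hw.1) hne
    have h2 : χ ∈ E0ᗮ := hχ.2
    exact h0 (inner_self_eq_zero.1 ((Submodule.mem_orthogonal _ _).1 h2 χ
      (Submodule.subset_span ⟨hχ.1, h1⟩)))
  intro w hw
  have : CompleteSpace E0.topologicalClosure :=
    E0.isClosed_topologicalClosure.completeSpace_coe
  obtain ⟨a, ha, b, hb, rfl⟩ := E0.topologicalClosure.exists_add_mem_mem_orthogonal w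
  have hbU : b ∈ U := ⟨by simpa using W.sub_mem hw (hEW ha),
    Submodule.orthogonal_le E0.le_topologicalClosure hb⟩
  rw [hU, Submodule.mem_bot] at hbU
  rw [hbU, add_zero]
  exact ha

end Crest.Agent.R69
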