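import Crest.Agent.R69.B5

/-! # Row 69: limits I -/

set_option autoImplicit false
set_option linter.unusedVariables false
set_option linter.unusedSectionVars false

open MeasureTheory ProbabilityTheory Filter Topology Set

noncomputable section

namespace Crest.Agent.R69

variable {P : Pat} {s s' : Sys}

theorem l1a_real (S : Seeds P s) {F : Om (LI S) → ℝ} (hF : Continuous F) :
    Tendsto (fun n => ∫ x, F (evM S n x) ∂s.μ) P.p (𝓝 (∫ z, F z ∂(Lim S).μ)) := by
  have h := ProbabilityMeasure.tendsto_iff_forall_integral_tendsto.1 (tendsto_lawN S)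
    (BoundedContinuousFunction.mkOfCompact ⟨F, hF⟩)
  refine h.congr fun n => ?_
  exact integral_map (measurable_evM S n).aemeasurable hF.aestronglyMeasurable

theorem l1a_integrable {E : Type} [NormedAddCommGroup E] [SecondCountableTopology E]
    {J : Type} [Countable J]
    {α : Type} [MeasurableSpace α] (μ : Measure α) [IsFiniteMeasure μ] {F : Om J → E}
    (hF : Continuous F) {e : α → Om J} (he : Measurable e) : Integrable (fun x => F (e x)) μ := by
  have h : Integrable F (μ.map e) := Integrable.of_bound hF.aestronglyMeasurable _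
    (Eventually.of_forall (BoundedContinuousFunction.mkOfCompact ⟨F, hF⟩).norm_coe_le_norm)
  exact h.comp_measurable he

theorem l1a_vec {E : Type} [NormedAddCommGroup E] [NormedSpace ℝ E] [CompleteSpace E]
    [FiniteDimensional ℝ E] (S : Seeds P s) {F : Om (LI S) → E} (hF : Continuous F) :
    Tendsto (fun n => ∫ x, F (evM S n x) ∂s.μ) P.p (𝓝 (∫ z, F z ∂(Lim S).μ)) := by
  let e := (Module.finBasis ℝ E).equivFunL
  rw [e.toHomeomorph.isInducing.tendsto_nhds_iff, tendsto_pi_nhds]
  intro i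
  let L : E →L[ℝ] ℝ := (ContinuousLinearMap.proj (R := ℝ) (φ := fun _ => ℝ) i).comp
    (e : E →L[ℝ] (Fin (Module.finrank ℝ E) → ℝ))
  have h := l1a_real S (F := fun z => L (F z)) (L.continuous.comp hF)
  have hi : Integrable F (Lim S).μ := l1a_integrable (Lim S).μ hF measurable_id
  rw [L.integral_comp_comm hi] at h
  refine h.congr fun n => ?_
  exact L.integral_comp_comm (l1a_integrable s.μ hF (measurable_evM S n))

theorem l1a_err {𝕜 E : Type} [RCLike 𝕜] [NormedAddCommGroup E] [NormedSpace ℝ E]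
    [NormedSpace 𝕜 E] {α β : Type} [MeasurableSpace α] [MeasurableSpace β] {ν : Measure α}
    {μ : Measure β} {π : α → β} (hπ : MeasurePreserving π ν μ) {Φ : α → 𝕜} (hΦ : Measurable Φ)
    {D : ℝ} (hD : ∀ z, ‖Φ z‖ ≤ D) (hD0 : 0 ≤ D) {F G : β → E} (hF : Integrable F μ)
    (hG : Integrable G μ) :
    ‖∫ z, Φ z • F (π z) ∂ν - ∫ z, Φ z • G (π z) ∂ν‖ ≤ D * ∫ x, ‖F x - G x‖ ∂μ := by
  have hi : ∀ {H : β → E}, Integrable H μ → Integrable (fun z => Φ z • H (π z)) ν := fun hH =>
    Integrable.bdd_smul (hπ.integrable_comp_of_integrable hH) D hΦ.aestronglyMeasurable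
      (Eventually.of_forall hD)
  have hn : Integrable (fun z => ‖F (π z) - G (π z)‖) ν :=
    hπ.integrable_comp_of_integrable (hF.sub hG).norm
  have e : ∫ x, ‖F x - G x‖ ∂μ = ∫ z, ‖F (π z) - G (π z)‖ ∂ν := by
    rw [← hπ.map_eq]
    exact integral_map hπ.measurable.aemeasurable
      (by rw [hπ.map_eq]; exact (hF.sub hG).norm.aestronglyMeasurable)
  rw [← integral_sub (hi hF) (hi hG), e, ← integral_const_mul]
  refine norm_integral_le_of_norm_le (hn.const_mul D) (Eventually.of_forall fun z => ?_)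
  rw [← smul_sub, norm_smul]
  exact mul_le_mul_of_nonneg_right (hD z) (norm_nonneg _)

/-- from continuous to integrable functions of one column -/
theorem l1a_approx {𝕜 E : Type} [RCLike 𝕜] [NormedAddCommGroup E] [NormedSpace ℝ E]
    [NormedSpace 𝕜 E] [SecondCountableTopology E] (S : Seeds P s) (j : P.Col)
    {Φ : Om (LI S) → 𝕜} (hΦ : Measurable Φ) {D : ℝ} (hD : ∀ z, ‖Φ z‖ ≤ D) (hD0 : 0 ≤ D)
    (hc : ∀ G : Om s.I → E, Continuous G →
      Tendsto (fun n => ∫ x, Φ (evM S n x) • G (s.sh (P.pos j n) x) ∂s.μ) P.p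
        (𝓝 (∫ z, Φ z • G (pull (col S j).ι z) ∂(Lim S).μ)))
    {F : Om s.I → E} (hF : Integrable F s.μ) :
    Tendsto (fun n => ∫ x, Φ (evM S n x) • F (s.sh (P.pos j n) x) ∂s.μ) P.p
      (𝓝 (∫ z, Φ z • F (pull (col S j).ι z) ∂(Lim S).μ)) := by
  rw [Metric.tendsto_nhds]
  intro ε hε
  have hη : 0 < ε / (3 * (D + 1)) := by positivity
  obtain ⟨G, hG1, hG2⟩ := hF.exists_boundedContinuous_integral_sub_le hη
  have hb : D * ∫ x, ‖F x - G x‖ ∂s.μ ≤ ε / 3 := by
    calc D * ∫ x, ‖F x - G x‖ ∂s.μ ≤ (D + 1) * (ε / (3 * (D + 1))) :=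
          mul_le_mul (by linarith) hG1 (integral_nonneg fun _ => norm_nonneg _) (by linarith)
      _ = ε / 3 := by field_simp
  have mp0 : MeasurePreserving (pull (col S j).ι) (Lim S).μ s.μ :=
    ⟨measurable_pull _, (col S j).law⟩
  have e0 := (l1a_err mp0 hΦ hD hD0 hF hG2).trans hb
  filter_upwards [Metric.tendsto_nhds.1 (hc G G.continuous) (ε / 3) (by positivity)] with n hn
  have mpn : MeasurePreserving (s.sh (P.pos j n)) s.μ s.μ := ⟨measurable_sh s _, s.map_sh _⟩
  have en := (l1a_err mpn (hΦ.comp (measurable_evM S n)) (fun x => hD _) hD0 hF hG2).trans hb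
  rw [← dist_eq_norm] at e0 en
  simp only [Function.comp] at en
  have t := dist_triangle4 (∫ x, Φ (evM S n x) • F (s.sh (P.pos j n) x) ∂s.μ)
    (∫ x, Φ (evM S n x) • G (s.sh (P.pos j n) x) ∂s.μ)
    (∫ z, Φ z • G (pull (col S j).ι z) ∂(Lim S).μ) (∫ z, Φ z • F (pull (col S j).ι z) ∂(Lim S).μ)
  rw [dist_comm] at e0
  linarith

theorem lim_cont (S : Seeds P s) {F : Om (LI S) → ℂ} (hF : Continuous F) :
    Tendsto (fun n => ∫ x, F (evM S n x) ∂s.μ) P.p (𝓝 (∫ z, F z ∂(Lim S).μ)) := l1a_vec S hF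

theorem lim_mon (S : Seeds P s) (m : Multiset (LI S)) :
    Tendsto (fun n => ∫ x, mon m (evM S n x) ∂s.μ) P.p (𝓝 (∫ z, mon m z ∂(Lim S).μ)) :=
  l1a_real S (continuous_mon m)

theorem l1a_ext (S : Seeds P s) (m : Multiset (LI S)) (J : Finset P.Col) :
    ∀ g : P.Col → Om s.I → ℂ, (∀ j, Measurable (g j)) → (∃ D : ℝ, ∀ j x, ‖g j x‖ ≤ D) →
      (∀ j, j ∉ J → Continuous (g j)) →
      Tendsto (fun n => ∫ x, mon m (evM S n x) • ∏ j, g j (s.sh (P.pos j n) x) ∂s.μ) P.p
        (𝓝 (∫ z, mon m z • ∏ j, g j (pull (col S j).ι z) ∂(Lim S).μ)) := by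
  induction J using Finset.induction_on with
  | empty =>
    intro g _ _ hc
    exact l1a_vec S (F := fun z => mon m z • ∏ j, g j (pull (col S j).ι z))
      ((continuous_mon m).smul (continuous_finsetProd _ fun j _ =>
        (hc j (Finset.notMem_empty j)).comp (continuous_pull _)))
  | insert j0 J hj0 ih =>
    intro g hg hb hc
    obtain ⟨D, hD⟩ := hb
    let Φ : Om (LI S) → ℂ := fun z =>
      mon m z • ∏ j ∈ Finset.univ.erase j0, g j (pull (col S j).ι z)
    have hΦ : Measurable Φ := (measurable_mon m).smul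
      (Finset.measurable_prod _ fun j _ => (hg j).comp (measurable_pull _))
    have hΦb : ∀ z, ‖Φ z‖ ≤ ∏ _j ∈ Finset.univ.erase j0, max D 0 := fun z => by
      rw [norm_smul, norm_prod]
      refine (mul_le_of_le_one_left (Finset.prod_nonneg fun _ _ => norm_nonneg _)
        (abs_mon_le m z)).trans ?_
      exact Finset.prod_le_prod (fun _ _ => norm_nonneg _) fun j _ => (hD j _).trans (le_max_left _ _)
    have key : ∀ (G : Om s.I → ℂ) (z : Om (LI S)),
        mon m z • ∏ j, Function.update g j0 G j (pull (col S j).ι z) =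
          Φ z • G (pull (col S j0).ι z) := fun G z => by
      rw [← Finset.prod_erase_mul _ _ (Finset.mem_univ j0), Function.update_self, smul_eq_mul,
        smul_mul_assoc]
      congr 2
      exact Finset.prod_congr rfl fun j hj => by
        rw [Function.update_of_ne (Finset.ne_of_mem_erase hj)]
    have hint : Integrable (g j0) s.μ :=
      Integrable.of_bound (hg j0).aestronglyMeasurable D (Eventually.of_forall (hD j0))
    have H := l1a_approx S j0 hΦ hΦb (Finset.prod_nonneg fun _ _ => le_max_right _ _)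
      (fun G hG => ?_) hint
    · have k := key (g j0)
      rw [Function.update_eq_self] at k
      rw [← integral_congr_ae (Eventually.of_forall k)] at H
      exact H.congr fun n => integral_congr_ae (Eventually.of_forall fun x => (k (evM S n x)).symm)
    · have h := ih (Function.update g j0 G) (fun j => ?_)
        ⟨max D ‖BoundedContinuousFunction.mkOfCompact ⟨G, hG⟩‖, fun j x => ?_⟩ (fun j hj => ?_)
      · rw [integral_congr_ae (Eventually.of_forall (key G))] at h
        exact h.congr fun n => integral_congr_ae (Eventually.of_forall fun x => key G (evM S n x))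
      · rcases eq_or_ne j j0 with rfl | hne
        · rw [Function.update_self]; exact hG.measurable
        · rw [Function.update_of_ne hne]; exact hg j
      · rcases eq_or_ne j j0 with rfl | hne
        · rw [Function.update_self]
          exact ((BoundedContinuousFunction.mkOfCompact ⟨G, hG⟩).norm_coe_le_norm x).trans
            (le_max_right _ _)
        · rw [Function.update_of_ne hne]; exact (hD j x).trans (le_max_left _ _)
      · rcases eq_or_ne j j0 with rfl | hne
        · rw [Function.update_self]; exact hG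
        · rw [Function.update_of_ne hne]
          exact hc j fun h' => (Finset.mem_insert.1 h').elim hne hj

/-- bounded measurable functions of the columns times a monomial -/
theorem lim_ext (S : Seeds P s) (g : P.Col → Om s.I → ℂ) (hg : ∀ j, Measurable (g j))
    (hb : ∃ D : ℝ, ∀ j x, ‖g j x‖ ≤ D) (m : Multiset (LI S)) :
    Tendsto (fun n => ∫ x, mon m (evM S n x) • ∏ j, g j (s.sh (P.pos j n) x) ∂s.μ) P.p
      (𝓝 (∫ z, mon m z • ∏ j, g j (pull (col S j).ι z) ∂(Lim S).μ)) :=
  l1a_ext S m Finset.univ g hg hb fun j hj => absurd (Finset.mem_univ j) hj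

/-- one integrable function of one column times a monomial -/
theorem lim_ext1 {E : Type} [NormedAddCommGroup E] [NormedSpace ℝ E] [CompleteSpace E]
    [FiniteDimensional ℝ E] (S : Seeds P s) (j : P.Col) {F : Om s.I → E} (hF : Integrable F s.μ)
    (m : Multiset (LI S)) :
    Tendsto (fun n => ∫ x, mon m (evM S n x) • F (s.sh (P.pos j n) x) ∂s.μ) P.p
      (𝓝 (∫ z, mon m z • F (pull (col S j).ι z) ∂(Lim S).μ)) :=
  l1a_approx (𝕜 := ℝ) S j (measurable_mon m) (abs_mon_le m) zero_le_one
    (fun G hG => l1a_vec S (F := fun z => mon m z • G (pull (col S j).ι z))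
      ((continuous_mon m).smul (hG.comp (continuous_pull _)))) hF

theorem measurable_mon_evM (S : Seeds P s) {B : Set s.I} {m : Multiset (LI S)}
    (hm : InB m (up S B)) (n : P.N) : Measurable[sg B] fun x => mon m (evM S n x) := by
  letI : MeasurableSpace (Om s.I) := sg B
  have h := Multiset.measurable_fun_prod (m.map fun a x => ((ev S a n x : K) : ℝ)) fun f hf => by
    obtain ⟨a, ha, rfl⟩ := Multiset.mem_map.1 hf
    exact measurable_subtype_coe.comp (hm a ha n)
  simp only [Multiset.map_map] at h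
  exact h

theorem up_inv (S : Seeds P s) {B : Set s.I} (hB : s.Inv B) : (Lim S).Inv (up S B) := by
  intro i
  have e : ∀ n, ev S (limτ S i) n = ev S i n ∘ s.sh 1 := fun n => funext fun x =>
    congrFun (congrFun (pull_limτ_evM S n) x) i
  have e' : ∀ n, ev S i n = ev S (limτ S i) n ∘ s.sh (-1) := fun n => by
    rw [e]
    funext x
    simp only [Function.comp, s.sh_add, neg_add_cancel, s.sh_zero]
  refine ⟨fun h n => ?_, fun h n => ?_⟩
  · rw [e']
    exact (h n).comp (Sys.measurable_sh_sg hB _)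
  · show Measurable[sg B] (ev S (limτ S i) n)
    rw [e]
    exact (h n).comp (Sys.measurable_sh_sg hB _)

theorem up_mono (S : Seeds P s) {B B' : Set s.I} (h : B ⊆ B') : up S B ⊆ up S B' := by
  exact fun i hi n => (hi n).mono (sg_mono h) le_rfl

theorem up_univ (S : Seeds P s) : up S univ = univ := by
  refine eq_univ_of_forall fun i n => ?_
  rw [sg_univ]
  exact (measurable_pi_apply i).comp (measurable_evM S n)

theorem colS_inv (S : Seeds P s) (J : Set P.Col) {B : Set s.I} (hB : s.Inv B) :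
    (Lim S).Inv (colS S J B) := by
  rintro (⟨j, a⟩ | ⟨t, σ⟩)
  · constructor
    · rintro ⟨j', hj, a', ha, e⟩
      obtain ⟨rfl, rfl⟩ : j = j' ∧ s.τ a = a' := Prod.mk.inj (Sum.inl.inj e)
      exact ⟨j, hj, a, (hB a).1 ha, rfl⟩
    · rintro ⟨j', hj, a', ha, e⟩
      obtain ⟨rfl, rfl⟩ : j = j' ∧ a = a' := Prod.mk.inj (Sum.inl.inj e)
      exact ⟨j, hj, s.τ a, (hB a).2 ha, rfl⟩
  · constructor <;> rintro ⟨_, _, _, _, e⟩ <;> cases e

theorem colS_mono (S : Seeds P s) {J J' : Set P.Col} {B B' : Set s.I} (hJ : J ⊆ J') (h : B ⊆ B') :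
    colS S J B ⊆ colS S J' B' := by
  rintro _ ⟨j, hj, a, ha, rfl⟩
  exact ⟨j, hJ hj, a, h ha, rfl⟩

theorem colS_single (S : Seeds P s) (j : P.Col) (B : Set s.I) :
    colS S {j} B = (col S j).ι '' B := by
  ext i
  constructor
  · rintro ⟨_, rfl, a, ha, rfl⟩
    exact ⟨a, ha, rfl⟩
  · rintro ⟨a, ha, rfl⟩
    exact ⟨j, rfl, a, ha, rfl⟩

theorem colS_subset_up (S : Seeds P s) (J : Set P.Col) {B : Set s.I} (hB : s.Inv B) :
    colS S J B ⊆ up S B := by
  rintro _ ⟨j, -, a, ha, rfl⟩
  exact col_mem_up S hB j ha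

theorem Lift.image_colS {h : Hom s s'} {S : Seeds P s} {S' : Seeds P s'} (L : Lift h S S')
    (J : Set P.Col) (B : Set s.I) : L.lf '' colS S J B = colS S' J (h.ι '' B) := by
  ext i
  constructor
  · rintro ⟨_, ⟨j, hj, a, ha, rfl⟩, rfl⟩
    exact ⟨j, hj, _, ⟨a, ha, rfl⟩, L.col j a⟩
  · rintro ⟨j, hj, _, ⟨a, ha, rfl⟩, rfl⟩
    exact ⟨_, ⟨j, hj, a, ha, rfl⟩, L.col j a⟩

theorem Lift.range_subset_up {h : Hom s s'} {S : Seeds P s} {S' : Seeds P s'} (L : Lift h S S') :
    range L.lf ⊆ up S' (range h.ι) := by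
  rintro _ ⟨i, rfl⟩
  exact L.mem_up (B := univ) (image_subset_range _ _) (by rw [up_univ]; trivial)

theorem Lift.law {h : Hom s s'} {S : Seeds P s} {S' : Seeds P s'} (L : Lift h S S') :
    (Lim S').μ.map (pull L.lf) = (Lim S).μ := by
  refine limP_map S' _ (lawN S) (limP S) (fun n => ?_) (tendsto_lawN S)
  have e : pull L.lf ∘ evM S' n = evM S n ∘ pull h.ι := funext fun x => funext fun i =>
    L.ev_eq i n x
  rw [Measure.map_map (measurable_pull _) (measurable_evM S' n), e,
    ← Measure.map_map (measurable_evM S n) (measurable_pull _), h.law]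
  rfl

theorem exists_lift (h : Hom s s') (S : Seeds P s) : ∃ S' : Seeds P s', Nonempty (Lift h S S') := by
  exact ⟨S.two fun _ => h, ⟨S.lf2 (fun _ => h) false⟩⟩

/-- two families of seeds are contained in a third one -/
theorem exists_lift_sup {J : Type} [Countable J] (S : J → Seeds P s) :
    ∃ S' : Seeds P s, ∀ j, Nonempty (Lift (Hom.refl s) (S j) S') := by
  refine ⟨⟨Σ j, (S j).S, inferInstance, fun q => (S q.1).ξ q.2, fun q => (S q.1).meas q.2⟩,
    fun j => ⟨⟨Sum.map id fun q => (q.1, ⟨j, q.2⟩), fun _ _ => rfl, fun i n x => ?_⟩⟩⟩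
  rcases i with ⟨k, a⟩ | ⟨t, σ⟩ <;> rfl

def Lift.trans {s'' : Sys} {h : Hom s s'} {g : Hom s' s''} {S : Seeds P s} {S' : Seeds P s'}
    {S'' : Seeds P s''} (L : Lift h S S') (L' : Lift g S' S'') : Lift (h.trans g) S S'' where
  lf := L'.lf ∘ L.lf
  col j a := by simp [L.col, L'.col, Hom.trans]
  ev_eq i n x := by simp only [Function.comp, L'.ev_eq, L.ev_eq]; rfl

end Crest.Agent.R69
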