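import Crest.Agent.R69.MaxB

/-! # Row 69: the minimal counterexample -/

set_option autoImplicit false
set_option linter.unusedVariables false
set_option linter.unusedSectionVars false

open MeasureTheory ProbabilityTheory Filter Topology Set

noncomputable section

namespace Crest.Agent.R69

/-- restriction of the pattern to the columns that matter -/
theorem dep_restrict (P : Pat) (s : Sys) (X Y : Set s.I) (S : Seeds P s) (j : P.Col)
    (J : Finset P.Col) (hj : j ∉ J)
    (hd : ¬ Ind (Lim S).μ (colS S {j} X) (colS S J univ ∪ up S Y)) :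
    ∃ (P' : Pat) (S' : Seeds P' s) (r : P'.Col), Fintype.card P'.Col = J.card + 1 ∧
      ¬ Ind (Lim S').μ (colS S' {r} X) (colS S' {r}ᶜ univ ∪ up S' Y) := by
  let r : (P.sub (insert j J)).Col := ⟨j, Finset.mem_insert_self _ _⟩
  refine ⟨P.sub (insert j J), S.sub (insert j J), r, ?_, fun i1 => hd ?_⟩
  · show Fintype.card (insert j J : Finset P.Col) = _
    rw [Fintype.card_coe, Finset.card_insert_of_notMem hj]
  rw [← S.law_subι (insert j J), ← ind_pull]
  refine i1.mono ?_ ?_
  · rintro _ ⟨_, ⟨i, rfl, a, ha, rfl⟩, rfl⟩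
    exact ⟨r, rfl, a, ha, by simp [Seeds.subι, r]⟩
  · rintro _ ⟨q, ⟨i, hi, a, -, rfl⟩ | hq, rfl⟩
    · have hi' : i ∈ J := hi
      refine Or.inl ⟨⟨i, Finset.mem_insert_of_mem hi'⟩, fun e => hj ?_, a, trivial,
        by simp [Seeds.subι, hi']⟩
      have e' : i = j := congrArg Subtype.val e
      exact e' ▸ hi'
    · refine Or.inr fun n => ?_
      rw [S.ev_subι]
      exact hq n

theorem prod_of_minInd (h : ∀ l, MinInd l) {P : Pat} {s : Sys} (S : Seeds P s) (mix : s.Mix univ)
    (m : P.Col → Multiset s.I) (t : Finset P.Col) :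
    ∫ z, ∏ j ∈ t, mon (m j) (pull (col S j).ι z) ∂(Lim S).μ = ∏ j ∈ t, ∫ x, mon (m j) x ∂s.μ := by
  induction t using Finset.induction_on with
  | empty => simp
  | insert j t hj ih =>
    have hI := h (t.card + 2) P s univ ∅ S j t s.inv_univ s.inv_empty mix ind_empty hj
      le_rfl ((m j).map (col S j).ι) (∑ i ∈ t, (m i).map (col S i).ι)
      (fun q hq => by
        obtain ⟨a, -, rfl⟩ := Multiset.mem_map.1 hq
        exact ⟨j, rfl, a, trivial, rfl⟩)
      (fun q hq => by
        obtain ⟨i, hi, hq⟩ := Multiset.mem_sum.1 hq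
        obtain ⟨a, -, rfl⟩ := Multiset.mem_map.1 hq
        exact Or.inl ⟨i, hi, a, trivial, rfl⟩)
    simp only [mon_sum, mon_map] at hI
    simp only [Finset.prod_insert hj]
    rw [hI, ih, (col S j).integral_pull _ (measurable_mon _)]

theorem exists_ctx (P : Pat) (s : Sys) (S : Seeds P s) (mix : s.Mix univ)
    (hnp : ¬ ∀ m : P.Col → Multiset s.I,
      ∫ z, ∏ j, mon (m j) (pull (col S j).ι z) ∂(Lim S).μ = ∏ j, ∫ x, mon (m j) x ∂s.μ) :
    Nonempty Ctx :=
  exists_ctx' fun h => hnp fun m => prod_of_minInd h S mix m Finset.univ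

end Crest.Agent.R69
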