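import Crest.Agent.R69.GA1
import Crest.Agent.R69.GA2
import Crest.Agent.R69.GB1
import Crest.Agent.R69.GB2
import Crest.Agent.R69.Core
import Crest.Agent.R69.MaxC
import Crest.Agent.R69.MaxD

/-! # Row 69: no counterexample -/

set_option autoImplicit false
set_option linter.unusedVariables false
set_option linter.unusedSectionVars false

open MeasureTheory ProbabilityTheory Filter Topology Set

noncomputable section

namespace Crest.Agent.R69

theorem ctx_false (c : Ctx) : False := by
  obtain ⟨d⟩ := exists_D c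
  obtain ⟨e⟩ := exists_E c
  obtain ⟨l⟩ := dl1 c d (b1 c e)
  obtain ⟨B⟩ := dl2 c d l
  exact core_false
    { P := c.P, s := c.s, X := c.X, Y := c.Y, invX := c.sat.invX, invY := c.sat.invY,
      ind := c.sat.ind, mix := c.mix, r := c.r, N := B.N, ψ := B.ψ, lbl := B.lbl, ne := B.ne,
      mean := B.mean, b := B.b, bm := B.bm, bu := B.bu, lab := B.lab, lk := dl3 c d B,
      orth := b2 c e B, d4 := d4 c B }

/-- multiple mixing in the model -/
theorem lim_prod (P : Pat) (s : Sys) (S : Seeds P s) (mix : s.Mix univ)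
    (m : P.Col → Multiset s.I) :
    ∫ z, ∏ j, mon (m j) (pull (col S j).ι z) ∂(Lim S).μ = ∏ j, ∫ x, mon (m j) x ∂s.μ := by
  by_contra h
  obtain ⟨c⟩ := exists_ctx P s S mix fun h' => h (h' m)
  exact ctx_false c

theorem multi_mix (P : Pat) (s : Sys) (mix : s.Mix univ) (m : P.Col → Multiset s.I) :
    Tendsto (fun n => ∫ x, ∏ j, mon (m j) (s.sh (P.pos j n) x) ∂s.μ) P.p
      (𝓝 (∏ j, ∫ x, mon (m j) x ∂s.μ)) := by
  let S : Seeds P s := ⟨Empty, inferInstance, fun σ => σ.elim, fun σ => σ.elim⟩
  rw [← lim_prod P s S mix m]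
  have := lim_mon S (∑ j, (m j).map (col S j).ι)
  simp only [mon_sum, mon_map] at this
  exact this

end Crest.Agent.R69
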