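import Crest.Agent.R69.MaxL

/-! # Row 69: maximal extensions (owner helper99) -/

set_option autoImplicit false
set_option linter.unusedVariables false
set_option linter.unusedSectionVars false

open MeasureTheory ProbabilityTheory Filter Topology Set

noncomputable section

namespace Crest.Agent.R69

section
variable {s₀ : Sys} {Q : Spec s₀} {T : Type}
  (e : ∀ σ : St Q, T → Multiset σ.s.I → ℝ) (bdd : ∀ σ t m, e σ t m ≤ 1)
  (mono : ∀ (σ σ' : St Q) (g : Mor σ σ') t m, e σ t m ≤ e σ' t (m.map g.g.ι))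

include bdd in
theorem max_step (σ : St Q) (t : T) (m : Multiset σ.s.I) {ε : ℝ} (hε : 0 < ε) :
    ∃ (σ' : St Q) (g : Mor σ σ'), ∀ (σ'' : St Q) (g' : Mor σ σ''),
      e σ'' t (m.map g'.g.ι) ≤ e σ' t (m.map g.g.ι) + ε := by
  let S : Set ℝ := {r | ∃ (σ' : St Q) (g : Mor σ σ'), r = e σ' t (m.map g.g.ι)}
  have hne : S.Nonempty := ⟨_, σ, Mor.refl σ, rfl⟩
  have hb : BddAbove S := ⟨1, by rintro _ ⟨σ', g, rfl⟩; exact bdd _ _ _⟩
  obtain ⟨_, ⟨σ', g, rfl⟩, hr⟩ := exists_lt_of_lt_csSup hne (sub_lt_self (sSup S) hε)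
  refine ⟨σ', g, fun σ'' g' => ?_⟩
  have : e σ'' t (m.map g'.g.ι) ≤ sSup S := le_csSup hb ⟨σ'', g', rfl⟩
  linarith

include bdd mono in
theorem max_round [Countable T] (σ : St Q) {ε : ℝ} (hε : 0 < ε) :
    ∃ (σ' : St Q) (g : Mor σ σ'), ∀ t (m : Multiset σ.s.I) (σ'' : St Q) (g' : Mor σ' σ''),
      e σ'' t ((m.map g.g.ι).map g'.g.ι) ≤ e σ' t (m.map g.g.ι) + ε := by
  obtain ⟨u, hu⟩ := exists_surjective_nat (Option (T × Multiset σ.s.I))
  have step : ∀ (n : ℕ) (p : Σ σ' : St Q, Mor σ σ'), ∃ (σ' : St Q) (g : Mor p.1 σ'),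
      ∀ t m, u n = some (t, m) → ∀ (σ'' : St Q) (g' : Mor p.1 σ''),
        e σ'' t ((m.map p.2.g.ι).map g'.g.ι) ≤ e σ' t ((m.map p.2.g.ι).map g.g.ι) + ε := by
    intro n p
    rcases h : u n with _ | ⟨t, m⟩
    · exact ⟨p.1, Mor.refl _, fun t m h => by simp at h⟩
    · obtain ⟨σ', g, hg⟩ := max_step e bdd p.1 t (m.map p.2.g.ι) hε
      refine ⟨σ', g, fun t' m' h' => ?_⟩
      obtain ⟨rfl, rfl⟩ : t = t' ∧ m = m' := by simpa using h'
      exact hg
  choose nx gx hx using step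
  let G : ℕ → Σ σ' : St Q, Mor σ σ' := fun n =>
    Nat.rec ⟨σ, Mor.refl σ⟩ (fun n p => ⟨nx n p, p.2.trans (gx n p)⟩) n
  obtain ⟨L, i, hi, -⟩ := exists_lim (fun n => (G n).1) (fun n => gx n (G n))
  have hG : ∀ n a, (i n).g.ι ((G n).2.g.ι a) = (i 0).g.ι a := by
    intro n a
    induction n with
    | zero => rfl
    | succ n ih => exact (hi n _).trans ih
  refine ⟨L, i 0, fun t m σ'' g' => ?_⟩
  obtain ⟨n, hn⟩ := hu (some (t, m))
  have h1 := hx n (G n) t m hn σ'' ((i n).trans g')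
  have h2 := mono _ _ (i (n + 1)) t ((m.map (G n).2.g.ι).map (gx n (G n)).g.ι)
  have e1 : (m.map (G n).2.g.ι).map ((i n).trans g').g.ι = (m.map (i 0).g.ι).map g'.g.ι := by
    rw [Multiset.map_map, Multiset.map_map]
    exact Multiset.map_congr rfl fun a _ => congrArg g'.g.ι (hG n a)
  have e2 : ((m.map (G n).2.g.ι).map (gx n (G n)).g.ι).map (i (n + 1)).g.ι = m.map (i 0).g.ι := by
    rw [Multiset.map_map, Multiset.map_map]
    exact Multiset.map_congr rfl fun a _ => hG (n + 1) a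
  rw [e1] at h1
  rw [e2] at h2
  exact h1.trans (by linarith)

end

/-- countably many bounded monotone energies are maximised simultaneously -/
theorem exists_maximal {s₀ : Sys} {Q : Spec s₀} {T : Type} [Countable T]
    (e : ∀ σ : St Q, T → Multiset σ.s.I → ℝ) (bdd : ∀ σ t m, e σ t m ≤ 1)
    (mono : ∀ (σ σ' : St Q) (g : Mor σ σ') t m, e σ t m ≤ e σ' t (m.map g.g.ι)) (σ₀ : St Q) :
    ∃ σ : St Q, Nonempty (Mor σ₀ σ) ∧
      ∀ (σ' : St Q) (g : Mor σ σ') t m, e σ' t (m.map g.g.ι) ≤ e σ t m := by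
  have step : ∀ (n : ℕ) (σ : St Q), ∃ (σ' : St Q) (g : Mor σ σ'),
      ∀ t (m : Multiset σ.s.I) (σ'' : St Q) (g' : Mor σ' σ''),
        e σ'' t ((m.map g.g.ι).map g'.g.ι) ≤ e σ' t (m.map g.g.ι) + 1 / ((n : ℝ) + 1) :=
    fun n σ => max_round e bdd mono σ Nat.one_div_pos_of_nat
  choose nx gx hx using step
  let G : ℕ → St Q := fun n => Nat.rec σ₀ nx n
  obtain ⟨L, i, hi, hl⟩ := exists_lim G (fun n => gx n (G n))
  refine ⟨L, ⟨i 0⟩, fun σ' g t m => ?_⟩
  have h : ∀ᶠ n : ℕ in atTop, e σ' t (m.map g.g.ι) ≤ e L t m + 1 / ((n : ℝ) + 1) := by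
    filter_upwards [hl m] with n ⟨m', hm'⟩
    have h1 := hx n (G n) t m' σ' ((i (n + 1)).trans g)
    have h2 := mono _ _ (i (n + 1)) t (m'.map (gx n (G n)).g.ι)
    have e2 : (m'.map (gx n (G n)).g.ι).map (i (n + 1)).g.ι = m := by
      rw [Multiset.map_map, ← hm']
      exact Multiset.map_congr rfl fun a _ => hi n a
    have e1 : (m'.map (gx n (G n)).g.ι).map ((i (n + 1)).trans g).g.ι = m.map g.g.ι := by
      rw [← e2, Multiset.map_map, Multiset.map_map, Multiset.map_map]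
      rfl
    rw [e1] at h1
    rw [e2] at h2
    exact h1.trans (by linarith)
  have ht : Tendsto (fun n : ℕ => e L t m + 1 / ((n : ℝ) + 1)) atTop (𝓝 (e L t m + 0)) :=
    tendsto_const_nhds.add tendsto_one_div_add_atTop_nhds_zero_nat
  simpa using ge_of_tendsto ht h

end Crest.Agent.R69
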