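import Crest.Agent.R69.MaxS

/-! # Row 69: saturation (owner helper99) -/

set_option autoImplicit false
set_option linter.unusedVariables false
set_option linter.unusedSectionVars false

open MeasureTheory ProbabilityTheory Filter Topology Set

noncomputable section

namespace Crest.Agent.R69

theorem exists_sat (P : Pat) (s : Sys) (X Y : Set s.I) (S : Seeds P s) (hX : s.Inv X)
    (hY : s.Inv Y) (hi : Ind s.μ X Y) :
    ∃ (s' : Sys) (h : Hom s s') (Y' : Set s'.I) (S' : Seeds P s'),
      Nonempty (Lift h S S') ∧ Adm X Y h Y' ∧ Sat P s' (h.ι '' X) Y' S' := by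
  obtain ⟨s', h, Y', S', L, h1, h2⟩ := exists_sat' S hX hY hi
  exact ⟨s', h, Y', S', L, ⟨h2.invY, h1, h2.ind⟩, h2⟩

end Crest.Agent.R69
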