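import Crest.Agent.R69.B1

/-! # Row 69: limits of chains of marked extensions (helper99) -/

set_option autoImplicit false
set_option linter.unusedVariables false
set_option linter.unusedSectionVars false

open MeasureTheory ProbabilityTheory Filter Topology Set

noncomputable section

namespace Crest.Agent.R69

variable {s₀ : Sys} {Q : Spec s₀}

def Mor.refl (σ : St Q) : Mor σ σ := ⟨Hom.refl _, fun _ => rfl, fun l => by simp [Hom.refl]⟩

def Mor.trans {σ σ' σ'' : St Q} (g : Mor σ σ') (g' : Mor σ' σ'') : Mor σ σ'' :=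
  ⟨g.g.trans g'.g, fun a => by simp [Hom.trans, g.comm, g'.comm], fun l => by
    rintro _ ⟨a, ha, rfl⟩
    exact g'.sub l ⟨_, g.sub l ⟨a, ha, rfl⟩, rfl⟩⟩

theorem continuous_mon' {I : Type} (m : Multiset I) : Continuous (mon m : Om I → ℝ) := by
  unfold mon
  exact continuous_multiset_prod _ fun a _ => continuous_subtype_val.comp (continuous_apply a)

theorem Hom.integral_pull {s s' : Sys} (h : Hom s s') (F : Om s.I → ℝ) (hF : Measurable F) :
    ∫ x, F (pull h.ι x) ∂s'.μ = ∫ x, F x ∂s.μ := by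
  rw [← h.law, integral_map (measurable_pull _).aemeasurable hF.aestronglyMeasurable]

namespace Chain

variable (F : ℕ → St Q) (g : ∀ k, Mor (F k) (F (k + 1)))

/-- the transition maps -/
def tr {i j : ℕ} (h : i ≤ j) : Mor (F i) (F j) :=
  Nat.leRecOn (C := fun k => Mor (F i) (F k)) h (fun {k} m => m.trans (g k)) (Mor.refl _)

theorem tr_self (i : ℕ) : tr F g (le_refl i) = Mor.refl _ := Nat.leRecOn_self _

theorem tr_succ {i j : ℕ} (h : i ≤ j) (h' : i ≤ j + 1) : tr F g h' = (tr F g h).trans (g j) :=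
  Nat.leRecOn_succ h _

theorem tr_left {i j : ℕ} (h : i + 1 ≤ j) (h' : i ≤ j) (a : (F i).s.I) :
    (tr F g h).g.ι ((g i).g.ι a) = (tr F g h').g.ι a := by
  induction j, h using Nat.le_induction with
  | base => rw [tr_self, tr_succ F g (le_refl i), tr_self]; rfl
  | succ j h ih =>
    rw [tr_succ F g h, tr_succ F g (Nat.le_of_succ_le h)]
    exact congrArg (g j).g.ι (ih _)

abbrev Sg : Type := Σ k, (F k).s.I

abbrev mk (k : ℕ) (a : (F k).s.I) : Sg F := ⟨k, a⟩

def rel (p q : Sg F) : Prop := ∃ k a, p = ⟨k, a⟩ ∧ q = ⟨k + 1, (g k).g.ι a⟩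

abbrev LI' : Type := Quot (rel F g)

def inc (k : ℕ) (a : (F k).s.I) : LI' F g := Quot.mk _ ⟨k, a⟩

theorem inc_succ (k : ℕ) (a : (F k).s.I) : inc F g (k + 1) ((g k).g.ι a) = inc F g k a :=
  (Quot.sound ⟨k, a, rfl, rfl⟩).symm

def τS (t : ℤ) (p : Sg F) : Sg F := ⟨p.1, ((F p.1).s.τ ^ t) p.2⟩

def τL (t : ℤ) : LI' F g → LI' F g :=
  Quot.map (τS F t) (by
    rintro _ _ ⟨k, a, rfl, rfl⟩
    exact ⟨k, ((F k).s.τ ^ t) a, rfl, by simp [τS, (g k).g.comm_zpow]⟩)

theorem τL_inc (t : ℤ) (k : ℕ) (a : (F k).s.I) :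
    τL F g t (inc F g k a) = inc F g k (((F k).s.τ ^ t) a) := rfl

def τE : Equiv.Perm (LI' F g) where
  toFun := τL F g 1
  invFun := τL F g (-1)
  left_inv q := by
    obtain ⟨⟨k, a⟩, rfl⟩ := Quot.exists_rep q
    show inc F g k (((F k).s.τ ^ (-1 : ℤ)) (((F k).s.τ ^ (1 : ℤ)) a)) = inc F g k a
    rw [← Equiv.Perm.mul_apply, ← zpow_add]; rfl
  right_inv q := by
    obtain ⟨⟨k, a⟩, rfl⟩ := Quot.exists_rep q
    show inc F g k (((F k).s.τ ^ (1 : ℤ)) (((F k).s.τ ^ (-1 : ℤ)) a)) = inc F g k a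
    rw [← Equiv.Perm.mul_apply, ← zpow_add]; rfl

theorem τE_inc (k : ℕ) (a : (F k).s.I) : τE F g (inc F g k a) = inc F g k ((F k).s.τ a) := by
  show inc F g k _ = _
  simp [τS]

open Classical in
def Ψ (n : ℕ) (x : Om (F n).s.I) : Om (Sg F) := fun p =>
  if h : p.1 ≤ n then x ((tr F g h).g.ι p.2) else ⟨0, by norm_num⟩

theorem measurable_Ψ (n : ℕ) : Measurable (Ψ F g n) :=
  measurable_pi_lambda _ fun p => by
    unfold Ψ
    split_ifs
    · exact measurable_pi_apply _
    · exact measurable_const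

def νN (n : ℕ) : ProbabilityMeasure (Om (Sg F)) :=
  ⟨(F n).s.μ.map (Ψ F g n), Measure.isProbabilityMeasure_map (measurable_Ψ F g n).aemeasurable⟩

def ν : ProbabilityMeasure (Om (Sg F)) :=
  Ultrafilter.lim ((hyperfilter ℕ).map (νN F g) : Ultrafilter (ProbabilityMeasure (Om (Sg F))))

theorem tendsto_νN : Tendsto (νN F g) (hyperfilter ℕ) (𝓝 (ν F g)) :=
  Ultrafilter.le_nhds_lim ((hyperfilter ℕ).map (νN F g))

theorem ν_map {J : Type} [Countable J] (a : J → Sg F) (ρ : ℕ → ProbabilityMeasure (Om J))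
    (ρ₀ : ProbabilityMeasure (Om J))
    (h : ∀ᶠ n in atTop, ((F n).s.μ.map (Ψ F g n)).map (pull a) = ρ n)
    (hρ : Tendsto ρ (hyperfilter ℕ) (𝓝 ρ₀)) : (ν F g : Measure _).map (pull a) = ρ₀ := by
  have h1 := ProbabilityMeasure.tendsto_map_of_tendsto_of_continuous (νN F g) (ν F g)
    (tendsto_νN F g) (continuous_pull a)
  have h2 : (fun n => (νN F g n).map (continuous_pull a).measurable.aemeasurable)
      =ᶠ[(hyperfilter ℕ : Filter ℕ)] ρ := by
    have h3 : ∀ᶠ n in (hyperfilter ℕ : Filter ℕ), ((F n).s.μ.map (Ψ F g n)).map (pull a) = ρ n :=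
      (Nat.hyperfilter_le_atTop) h
    filter_upwards [h3] with n hn
    exact Subtype.ext hn
  have := tendsto_nhds_unique (h1.congr' h2) hρ
  rw [← this]; rfl

theorem ν_two (k : ℕ) :
    (ν F g : Measure _).map (pull (Sum.elim (mk F k) (mk F (k + 1)) :
      (F k).s.I ⊕ (F (k + 1)).s.I → Sg F)) =
      (F (k + 1)).s.μ.map (pull (Sum.elim (g k).g.ι id)) := by
  let ρ₀ : ProbabilityMeasure (Om ((F k).s.I ⊕ (F (k + 1)).s.I)) :=
    ⟨(F (k + 1)).s.μ.map (pull (Sum.elim (g k).g.ι id)),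
      Measure.isProbabilityMeasure_map (measurable_pull _).aemeasurable⟩
  refine ν_map F g _ (fun _ => ρ₀) ρ₀ ?_ tendsto_const_nhds
  filter_upwards [eventually_ge_atTop (k + 1)] with n hn
  show _ = (F (k + 1)).s.μ.map (pull (Sum.elim (g k).g.ι id))
  rw [← (tr F g hn).g.law, Measure.map_map (measurable_pull _) (measurable_Ψ F g n),
    Measure.map_map (measurable_pull _) (measurable_pull _)]
  congr 1
  funext x p
  rcases p with a | a
  · simp only [Function.comp, pull, Ψ, Sum.elim_inl, dif_pos (Nat.le_of_succ_le hn)]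
    rw [tr_left F g hn]
  · simp only [Function.comp, pull, Ψ, Sum.elim_inr, dif_pos hn, id]

theorem ν_level (k : ℕ) : (ν F g : Measure _).map (pull (mk F k)) = (F k).s.μ := by
  have h := congrArg (Measure.map (pull (Sum.inl : (F k).s.I → (F k).s.I ⊕ (F (k + 1)).s.I)))
    (ν_two F g k)
  rw [Measure.map_map (measurable_pull _) (measurable_pull _),
    Measure.map_map (measurable_pull _) (measurable_pull _)] at h
  rw [← (g k).g.law]
  exact h

theorem ν_rel : ∀ᵐ x ∂(ν F g : Measure (Om (Sg F))), ∀ p q, rel F g p q → x p = x q := by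
  have h : ∀ᵐ x ∂(ν F g : Measure (Om (Sg F))), ∀ p : Sg F,
      x p = x ⟨p.1 + 1, (g p.1).g.ι p.2⟩ := by
    rw [ae_all_iff]
    rintro ⟨k, a⟩
    have hm : MeasurableSet {y : Om ((F k).s.I ⊕ (F (k + 1)).s.I) |
        y (.inl a) = y (.inr ((g k).g.ι a))} :=
      measurableSet_eq_fun (measurable_pi_apply _) (measurable_pi_apply _)
    have h1 : ∀ᵐ y ∂(F (k + 1)).s.μ.map (pull (Sum.elim (g k).g.ι id)),
        y (.inl a) = y (.inr ((g k).g.ι a)) := by
      rw [ae_map_iff (measurable_pull _).aemeasurable hm]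
      exact Eventually.of_forall fun y => rfl
    rw [← ν_two F g k, ae_map_iff (measurable_pull _).aemeasurable hm] at h1
    exact h1
  filter_upwards [h] with x hx
  rintro _ _ ⟨k, a, rfl, rfl⟩
  exact hx ⟨k, a⟩

theorem ν_congr {J : Type} [Countable J] (a b : J → Sg F)
    (h : ∀ j, (Quot.mk _ (a j) : LI' F g) = Quot.mk _ (b j)) :
    (ν F g : Measure _).map (pull a) = (ν F g : Measure _).map (pull b) := by
  refine Measure.map_congr ?_
  filter_upwards [ν_rel F g] with x hx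
  funext j
  exact congrArg (Quot.lift x hx) (h j)

theorem ν_inv : (ν F g : Measure _).map (pull (τS F 1)) = ν F g := by
  refine ν_map F g _ (νN F g) (ν F g) (Eventually.of_forall fun n => ?_) (tendsto_νN F g)
  show _ = (F n).s.μ.map (Ψ F g n)
  conv_rhs => rw [← (F n).s.inv]
  rw [Measure.map_map (measurable_pull _) (measurable_Ψ F g n),
    Measure.map_map (measurable_Ψ F g n) (measurable_pull _)]
  congr 1
  funext x p
  simp only [Function.comp, pull, Ψ, τS]
  split_ifs with h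
  · rw [zpow_one, (tr F g h).g.comm]
  · rfl

/-- the limit system -/
def sys : Sys where
  I := LI' F g
  cnt := inferInstance
  τ := τE F g
  μ := (ν F g : Measure _).map (pull Quot.out)
  prob := Measure.isProbabilityMeasure_map (measurable_pull _).aemeasurable
  inv := by
    rw [Measure.map_map (measurable_pull _) (measurable_pull _)]
    conv_rhs => rw [← ν_inv F g, Measure.map_map (measurable_pull _) (measurable_pull _)]
    refine ν_congr F g (Quot.out ∘ τE F g) (τS F 1 ∘ Quot.out) fun q => ?_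
    simp only [Function.comp, Quot.out_eq]
    conv_lhs => rw [← Quot.out_eq q]
    rfl

def hom (k : ℕ) : Hom (F k).s (sys F g) where
  ι := inc F g k
  comm a := (τE_inc F g k a).symm
  law := by
    show ((ν F g : Measure _).map (pull Quot.out)).map (pull (inc F g k)) = _
    rw [Measure.map_map (measurable_pull _) (measurable_pull _), ← ν_level F g k]
    refine ν_congr F g (Quot.out ∘ inc F g k) (mk F k) fun a => ?_
    simp only [Function.comp, Quot.out_eq]
    rfl

theorem inc_h (k : ℕ) (a : s₀.I) : inc F g k ((F k).h.ι a) = inc F g 0 ((F 0).h.ι a) := by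
  induction k with
  | zero => rfl
  | succ k ih => rw [← (g k).comm, inc_succ, ih]

theorem lift (P : ∀ k, Set (F k).s.I) (hP : ∀ k, (g k).g.ι '' P k ⊆ P (k + 1))
    (m : Multiset (LI' F g)) (hm : InB m (⋃ k, inc F g k '' P k)) :
    ∀ᶠ k in atTop, ∃ m' : Multiset (F k).s.I, InB m' (P k) ∧ m'.map (inc F g k) = m := by
  induction m using Multiset.induction_on with
  | empty => exact Eventually.of_forall fun k => ⟨0, fun a ha => by simp at ha, rfl⟩
  | cons q m ih =>
    have h1 := ih fun a ha => hm a (Multiset.mem_cons_of_mem ha)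
    obtain ⟨k, a, ha, rfl⟩ : ∃ k a, a ∈ P k ∧ inc F g k a = q := by
      simpa using hm q (Multiset.mem_cons_self _ _)
    have h2 : ∀ j, k ≤ j → ∃ b ∈ P j, inc F g j b = inc F g k a := by
      intro j hj
      induction j, hj using Nat.le_induction with
      | base => exact ⟨a, ha, rfl⟩
      | succ j hj ih =>
        obtain ⟨b, hb, e⟩ := ih
        exact ⟨(g j).g.ι b, hP j ⟨b, hb, rfl⟩, by rw [inc_succ, e]⟩
    filter_upwards [h1, eventually_ge_atTop k] with j ⟨m', hm', e'⟩ hj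
    obtain ⟨b, hb, e⟩ := h2 j hj
    refine ⟨b ::ₘ m', fun c hc => ?_, by rw [Multiset.map_cons, e, e']⟩
    rcases Multiset.mem_cons.1 hc with rfl | hc
    exacts [hb, hm' c hc]

/-- the limit of the chain -/
def st : St Q where
  s := sys F g
  h := (F 0).h.trans (hom F g 0)
  Y l := ⋃ k, inc F g k '' (F k).Y l
  inv l q := by
    constructor
    · intro h
      obtain ⟨k, a, ha, e⟩ : ∃ k a, a ∈ (F k).Y l ∧ inc F g k a = τE F g q := mem_iUnion.1 h
      refine mem_iUnion.2 ⟨k, (F k).s.τ.symm a, ((F k).inv l _).1 (by simpa using ha), ?_⟩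
      apply (τE F g).injective
      rw [τE_inc, ← e]; simp
    · intro h
      obtain ⟨k, a, ha, rfl⟩ : ∃ k a, a ∈ (F k).Y l ∧ inc F g k a = q := mem_iUnion.1 h
      exact mem_iUnion.2 ⟨k, (F k).s.τ a, ((F k).inv l _).2 ha, (τE_inc F g k a).symm⟩
  ind c m m' hm hm' := by
    have h1 := lift F g (fun k => (F k).h.ι '' Q.A c) (fun k => by
      rintro _ ⟨_, ⟨a, ha, rfl⟩, rfl⟩; exact ⟨a, ha, ((g k).comm a).symm⟩) m (fun q hq => by
      obtain ⟨a, ha, rfl⟩ := hm q hq
      exact mem_iUnion.2 ⟨0, _, ⟨a, ha, rfl⟩, rfl⟩)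
    have h2 := lift F g (fun k => (F k).h.ι '' Q.B c ∪ (F k).Y (Q.lam c)) (fun k => by
      rintro _ ⟨b, ⟨a, ha, rfl⟩ | hb, rfl⟩
      · exact Or.inl ⟨a, ha, ((g k).comm a).symm⟩
      · exact Or.inr ((g k).sub _ ⟨b, hb, rfl⟩)) m' (fun q hq => by
      rcases hm' q hq with ⟨a, ha, rfl⟩ | hq
      · exact mem_iUnion.2 ⟨0, _, Or.inl ⟨a, ha, rfl⟩, rfl⟩
      · obtain ⟨k, b, hb, rfl⟩ : ∃ k b, b ∈ (F k).Y (Q.lam c) ∧ inc F g k b = q :=
          mem_iUnion.1 hq
        exact mem_iUnion.2 ⟨k, b, Or.inr hb, rfl⟩)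
    obtain ⟨k, ⟨u, hu, rfl⟩, ⟨u', hu', rfl⟩⟩ := (h1.and h2).exists
    have h3 := (F k).ind c u u' hu hu'
    have e1 := (hom F g k).integral_pull (fun x => mon u x * mon u' x)
      ((continuous_mon' u).mul (continuous_mon' u')).measurable
    have e2 := (hom F g k).integral_pull (mon u) (continuous_mon' u).measurable
    have e3 := (hom F g k).integral_pull (mon u') (continuous_mon' u').measurable
    show ∫ x, mon (u.map (hom F g k).ι) x * mon (u'.map (hom F g k).ι) x ∂(sys F g).μ =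
      (∫ x, mon (u.map (hom F g k).ι) x ∂(sys F g).μ) * ∫ x, mon (u'.map (hom F g k).ι) x ∂(sys F g).μ
    simp only [mon_map]
    rw [e1, e2, e3, h3]
  le l l' h := iUnion_mono fun k => image_mono ((F k).le l l' h)

def mor (k : ℕ) : Mor (F k) (st F g) where
  g := hom F g k
  comm a := inc_h F g k a
  sub l := subset_iUnion (fun k => inc F g k '' (F k).Y l) k

end Chain

theorem exists_lim (F : ℕ → St Q) (g : ∀ k, Mor (F k) (F (k + 1))) :
    ∃ (L : St Q) (i : ∀ k, Mor (F k) L),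
      (∀ k a, (i (k + 1)).g.ι ((g k).g.ι a) = (i k).g.ι a) ∧
      ∀ m : Multiset L.s.I, ∀ᶠ k in atTop, ∃ m' : Multiset (F k).s.I, m'.map (i k).g.ι = m := by
  refine ⟨Chain.st F g, Chain.mor F g, fun k a => Chain.inc_succ F g k a, fun m => ?_⟩
  have h := Chain.lift F g (fun _ => univ) (fun _ => subset_univ _) m (fun q _ => by
    obtain ⟨⟨k, a⟩, rfl⟩ := Quot.exists_rep q
    exact mem_iUnion.2 ⟨k, a, mem_univ _, rfl⟩)
  filter_upwards [h] with k ⟨m', _, e⟩
  exact ⟨m', e⟩

end Crest.Agent.R69
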