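import Crest.Agent.R69.MaxS
import Crest.Agent.R69.MaxR

/-! # Row 69: the two pairs (helper99) -/

set_option autoImplicit false
set_option linter.unusedVariables false
set_option linter.unusedSectionVars false

open MeasureTheory ProbabilityTheory Filter Topology Set

noncomputable section

namespace Crest.Agent.R69

variable {P : Pat} {s s' : Sys}

theorem mx_range_col (S : Seeds P s) (j : P.Col) : range (col S j).ι = colS S {j} univ := by
  rw [colS_single, image_univ]

theorem mx_col_sub (S : Seeds P s) (j : P.Col) {B : Set s.I} (hB : s.Inv B) :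
    (col S j).ι '' B ⊆ up S B := by
  rintro _ ⟨a, ha, rfl⟩
  exact col_mem_up S hB j ha

theorem mx_trans_image {s'' : Sys} (h : Hom s s') (g : Hom s' s'') (B : Set s.I) :
    (h.trans g).ι '' B = g.ι '' (h.ι '' B) := image_comp g.ι h.ι B

theorem mx_trans_range {s'' : Sys} (h : Hom s s') (g : Hom s' s'') :
    range (h.trans g).ι = g.ι '' range h.ι := range_comp g.ι h.ι

theorem exists_D' (c : Ctx) : Nonempty (PairD c) := by
  obtain ⟨E, h, hd, hci⟩ := exists_relSq c.s c.sat.invX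
  have hX : (h false).ι '' c.X = (h true).ι '' c.X := image_congr hd
  have hi : ∀ b, Ind E.μ ((h b).ι '' c.X) ((h b).ι '' c.Y) := fun b =>
    ((h b).ind_iff _ _).2 c.sat.ind
  have hi0 : Ind E.μ ((h true).ι '' c.X) ((h false).ι '' c.Y ∪ (h true).ι '' c.Y) := by
    have a1 : CI E.μ ((h false).ι '' c.Y) (range (h true).ι) ((h true).ι '' c.X) :=
      hci.symm.mono ((image_subset_range _ _).trans subset_union_left) subset_union_left
    have a2 : Ind E.μ ((h false).ι '' c.Y) ((h true).ι '' c.X ∪ (h true).ι '' c.Y) :=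
      (a1.ind (hX ▸ (hi false).symm)).mono Subset.rfl
        (union_subset subset_union_right ((image_subset_range _ _).trans subset_union_left))
    exact a2.ci.symm.ind (hi true)
  obtain ⟨σ, ⟨g₀⟩, hσ⟩ := exists_maximal (Q := spec1 E ((h true).ι '' c.X)) (T := Unit)
    (fun σ _ m => en σ.s.μ (mon m) (σ.Y ())) (fun σ _ m => en_mon_le m)
    (fun σ σ' g _ m => mx_en_le g.g.ι g.g.law (g.sub ()) m)
    (st1 (Hom.refl E) ((h false).ι '' c.Y ∪ (h true).ι '' c.Y)
      ((c.sat.invY.image _).union (c.sat.invY.image _)) (by simpa [Hom.refl] using hi0))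
  have hY : σ.h.ι '' ((h false).ι '' c.Y ∪ (h true).ι '' c.Y) ⊆ σ.Y () := by
    rintro _ ⟨a, ha, rfl⟩
    rw [← g₀.comm]
    exact g₀.sub () ⟨a, ha, rfl⟩
  refine ⟨⟨σ.s, fun b => (h b).trans σ.h, σ.Y (), ⟨fun b => ⟨σ.inv (), ?_, ?_⟩, ?_⟩,
    fun a ha => congrArg σ.h.ι (hd a ha), ?_⟩⟩
  · rw [mx_trans_image]
    refine (image_mono ?_).trans hY
    cases b
    exacts [subset_union_left, subset_union_right]
  · rw [mx_trans_image]
    cases b
    · rw [hX]; exact σ.ind1
    · exact σ.ind1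
  · intro j J hj hJ
    set S₂ := c.S.two fun b => (h b).trans σ.h
    have ha : Adm (σ.h.ι '' ((h true).ι '' c.X)) (σ.Y ()) (col S₂ j)
        (colS S₂ J univ ∪ up S₂ (σ.Y ())) := by
      refine ⟨(colS_inv S₂ _ σ.s.inv_univ).union (up_inv S₂ (σ.inv ())),
        (mx_col_sub S₂ j (σ.inv ())).trans subset_union_right, ?_⟩
      rw [← colS_single]
      exact c.min c.P σ.s _ _ S₂ j J ((c.sat.invX.image _).image _) (σ.inv ())
        ((c.mix.image _).image _) σ.ind1 hj hJ
    have := ci_of_max (col S₂ j) ha.2.1 fun m => hσ (σ.ext1 _ ha) (σ.mor1 _ ha) () m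
    rwa [mx_range_col, ← colS_single] at this
  · rw [mx_trans_range, mx_trans_range, mx_trans_image]
    exact (σ.h.ci_iff _ _ _).2 hci

/-- two copies, two bases -/
def spec2 (E : Sys) (h : Bool → Hom s E) (X : Set s.I) : Spec E :=
  ⟨Bool, Bool × Bool, fun q => (h q.1).ι '' X, fun q => cond q.2 ∅ (range (h (!q.1)).ι),
    fun q => q.2, fun l l' => l = false ∧ l' = true⟩

def st2 {E : Sys} {h : Bool → Hom s E} {X : Set s.I} (g : Hom E s') (y ω : Set s'.I)
    (hy : s'.Inv y) (hω : s'.Inv ω) (hs : ω ⊆ y)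
    (h1 : ∀ b, Ind s'.μ (g.ι '' ((h b).ι '' X)) y)
    (h2 : ∀ b, Ind s'.μ (g.ι '' ((h b).ι '' X)) (g.ι '' range (h (!b)).ι ∪ ω)) :
    St (spec2 E h X) where
  s := s'
  h := g
  Y l := cond l y ω
  inv l := by cases l; exacts [hω, hy]
  ind q := by
    rcases q with ⟨b, _ | _⟩
    · exact h2 b
    · refine (h1 b).mono Subset.rfl ?_
      rintro a (⟨b, hb, -⟩ | ha)
      exacts [hb.elim, ha]
  le l l' h := by
    obtain ⟨rfl, rfl⟩ := h
    exact hs

theorem exists_E' (c : Ctx) : Nonempty (PairE c) := by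
  classical
  have h3 := c.three
  obtain ⟨r', hr'⟩ : ∃ r', r' ≠ c.r :=
    Fintype.exists_ne_of_one_lt_card (by omega) c.r
  let ρ : Bool → c.P.Col := fun b => cond b r' c.r
  let h : Bool → Hom c.s (Lim c.S) := fun b => col c.S (ρ b)
  let J₀ : Finset c.P.Col := (Finset.univ.erase c.r).erase r'
  have hJ₀ : J₀.card + 2 ≤ Fintype.card c.P.Col := by
    simp only [J₀]
    rw [Finset.card_erase_of_mem (by simp [hr']), Finset.card_erase_of_mem (by simp),
      Finset.card_univ]
    omega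
  have hρ : ∀ b, ρ b ∉ J₀ := fun b => by cases b <;> simp [ρ, J₀]
  have hρ' : ∀ b, ρ b ∉ ({ρ (!b)} : Finset c.P.Col) := fun b => by
    cases b <;> simp [ρ, hr', hr'.symm]
  have hW : (Lim c.S).Inv c.W := up_inv c.S c.sat.invY
  have i1 : ∀ b, Ind (Lim c.S).μ (id '' ((h b).ι '' c.X)) (colS c.S J₀ univ ∪ c.W) := fun b => by
    rw [image_id, ← colS_single]
    exact c.min c.P c.s _ _ c.S _ J₀ c.sat.invX c.sat.invY c.mix c.sat.ind (hρ b) hJ₀
  have i2 : ∀ b, Ind (Lim c.S).μ (id '' ((h b).ι '' c.X)) (id '' range (h (!b)).ι ∪ c.W) :=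
    fun b => by
      rw [image_id, image_id, ← colS_single, mx_range_col, ← Finset.coe_singleton (ρ (!b))]
      exact c.min c.P c.s _ _ c.S _ {ρ (!b)} c.sat.invX c.sat.invY c.mix c.sat.ind (hρ' b)
        (by rw [Finset.card_singleton]; omega)
  obtain ⟨σ, ⟨g₀⟩, hσ⟩ := exists_maximal (Q := spec2 (Lim c.S) h c.X) (T := Bool)
    (fun σ t m => en σ.s.μ (mon m) (σ.Y t)) (fun σ _ m => en_mon_le m)
    (fun σ σ' g t m => mx_en_le g.g.ι g.g.law (g.sub t) m)
    (st2 (Hom.refl _) (colS c.S J₀ univ ∪ c.W) c.W ((colS_inv _ _ c.s.inv_univ).union hW) hW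
      subset_union_right i1 i2)
  have hy : σ.h.ι '' (colS c.S J₀ univ ∪ c.W) ⊆ σ.Y true := by
    rintro _ ⟨a, ha, rfl⟩
    rw [← g₀.comm]
    exact g₀.sub true ⟨a, ha, rfl⟩
  have hω : σ.h.ι '' c.W ⊆ σ.Y false := by
    rintro _ ⟨a, ha, rfl⟩
    rw [← g₀.comm]
    exact g₀.sub false ⟨a, ha, rfl⟩
  have hs : σ.Y false ⊆ σ.Y true := σ.le false true ⟨rfl, rfl⟩
  let h' : Bool → Hom c.s σ.s := fun b => (h b).trans σ.h
  have hYω : ∀ b, (h' b).ι '' c.Y ⊆ σ.Y false := fun b => by
    rw [mx_trans_image]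
    exact (image_mono (mx_col_sub c.S _ c.sat.invY)).trans hω
  have j1 : ∀ b, Ind σ.s.μ (σ.h.ι '' ((h b).ι '' c.X)) (σ.Y true) := fun b =>
    (σ.ind (b, true)).mono Subset.rfl subset_union_right
  have j2 : ∀ b, Ind σ.s.μ (σ.h.ι '' ((h b).ι '' c.X)) (σ.h.ι '' range (h (!b)).ι ∪ σ.Y false) :=
    fun b => σ.ind (b, false)
  have iv : ∀ b, σ.s.Inv (σ.h.ι '' range (h b).ι ∪ σ.Y false) := fun b =>
    ((h b).inv_range.image σ.h).union (σ.inv false)
  have key : ∀ (t : Bool) (j : c.P.Col) (J : Finset c.P.Col), j ∉ J →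
      J.card + 2 ≤ Fintype.card c.P.Col →
      CI (Lim (c.S.two h')).μ (colS (c.S.two h') {j} univ)
        (colS (c.S.two h') J univ ∪ up (c.S.two h') (σ.Y t)) (colS (c.S.two h') {j} (σ.Y t)) := by
    intro t j J hj hJ
    set S₂ := c.S.two h'
    have iv' : ∀ t, (Lim S₂).Inv (colS S₂ J univ ∪ up S₂ (σ.Y t)) := fun t =>
      (colS_inv S₂ _ σ.s.inv_univ).union (up_inv S₂ (σ.inv t))
    let σ' : St (spec2 (Lim c.S) h c.X) := st2 (σ.h.trans (col S₂ j))
      (colS S₂ J univ ∪ up S₂ (σ.Y true)) (colS S₂ J univ ∪ up S₂ (σ.Y false)) (iv' true) (iv' false)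
      (union_subset_union_right _ (up_mono S₂ hs))
      (fun b => by
        rw [mx_trans_image, ← colS_single]
        exact c.min c.P σ.s _ _ S₂ j J ((c.sat.invX.image _).image _) (σ.inv true)
          ((c.mix.image _).image _) (j1 b) hj hJ)
      (fun b => by
        rw [mx_trans_image, mx_trans_image, ← colS_single]
        refine (c.min c.P σ.s _ _ S₂ j J ((c.sat.invX.image _).image _) (iv (!b))
          ((c.mix.image _).image _) (j2 b) hj hJ).mono Subset.rfl (union_subset ?_ ?_)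
        · exact ((image_mono subset_union_left).trans (mx_col_sub S₂ j (iv (!b)))).trans
            subset_union_right
        · exact union_subset_union_right _ (up_mono S₂ subset_union_right))
    have hsub : ∀ t, (col S₂ j).ι '' σ.Y t ⊆ colS S₂ J univ ∪ up S₂ (σ.Y t) := fun t =>
      (mx_col_sub S₂ j (σ.inv t)).trans subset_union_right
    let g : Mor σ σ' := ⟨col S₂ j, fun _ => rfl, fun l => by cases l <;> exact hsub _⟩
    have := ci_of_max (col S₂ j) (hsub t) fun m => by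
      have h1 := hσ σ' g t m
      cases t <;> exact h1
    rwa [mx_range_col, ← colS_single] at this
  refine ⟨⟨σ.s, h', σ.Y true, σ.Y false, ⟨fun b => ⟨σ.inv true, (hYω b).trans hs, ?_⟩, key true⟩,
    ⟨fun b => ⟨σ.inv false, hYω b, ?_⟩, key false⟩, hs, fun b => ⟨?_, ?_, ?_⟩, fun F hF hF2 => ?_⟩⟩
  · rw [mx_trans_image]; exact j1 b
  · rw [mx_trans_image]; exact (j2 b).mono Subset.rfl subset_union_right
  · rw [mx_trans_range]; exact iv _
  · exact (hYω b).trans subset_union_right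
  · rw [mx_trans_image, mx_trans_range]; exact j2 b
  · have hm : Measurable (F ∘ pull (col c.S c.r).ι) := hF.comp (measurable_pull _)
    rw [← σ.h.law, ← en_pull _ _ hm.aestronglyMeasurable]
    refine en_mono (F := F ∘ pull (h' false).ι) (hF2.comp_measurePreserving (h' false).mp) ?_
    rintro _ ⟨q, ⟨i, hi, a, -, rfl⟩ | hq, rfl⟩
    · by_cases e : i = r'
      · subst e
        exact Or.inl ⟨a, rfl⟩
      · exact Or.inr (hy ⟨_, Or.inl ⟨i, by simpa [J₀, e] using hi, a, trivial, rfl⟩, rfl⟩)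
    · exact Or.inr (hy ⟨q, Or.inr hq, rfl⟩)

end Crest.Agent.R69
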