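import Crest.Agent.R69.MaxA
import Crest.Agent.R69.L2

/-! # Row 69: saturation and the minimal counterexample (helper99) -/

set_option autoImplicit false
set_option linter.unusedVariables false
set_option linter.unusedSectionVars false

open MeasureTheory ProbabilityTheory Filter Topology Set

noncomputable section

namespace Crest.Agent.R69

variable {P : Pat} {s s' : Sys}

theorem mx_en_pull {I A : Type} [Countable I] [Countable A] {M : Measure (Om I)}
    [IsProbabilityMeasure M] {M₀ : Measure (Om A)} (a : A → I) (h : M.map (pull a) = M₀)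
    (R : Set A) (m : Multiset A) : en M (mon (m.map a)) (a '' R) = en M₀ (mon m) R := by
  have e : mon (m.map a) = mon m ∘ pull a := funext (mon_map a m)
  rw [e, en_pull a R (measurable_mon m).aestronglyMeasurable, h]

theorem mx_en_le {I A : Type} [Countable I] [Countable A] {M : Measure (Om I)}
    [IsProbabilityMeasure M] {M₀ : Measure (Om A)} (a : A → I) (h : M.map (pull a) = M₀)
    {R : Set A} {R' : Set I} (hR : a '' R ⊆ R') (m : Multiset A) :
    en M₀ (mon m) R ≤ en M (mon (m.map a)) R' := by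
  rw [← mx_en_pull a h]
  exact en_mono (memLp_mon M _ 2) hR

theorem mx_ci {I : Type} [Countable I] {M : Measure (Om I)} [IsProbabilityMeasure M]
    {A T U : Set I} (hU : U ⊆ T) (h : ∀ m, InB m A → en M (mon m) T ≤ en M (mon m) U) :
    CI M A T U := by
  intro m hm
  rw [union_eq_self_of_subset_right hU]
  exact condExp_eq_of_en_le (memLp_mon M m 2) hU (h m hm)

theorem ci_of_max (g : Hom s s') {y : Set s.I} {y' : Set s'.I} (hsub : g.ι '' y ⊆ y')
    (h : ∀ m, en s'.μ (mon (m.map g.ι)) y' ≤ en s.μ (mon m) y) :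
    CI s'.μ (range g.ι) y' (g.ι '' y) := by
  refine mx_ci hsub fun m hm => ?_
  obtain ⟨m, rfl⟩ := hm.of_range
  rw [mx_en_pull g.ι g.law]
  exact h m

theorem Lift.sub_base {h : Hom s s'} {S : Seeds P s} {S' : Seeds P s'} (L : Lift h S S')
    (J : Set P.Col) {Y : Set s.I} {Y' : Set s'.I} (hY : h.ι '' Y ⊆ Y') :
    L.lf '' (colS S J univ ∪ up S Y) ⊆ colS S' J univ ∪ up S' Y' := by
  rw [image_union, L.image_colS]
  refine union_subset_union (colS_mono S' Subset.rfl (subset_univ _)) ?_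
  rintro _ ⟨i, hi, rfl⟩
  exact L.mem_up hY hi

theorem Lift.map_col {h : Hom s s'} {S : Seeds P s} {S' : Seeds P s'} (L : Lift h S S')
    (j : P.Col) (m : Multiset s.I) :
    (m.map (R69.col S j).ι).map L.lf = (m.map h.ι).map (R69.col S' j).ι := by
  rw [Multiset.map_map, Multiset.map_map]
  exact Multiset.map_congr rfl fun a _ => L.col j a

/-- the energy of a column given the other columns and the base -/
def enC (S : Seeds P s) (Y : Set s.I) (j : P.Col) (m : Multiset s.I) : ℝ :=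
  en (Lim S).μ (mon (m.map (col S j).ι)) (colS S {j}ᶜ univ ∪ up S Y)

theorem enC_le (S : Seeds P s) (Y : Set s.I) (j : P.Col) (m : Multiset s.I) : enC S Y j m ≤ 1 :=
  en_mon_le _

theorem Lift.enC_le {h : Hom s s'} {S : Seeds P s} {S' : Seeds P s'} (L : Lift h S S')
    {Y : Set s.I} {Y' : Set s'.I} (hY : h.ι '' Y ⊆ Y') (j : P.Col) (m : Multiset s.I) :
    enC S Y j m ≤ enC S' Y' j (m.map h.ι) := by
  unfold enC
  rw [← L.map_col]
  exact mx_en_le L.lf L.law (L.sub_base _ hY) _

instance : Nonempty (Seeds P s) :=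
  ⟨⟨Empty, inferInstance, fun e => e.elim, fun e => e.elim⟩⟩

/-- the best energy over all seeds -/
def enS (P : Pat) (s : Sys) (Y : Set s.I) (j : P.Col) (m : Multiset s.I) : ℝ :=
  ⨆ S : Seeds P s, enC S Y j m

theorem enC_le_enS (S : Seeds P s) (Y : Set s.I) (j : P.Col) (m : Multiset s.I) :
    enC S Y j m ≤ enS P s Y j m :=
  le_ciSup (f := fun S : Seeds P s => enC S Y j m)
    ⟨1, by rintro _ ⟨S, rfl⟩; exact enC_le S Y j m⟩ S

theorem enS_le (Y : Set s.I) (j : P.Col) (m : Multiset s.I) : enS P s Y j m ≤ 1 :=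
  ciSup_le fun S => enC_le S Y j m

theorem enS_mono (h : Hom s s') {Y : Set s.I} {Y' : Set s'.I} (hY : h.ι '' Y ⊆ Y') (j : P.Col)
    (m : Multiset s.I) : enS P s Y j m ≤ enS P s' Y' j (m.map h.ι) := by
  refine ciSup_le fun S => ?_
  obtain ⟨S', ⟨L⟩⟩ := exists_lift h S
  exact (L.enC_le hY j m).trans (enC_le_enS S' Y' j _)

/-- the columns at time `n` -/
def colsN (P : Pat) (s : Sys) (n : P.N) (x : Om s.I) : Om (P.Col × s.I) :=
  fun q => s.sh (P.pos q.1 n) x q.2

theorem mon_inl_evM (S : Seeds P s) (m : Multiset (P.Col × s.I)) (n : P.N) (x : Om s.I) :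
    mon (m.map Sum.inl : Multiset (LI S)) (evM S n x) = mon m (colsN P s n x) := by
  rw [mon_map]; rfl

theorem measurable_colsN (n : P.N) : Measurable (colsN P s n) :=
  measurable_pi_lambda _ fun q => (measurable_pi_apply q.2).comp (measurable_sh s _)

def clip (r : ℝ) : K := projIcc (-1) 1 (by norm_num) r

theorem measurable_clip : Measurable clip :=
  (continuous_projIcc (a := (-1 : ℝ)) (b := 1) (h := by norm_num)).measurable

theorem clip_eq {r : ℝ} (h : |r| ≤ 1) : (clip r : ℝ) = r := by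
  unfold clip
  rw [projIcc_of_mem _ (abs_le.1 h)]

/-- the closure seeds -/
def clS (P : Pat) (s : Sys) (Y : Set s.I) : Seeds P s where
  S := Multiset (P.Col × s.I)
  cnt := inferInstance
  ξ m n x := clip ((s.μ[fun x => mon m (colsN P s n x) | sg Y]) x)
  meas m n := measurable_clip.comp (stronglyMeasurable_condExp.measurable.mono (sg_le Y) le_rfl)

theorem clS_spec (Y : Set s.I) {S : Seeds P s} (L : Lift (Hom.refl s) (clS P s Y) S)
    (m : Multiset (P.Col × s.I)) : ∃ i ∈ up S Y, ∀ n, (fun x => (ev S i n x : ℝ)) =ᵐ[s.μ]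
      s.μ[fun x => mon (m.map Sum.inl : Multiset (LI S)) (evM S n x) | sg Y] := by
  have e : ∀ n, ev S (L.lf (.inr (0, m))) n =
      fun x => clip ((s.μ[fun x => mon m (colsN P s n x) | sg Y]) x) := by
    intro n
    funext x
    rw [L.ev_eq]
    show clip ((s.μ[fun x => mon m (colsN P s n x) | sg Y]) (s.sh 0 (pull id x))) = _
    rw [s.sh_zero]; rfl
  refine ⟨L.lf (.inr (0, m)), fun n => ?_, fun n => ?_⟩
  · rw [e]
    exact measurable_clip.comp stronglyMeasurable_condExp.measurable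
  · simp only [e, mon_inl_evM]
    have hb : ∀ᵐ x ∂s.μ, ‖mon m (colsN P s n x)‖ ≤ 1 :=
      Eventually.of_forall fun x => abs_mon_le m _
    filter_upwards [ae_bdd_norm_condExp_of_ae_bdd_norm (m := sg Y) hb] with x hx
    exact clip_eq hx

/-- optimal seeds -/
theorem exists_opt (Y : Set s.I) (S₀ : Seeds P s) : ∃ S : Seeds P s,
    Nonempty (Lift (Hom.refl s) S₀ S) ∧ Nonempty (Lift (Hom.refl s) (clS P s Y) S) ∧
      ∀ j m, enS P s Y j m ≤ enC S Y j m := by
  have h : ∀ q : P.Col × Multiset s.I × ℕ, ∃ S : Seeds P s,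
      enS P s Y q.1 q.2.1 - 1 / ((q.2.2 : ℝ) + 1) < enC S Y q.1 q.2.1 := fun q =>
    exists_lt_of_lt_ciSup (f := fun S : Seeds P s => enC S Y q.1 q.2.1)
      (sub_lt_self _ Nat.one_div_pos_of_nat)
  choose F hF using h
  obtain ⟨S, hS⟩ := exists_lift_sup (J := Option (Option (P.Col × Multiset s.I × ℕ)))
    (fun o => o.elim S₀ fun o => o.elim (clS P s Y) F)
  refine ⟨S, hS none, hS (some none), fun j m => ?_⟩
  have h1 : ∀ k : ℕ, enS P s Y j m ≤ enC S Y j m + 1 / ((k : ℝ) + 1) := by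
    intro k
    obtain ⟨L⟩ := hS (some (some (j, m, k)))
    have h2 := L.enC_le (Y := Y) (Y' := Y) (by rintro _ ⟨a, ha, rfl⟩; exact ha) j m
    have h3 := hF (j, m, k)
    have e : m.map (Hom.refl s).ι = m := Multiset.map_id m
    rw [e] at h2
    have h4 : enC (F (j, m, k)) Y j m ≤ enC S Y j m := h2
    simp only at h3
    linarith
  have ht : Tendsto (fun n : ℕ => enC S Y j m + 1 / ((n : ℝ) + 1)) atTop (𝓝 (enC S Y j m + 0)) :=
    tendsto_const_nhds.add tendsto_one_div_add_atTop_nhds_zero_nat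
  simpa using ge_of_tendsto' ht h1

/-- one constraint, one base -/
def spec1 (s : Sys) (X : Set s.I) : Spec s :=
  ⟨Unit, Unit, fun _ => X, fun _ => ∅, fun _ => (), fun _ _ => False⟩

def st1 {X : Set s.I} (h : Hom s s') (Y' : Set s'.I) (hi : s'.Inv Y')
    (hd : Ind s'.μ (h.ι '' X) Y') : St (spec1 s X) where
  s := s'
  h := h
  Y _ := Y'
  inv _ := hi
  ind _ := hd.mono Subset.rfl (by
    rintro a (⟨b, hb, -⟩ | ha)
    exacts [hb.elim, ha])
  le _ _ h := h.elim

theorem St.ind1 {X : Set s.I} (σ : St (spec1 s X)) : Ind σ.s.μ (σ.h.ι '' X) (σ.Y ()) :=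
  (σ.ind ()).mono Subset.rfl subset_union_right

/-- the extension of a marked system by an admissible base -/
def St.ext1 {X : Set s.I} (σ : St (spec1 s X)) (h : Hom σ.s s') {Y' : Set s'.I}
    (ha : Adm (σ.h.ι '' X) (σ.Y ()) h Y') : St (spec1 s X) :=
  st1 (σ.h.trans h) Y' ha.1 (by
    have := ha.2.2
    rwa [← image_comp] at this)

def St.mor1 {X : Set s.I} (σ : St (spec1 s X)) (h : Hom σ.s s') {Y' : Set s'.I}
    (ha : Adm (σ.h.ι '' X) (σ.Y ()) h Y') : Mor σ (σ.ext1 h ha) :=
  ⟨h, fun _ => rfl, fun _ => ha.2.1⟩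

/-- saturation -/
theorem exists_sat' {X Y : Set s.I} (S : Seeds P s) (hX : s.Inv X) (hY : s.Inv Y)
    (hi : Ind s.μ X Y) : ∃ (s' : Sys) (h : Hom s s') (Y' : Set s'.I) (S' : Seeds P s'),
      Nonempty (Lift h S S') ∧ h.ι '' Y ⊆ Y' ∧ Sat P s' (h.ι '' X) Y' S' := by
  obtain ⟨σ, ⟨g₀⟩, hσ⟩ := exists_maximal (Q := spec1 s X) (T := Option P.Col)
    (fun σ t m => t.elim (en σ.s.μ (mon m) (σ.Y ())) fun j => enS P σ.s (σ.Y ()) j m)
    (fun σ t m => by
      cases t with
      | none => exact en_mon_le m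
      | some j => exact enS_le _ j m)
    (fun σ σ' g t m => by
      cases t with
      | none => exact mx_en_le g.g.ι g.g.law (g.sub ()) m
      | some j => exact enS_mono g.g (g.sub ()) j m)
    (st1 (Hom.refl s) Y hY (by simpa [Hom.refl] using hi))
  obtain ⟨S₀, ⟨L₀⟩⟩ := exists_lift σ.h S
  obtain ⟨S', ⟨L₁⟩, ⟨L₂⟩, hS⟩ := exists_opt (σ.Y ()) S₀
  refine ⟨σ.s, σ.h, σ.Y (), S', ⟨⟨L₁.lf ∘ L₀.lf, (L₀.trans L₁).col, (L₀.trans L₁).ev_eq⟩⟩, ?_,
    hX.image σ.h, σ.inv (), σ.ind1, fun s' h Y' ha => ?_, clS_spec _ L₂,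
    fun s' h Y' S'' L j ha => ?_⟩
  · rintro _ ⟨a, ha, rfl⟩
    rw [← g₀.comm]
    exact g₀.sub () ⟨a, ha, rfl⟩
  · exact ci_of_max h ha.2.1 fun m => hσ (σ.ext1 h ha) (σ.mor1 h ha) none m
  · refine mx_ci (L.sub_base _ ha.2.1) fun m hm => ?_
    rw [colS_single, ← range_comp] at hm
    obtain ⟨m, rfl⟩ := hm.of_range
    rw [← Multiset.map_map]
    have h1 := enC_le_enS S'' Y' j (m.map h.ι)
    have h2 : enS P s' Y' j (m.map h.ι) ≤ enS P σ.s (σ.Y ()) j m :=
      hσ (σ.ext1 h ha) (σ.mor1 h ha) (some j) m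
    refine (h1.trans (h2.trans (hS j m))).trans_eq ?_
    rw [← L.map_col, mx_en_pull L.lf L.law]
    rfl

theorem MinInd.anti {l l' : ℕ} (h : MinInd l') (hl : l ≤ l') : MinInd l :=
  fun P s X Y S j J h1 h2 h3 h4 h5 h6 => h P s X Y S j J h1 h2 h3 h4 h5 (h6.trans hl)

/-- the pattern restricted to a set of columns -/
def Pat.sub (P : Pat) (T : Finset P.Col) : Pat where
  Col := T
  fin := inferInstance
  dec := inferInstance
  N := P.N
  p := P.p
  pos i := P.pos i
  far i j h := P.far i j fun e => h (Subtype.ext e)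

/-- all the variables of the limit as seeds for the restricted pattern -/
def Seeds.sub (S : Seeds P s) (T : Finset P.Col) : Seeds (P.sub T) s where
  S := LI S
  cnt := inferInstance
  ξ i n x := ev S i n x
  meas i n := (measurable_pi_apply i).comp (measurable_evM S n)

def Seeds.subι (S : Seeds P s) (T : Finset P.Col) : LI S → LI (S.sub T)
  | .inl (i, a) => if h : i ∈ T then .inl (⟨i, h⟩, a) else .inr (0, .inl (i, a))
  | .inr q => .inr (0, .inr q)

theorem Seeds.ev_subι (S : Seeds P s) (T : Finset P.Col) (i : LI S) (n : P.N) :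
    ev (S.sub T) (S.subι T i) n = ev S i n := by
  funext x
  rcases i with ⟨i, a⟩ | q
  · by_cases h : i ∈ T
    · rw [Seeds.subι, dif_pos h]; rfl
    · rw [Seeds.subι, dif_neg h]
      show ev S (.inl (i, a)) n (s.sh 0 x) = _
      rw [s.sh_zero]
  · show ev S (.inr q) n (s.sh 0 x) = _
    rw [s.sh_zero]

theorem Seeds.law_subι (S : Seeds P s) (T : Finset P.Col) :
    (Lim (S.sub T)).μ.map (pull (S.subι T)) = (Lim S).μ :=
  limP_map (S.sub T) _ (lawN S) (limP S) (fun n => by
    rw [Measure.map_map (measurable_pull _) (measurable_evM _ n)]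
    show s.μ.map _ = s.μ.map _
    congr 1
    funext x i
    exact congrFun (S.ev_subι T i n) x) (tendsto_lawN S)

/-- the minimal counterexample -/
theorem exists_ctx' (h : ¬ ∀ l, MinInd l) : Nonempty Ctx := by
  classical
  have hex : ∃ l, ¬ MinInd (l + 1) := by
    by_contra hc
    exact h fun l => (not_not.1 (not_exists.1 hc l)).anti (Nat.le_succ l)
  set l := Nat.find hex with hl
  have h1 : ¬ MinInd (l + 1) := Nat.find_spec hex
  have h3 : 3 ≤ l := by
    by_contra hc
    exact h1 (minInd_three.anti (by omega))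
  have h2 : MinInd l := by
    have := Nat.find_min hex (m := l - 1) (by omega)
    rw [not_not] at this
    exact this.anti (by omega)
  unfold MinInd at h1
  push Not at h1
  obtain ⟨P, s, X, Y, S, j, J, hX, hY, hm, hi, hj, hc, hd⟩ := h1
  have hc' : J.card + 1 = l := by
    by_contra hn
    exact hd (h2 P s X Y S j J hX hY hm hi hj (by omega))
  have hcard : Fintype.card (P.sub (insert j J)).Col = l := by
    show Fintype.card (insert j J : Finset P.Col) = l
    rw [Fintype.card_coe, Finset.card_insert_of_notMem hj, hc']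
  obtain ⟨s', g, Y', S', ⟨L⟩, hYY, hs⟩ := exists_sat' (S.sub (insert j J)) hX hY hi
  let r : (P.sub (insert j J)).Col := ⟨j, Finset.mem_insert_self _ _⟩
  refine ⟨⟨P.sub (insert j J), s', g.ι '' X, Y', S', r, by rw [hcard]; exact h3, hm.image g, hs,
    by rw [hcard]; exact h2, fun hI => hd ?_⟩⟩
  have i1 : Ind (Lim (S.sub (insert j J))).μ (colS (S.sub (insert j J)) {r} X)
      (colS (S.sub (insert j J)) {r}ᶜ univ ∪ up (S.sub (insert j J)) Y) := by
    rw [← L.law, ← ind_pull]
    exact hI.mono (L.image_colS _ _).subset (L.sub_base _ hYY)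
  rw [← S.law_subι (insert j J), ← ind_pull]
  refine i1.mono ?_ ?_
  · rintro _ ⟨_, ⟨i, rfl, a, ha, rfl⟩, rfl⟩
    exact ⟨r, rfl, a, ha, by simp [Seeds.subι, r]⟩
  · rintro _ ⟨q, ⟨i, hi, a, -, rfl⟩ | hq, rfl⟩
    · have hi' : i ∈ J := hi
      refine Or.inl ⟨⟨i, Finset.mem_insert_of_mem hi'⟩, fun e => hj ?_, a, trivial,
        by simp [Seeds.subι, hi']⟩
      have e' : i = j := congrArg Subtype.val e
      exact e' ▸ hi'
    · refine Or.inr fun n => ?_
      rw [S.ev_subι]
      exact hq n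

end Crest.Agent.R69
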