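import Crest.Agent.R69.L1

/-! # Row 69 (helper34): from independence in all limit systems to mixing of all orders -/

set_option autoImplicit false
set_option linter.unusedVariables false
set_option linter.unusedSectionVars false

open MeasureTheory ProbabilityTheory Filter Topology Set

noncomputable section

namespace Crest.Agent.R69

section
variable {Ω : Type*} [MeasurableSpace Ω] (μ : Measure Ω) [IsProbabilityMeasure μ] (T : Ω ≃ᵐ Ω)

def topZ (t : ℤ) : Ω → Ω := (T.toEquiv ^ t : Equiv.Perm Ω)

theorem topZ_add (t u : ℤ) (x : Ω) : topZ T (t + u) x = topZ T t (topZ T u x) := by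
  simp [topZ, zpow_add]

theorem topZ_nat (n : ℕ) : topZ T n = T^[n] := by
  funext x
  simp [topZ, ← Equiv.Perm.iterate_eq_pow]

theorem measurable_topZ (t : ℤ) : Measurable (topZ T t) := by
  induction t using Int.induction_on with
  | zero => exact measurable_id
  | succ n ih =>
    have : topZ T (n + 1) = topZ T n ∘ T := funext fun x => by rw [topZ_add]; simp [topZ]
    rw [this]; exact ih.comp T.measurable
  | pred n ih =>
    have : topZ T (-n - 1) = topZ T (-n) ∘ T.symm := funext fun x => by
      rw [sub_eq_add_neg, topZ_add]; rfl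
    rw [this]; exact ih.comp T.symm.measurable

variable {C : Type} (A : C → Set Ω)

open Classical in
def topF (ω : Ω) : Om (C × ℤ) := fun q =>
  if topZ T q.2 ω ∈ A q.1 then ⟨1, by norm_num⟩ else ⟨0, by norm_num⟩

theorem measurable_topF (hA : ∀ i, MeasurableSet (A i)) : Measurable (topF T A) :=
  measurable_pi_lambda _ fun q =>
    Measurable.ite (measurable_topZ T q.2 (hA q.1)) measurable_const measurable_const

def topB (m : Multiset (C × ℤ)) : Set Ω := {ω | ∀ q ∈ m, topZ T q.2 ω ∈ A q.1}

theorem measurableSet_topB (hA : ∀ i, MeasurableSet (A i)) (m : Multiset (C × ℤ)) :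
    MeasurableSet (topB T A m) := by
  have : topB T A m = ⋂ q ∈ {q | q ∈ m}, topZ T q.2 ⁻¹' A q.1 := by ext ω; simp [topB]
  rw [this]
  exact MeasurableSet.biInter m.finite_toSet.countable fun q _ => measurable_topZ T q.2 (hA q.1)

theorem mon_topF (m : Multiset (C × ℤ)) (ω : Ω) :
    mon m (topF T A ω) = (topB T A m).indicator 1 ω := by
  by_cases h : ω ∈ topB T A m
  · rw [indicator_of_mem h]
    refine Multiset.prod_eq_one fun x hx => ?_
    obtain ⟨q, hq, rfl⟩ := Multiset.mem_map.1 hx
    simp [topF, h q hq]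
  · rw [indicator_of_notMem h]
    simp only [topB, mem_ofPred_eq, not_forall] at h
    obtain ⟨q, hq, h⟩ := h
    exact Multiset.prod_eq_zero (Multiset.mem_map.2 ⟨q, hq, by simp [topF, h]⟩)

def topτ (C : Type) : Equiv.Perm (C × ℤ) := Equiv.prodCongr (Equiv.refl _) (Equiv.addRight 1)

theorem topτ_zpow (t : ℤ) (q : C × ℤ) : (topτ C ^ t) q = (q.1, q.2 + t) := by
  induction t using Int.induction_on generalizing q with
  | zero => simp
  | succ n ih =>
    rw [zpow_add_one, Equiv.Perm.mul_apply, ih]
    simp only [topτ, Equiv.prodCongr_apply, Equiv.coe_refl, Equiv.coe_addRight, Prod.map_fst, id_eq,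
      Prod.map_snd, Prod.mk.injEq, true_and]
    ring
  | pred n ih =>
    rw [zpow_sub_one, Equiv.Perm.mul_apply, ih]
    have : (topτ C)⁻¹ q = (q.1, q.2 - 1) := by
      rw [Equiv.Perm.inv_eq_iff_eq]; simp [topτ]
    rw [this]
    simp only [Prod.mk.injEq, true_and]
    ring

theorem pull_topF (t : ℤ) (ω : Ω) :
    pull (topτ C ^ t : Equiv.Perm (C × ℤ)) (topF T A ω) = topF T A (topZ T t ω) := by
  funext q
  show topF T A ω ((topτ C ^ t) q) = _
  rw [topτ_zpow]
  unfold topF
  rw [← topZ_add]

variable [Countable C]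

@[reducible] def topS (hT : MeasurePreserving T μ μ) (hA : ∀ i, MeasurableSet (A i)) : Sys where
  I := C × ℤ
  cnt := inferInstance
  τ := topτ C
  μ := μ.map (topF T A)
  prob := Measure.isProbabilityMeasure_map (measurable_topF T A hA).aemeasurable
  inv := by
    rw [Measure.map_map (measurable_pull _) (measurable_topF T A hA)]
    have : pull (topτ C) ∘ topF T A = topF T A ∘ T := funext fun ω => by
      simpa [topZ] using pull_topF T A 1 ω
    rw [this, ← Measure.map_map (measurable_topF T A hA) T.measurable, hT.map_eq]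

theorem topS_mix (hT : MeasurePreserving T μ μ) (hA : ∀ i, MeasurableSet (A i))
    (hmix : ∀ A B : Set Ω, MeasurableSet A → MeasurableSet B →
      Tendsto (fun n : ℕ => μ (A ∩ (T^[n]) ⁻¹' B)) atTop (nhds (μ A * μ B))) :
    (topS μ T A hT hA).Mix univ := by
  intro m m' _ _
  have mF := measurable_topF T A hA
  have e1 : ∀ m : Multiset (C × ℤ), ∫ x, mon m x ∂(topS μ T A hT hA).μ = μ.real (topB T A m) :=
    fun m => by
      refine (integral_map mF.aemeasurable (measurable_mon m).aestronglyMeasurable).trans ?_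
      simp only [mon_topF]
      exact integral_indicator_one (measurableSet_topB T A hA m)
  rw [e1, e1, measureReal_def, measureReal_def, ← ENNReal.toReal_mul]
  refine ((ENNReal.tendsto_toReal (by finiteness)).comp
    (hmix _ _ (measurableSet_topB T A hA m) (measurableSet_topB T A hA m'))).congr fun n => ?_
  refine Eq.symm ((integral_map mF.aemeasurable ((measurable_mon m).mul
    ((measurable_mon m').comp (measurable_sh _ _))).aestronglyMeasurable).trans ?_)
  have : ∀ ω, mon m (topF T A ω) * mon m' ((topS μ T A hT hA).sh n (topF T A ω)) =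
      (topB T A m ∩ T^[n] ⁻¹' topB T A m').indicator 1 ω := fun ω => by
    have : (topS μ T A hT hA).sh n (topF T A ω) = topF T A (topZ T n ω) := pull_topF T A n ω
    rw [this, mon_topF, mon_topF, topZ_nat, inter_indicator_one]
    rfl
  refine (integral_congr_ae (Eventually.of_forall this)).trans ?_
  exact integral_indicator_one ((measurableSet_topB T A hA m).inter
    (T.measurable.iterate n (measurableSet_topB T A hA m')))

end

theorem top_far {k : ℕ} {p : Filter (Fin k → ℕ)} (hp : p ≤ atTop) (i j : Fin (k + 1)) (hij : i < j) :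
    Tendsto (fun n : Fin k → ℕ => |((∑ l : Fin k, if (l : ℕ) < (i : ℕ) then n l else 0 : ℕ) : ℤ) -
      ((∑ l : Fin k, if (l : ℕ) < (j : ℕ) then n l else 0 : ℕ) : ℤ)|) p atTop := by
  have hi : (i : ℕ) < k := lt_of_lt_of_le hij (Nat.lt_succ_iff.1 j.2)
  have h1 : Tendsto (fun n : Fin k → ℕ => ((n ⟨i, hi⟩ : ℕ) : ℤ)) p atTop :=
    tendsto_natCast_atTop_atTop.comp ((tendsto_atTop_atTop_of_monotone
      (fun a b (h : a ≤ b) => Pi.le_def.1 h ⟨i, hi⟩) fun b => ⟨fun _ => b, le_rfl⟩).mono_left hp)
  refine tendsto_atTop_mono (fun n => ?_) h1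
  rw [abs_sub_comm]
  refine le_trans ?_ (le_abs_self _)
  push_cast
  rw [← Finset.sum_sub_distrib]
  refine le_trans ?_ (Finset.single_le_sum (f := fun l : Fin k =>
    (if (l : ℕ) < (j : ℕ) then (n l : ℤ) else 0) - if (l : ℕ) < (i : ℕ) then (n l : ℤ) else 0)
    (fun l _ => ?_) (Finset.mem_univ ⟨i, hi⟩))
  · simp [show (i : ℕ) < j from hij]
  · have : (i : ℕ) < j := hij
    split_ifs <;> simp <;> omega

theorem top_of_multi (h : ∀ (P : Pat) (s : Sys), s.Mix univ → ∀ m : P.Col → Multiset s.I,
      Tendsto (fun n => ∫ x, ∏ j, mon (m j) (s.sh (P.pos j n) x) ∂s.μ) P.p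
        (𝓝 (∏ j, ∫ x, mon (m j) x ∂s.μ)))
    {Ω : Type*} [MeasurableSpace Ω] (μ : Measure Ω) [IsProbabilityMeasure μ]
    (T : Ω ≃ᵐ Ω) (hT : MeasurePreserving T μ μ)
    (hmix : ∀ A B : Set Ω, MeasurableSet A → MeasurableSet B →
      Tendsto (fun n : ℕ => μ (A ∩ (T^[n]) ⁻¹' B)) atTop (nhds (μ A * μ B)))
    (k : ℕ) (A : Fin (k + 1) → Set Ω) (hA : ∀ i, MeasurableSet (A i)) :
    Tendsto (fun n : Fin k → ℕ =>
        μ (⋂ i : Fin (k + 1), (T^[∑ j : Fin k, if (j : ℕ) < (i : ℕ) then n j else 0]) ⁻¹' A i))
      atTop (nhds (∏ i, μ (A i))) := by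
  refine (tendsto_iff_ultrafilter _ _ _).2 fun p hp => ?_
  let P : Pat :=
    { Col := Fin (k + 1), fin := inferInstance, dec := inferInstance, N := Fin k → ℕ, p := p
      pos := fun i n => ((∑ l : Fin k, if (l : ℕ) < (i : ℕ) then n l else 0 : ℕ) : ℤ)
      far := fun i j hij => by
        rcases lt_or_gt_of_ne hij with h | h
        · exact top_far hp i j h
        · simpa only [abs_sub_comm] using top_far hp j i h }
  let s := topS μ T A hT hA
  have mF := measurable_topF T A hA
  have h1 := h P s (topS_mix μ T A hT hA hmix) fun j : Fin (k + 1) => {(j, (0 : ℤ))}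
  simp only [mon_singleton] at h1
  have e1 : ∀ (j : Fin (k + 1)) (ω : Ω), (topF T A ω (j, 0) : ℝ) = (A j).indicator 1 ω := by
    intro j ω
    by_cases hω : ω ∈ A j <;> simp [topF, topZ, hω]
  refine (ENNReal.tendsto_toReal_iff (fun n => measure_ne_top _ _)
    (ENNReal.prod_ne_top fun i _ => measure_ne_top _ _)).1 ?_
  convert h1 using 2 with n
  · refine Eq.symm ((integral_map mF.aemeasurable (Finset.measurable_fun_prod _ fun j _ =>
      measurable_subtype_coe.comp ((measurable_pi_apply _).comp
        (measurable_sh s _))).aestronglyMeasurable).trans ?_)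
    rw [← measureReal_def, ← integral_indicator_one
      (MeasurableSet.iInter fun i => T.measurable.iterate _ (hA i))]
    refine integral_congr_ae (Eventually.of_forall fun ω => ?_)
    have : ∀ j : Fin (k + 1), (s.sh (P.pos j n) (topF T A ω) (j, (0 : ℤ)) : ℝ) =
        (A j).indicator 1 (T^[∑ l : Fin k, if (l : ℕ) < (j : ℕ) then n l else 0] ω) := fun j => by
      rw [← e1, ← topZ_nat, ← pull_topF]
      rfl
    refine Eq.trans (Finset.prod_congr rfl fun j _ => this j) ?_
    by_cases hω : ω ∈ ⋂ i : Fin (k + 1),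
        (T^[∑ j : Fin k, if (j : ℕ) < (i : ℕ) then n j else 0]) ⁻¹' A i
    · rw [indicator_of_mem hω]
      exact Finset.prod_eq_one fun i _ => indicator_of_mem (mem_preimage.1 (mem_iInter.1 hω i)) _
    · rw [indicator_of_notMem hω]
      obtain ⟨i, hi⟩ := not_forall.1 (mt mem_iInter.2 hω)
      exact Finset.prod_eq_zero (Finset.mem_univ i) (indicator_of_notMem (mt mem_preimage.2 hi) _)
  · rw [ENNReal.toReal_prod]
    refine Finset.prod_congr rfl fun j _ => ?_
    refine Eq.symm ((integral_map mF.aemeasurable (measurable_subtype_coe.comp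
      (measurable_pi_apply _)).aestronglyMeasurable).trans ?_)
    simp only [Function.comp, e1]
    exact integral_indicator_one (hA j)

end Crest.Agent.R69
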